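import Mathlib

/-!
P095, equivariant uniform property Gamma: basic definitions.

`TraceState`: tracial states as bundled data.  `SlotSystem`: translates `B g i` of a symmetry in
each of finitely many commuting slots.  `blockT`: the U-statistic realising `p(R)` where
`R a b = ∑ g, (ρ g / M) B g a * B g b`.  `bigZ`: the normalised sum over independent blocks.
-/

open scoped ComplexOrder

namespace Vale.Agent.P095.Gamma

/-- A tracial state. -/
structure TraceState (C : Type*) [CStarAlgebra C] where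
  f : C →ₗ[ℂ] ℂ
  trace : ∀ x y, f (x * y) = f (y * x)
  nonneg : ∀ x, 0 ≤ (f (star x * x)).re
  star_map : ∀ x, f (star x) = (starRingEnd ℂ) (f x)
  one : f 1 = 1
  bound : ∀ x, ‖f x‖ ≤ ‖x‖

/-- Squared 2-norm of a tracial state. -/
noncomputable def TraceState.hsq {C : Type*} [CStarAlgebra C] (τ : TraceState C) (x : C) : ℝ :=
  (τ.f (star x * x)).re

/-- Commuting slots carrying finitely many self-adjoint symmetries, each of trace zero against
everything commuting with its slot. -/
structure SlotSystem {C : Type*} [CStarAlgebra C] (τ : TraceState C) (Γ ι : Type*) where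
  B : Γ → ι → C
  U : ι → Set C
  star_mem : ∀ i, ∀ x ∈ U i, star x ∈ U i
  B_mem : ∀ g i, B g i ∈ U i
  B_sa : ∀ g i, star (B g i) = B g i
  B_sq : ∀ g i, B g i * B g i = 1
  comm : ∀ i j, i ≠ j → ∀ x ∈ U i, ∀ y ∈ U j, Commute x y
  par : ∀ g i x, (∀ y ∈ U i, Commute x y) → τ.f (x * B g i) = 0

/-- Restriction of a slot system along an injection. -/
def SlotSystem.comap {C : Type*} [CStarAlgebra C] {τ : TraceState C} {Γ ι κ : Type*}
    (S : SlotSystem τ Γ ι) (e : κ → ι) (he : Function.Injective e) : SlotSystem τ Γ κ where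
  B g i := S.B g (e i)
  U i := S.U (e i)
  star_mem i := S.star_mem (e i)
  B_mem g i := S.B_mem g (e i)
  B_sa g i := S.B_sa g (e i)
  B_sq g i := S.B_sq g (e i)
  comm i j h := S.comm (e i) (e j) fun h' => h (he h')
  par g i := S.par g (e i)

/-- Probability weights on a finite type. -/
def IsWeight {Γ : Type*} [Fintype Γ] (ρ : Γ → ℝ) : Prop := (∀ g, 0 ≤ ρ g) ∧ ∑ g, ρ g = 1

variable {R : Type*} [Ring R] [Algebra ℂ R] {Γ : Type*} [Fintype Γ]

/-- The slots of one block. -/
abbrev Cube (m : ℕ) := Fin m → Bool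

/-- Entry of the averaged rank-one matrix of a block of `2 ^ m` slots. -/
noncomputable def rEntry {m : ℕ} (B : Γ → Cube m → R) (ρ : Γ → ℝ) (a b : Cube m) : R :=
  ∑ g, ((ρ g / 2 ^ m : ℝ) : ℂ) • (B g a * B g b)

/-- Product of matrix entries along a chain of slots. -/
def chainProd {μ : Type*} (E : μ → μ → R) {q : ℕ} (i : Fin (q + 1) → μ) : R :=
  (List.ofFn fun s : Fin q => E (i s.castSucc) (i s.succ)).prod

/-- Symmetric Hadamard sign. -/
noncomputable def hsign {m : ℕ} (a b : Cube m) : ℝ := ∏ k, if a k && b k then -1 else 1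

/-- Hermitian phase with square `hsign`. -/
noncomputable def phase {m : ℕ} (a b : Cube m) : ℂ :=
  if hsign a b = 1 then 1
  else if Fintype.equivFin (Cube m) a < Fintype.equivFin (Cube m) b then Complex.I
  else -Complex.I

/-- Chains of degree `s + 1` with distinct slots. -/
noncomputable def injChains (m s : ℕ) : Finset (Fin (s + 2) → Cube m) :=
  Finset.univ.filter fun i => decide (Function.Injective i)

/-- The U-statistic realising `∑ s, c s * R ^ (s + 1)` on one block. -/
noncomputable def blockT {q m : ℕ} (c : Fin q → ℝ) (B : Γ → Cube m → R) (ρ : Γ → ℝ) : R :=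
  ∑ s : Fin q, (c s : ℂ) • ∑ i ∈ injChains m s,
    phase (i 0) (i (Fin.last _)) • chainProd (rEntry B ρ) i

/-- The normalised sum over `L` blocks. -/
noncomputable def bigZ {q m L : ℕ} (c : Fin q → ℝ) (B : Γ → Fin L × Cube m → R) (ρ : Γ → ℝ) : R :=
  ((Real.sqrt L)⁻¹ : ℂ) • ∑ l : Fin L, blockT c (fun g a => B g (l, a)) ρ

/-- The polynomial `∑ s, c s * x ^ (s + 1)`. -/
def polyVal {q : ℕ} (c : Fin q → ℝ) (x : ℝ) : ℝ := ∑ s : Fin q, c s * x ^ ((s : ℕ) + 1)

/-- The matrix of a block. -/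
noncomputable def rMatrix {C : Type*} [CStarAlgebra C] {m : ℕ} (B : Γ → Cube m → C)
    (ρ : Γ → ℝ) : CStarMatrix (Cube m) (Cube m) C :=
  CStarMatrix.ofMatrix (Matrix.of (rEntry B ρ))

/-- The polynomial applied to the matrix of a block. -/
noncomputable def polyMatrix {C : Type*} [CStarAlgebra C] {q m : ℕ} (c : Fin q → ℝ)
    (B : Γ → Cube m → C) (ρ : Γ → ℝ) : CStarMatrix (Cube m) (Cube m) C :=
  ∑ s : Fin q, (c s : ℂ) • rMatrix B ρ ^ ((s : ℕ) + 1)

/-- A periodic window evaluated at a self-adjoint element. -/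
noncomputable def window {C : Type*} [CStarAlgebra C] (f : ℝ → ℝ) (t : ℝ) (Z : C) : C :=
  cfc (fun z : ℂ => (f (t * z.re) : ℂ)) Z

/-- Uniform approximation by a trigonometric polynomial with prescribed mean. -/
def TrigApprox (g : ℝ → ℝ) (mean κ : ℝ) : Prop :=
  ∃ (D : ℕ) (c : ℤ → ℂ), ‖c 0 - (mean : ℂ)‖ ≤ κ ∧ ∀ θ : ℝ,
    ‖(g θ : ℂ) - ∑ d ∈ Finset.Icc (-(D : ℤ)) D, c d * Complex.exp ((d * θ : ℝ) * Complex.I)‖ ≤ κ

end Vale.Agent.P095.Gamma
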