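import Vale.Agent.P095.Gamma.Count

/-!
P095: first two moments of the U-statistic of one block.

A chain of slots is written as a path `(a, b, l)` with endpoints `a, b` and interior `l`.  In the
second moment a pair of paths gives zero unless every endpoint occurs in the other path.  If the
two paths together have at most `s + s' + 1` slots they are few enough to be negligible; all
others have the same pair of endpoints.  Reversed endpoints give the trace of the matrix product,
equal endpoints give a sum carrying Hadamard signs, which cancels.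
-/

open scoped ComplexOrder

namespace Vale.Agent.P095.Gamma

universe u v

namespace Block

/-- A chain of `s + 2` slots: first slot, last slot, interior. -/
abbrev Chain (m s : ℕ) := Cube m × Cube m × (Fin s → Cube m)

variable {m s s' : ℕ}

/-- The tuple of a path. -/
def pathEquiv (m s : ℕ) : Chain m s ≃ (Fin (s + 2) → Cube m) where
  toFun p := Fin.cons p.1 (Fin.snoc p.2.2 p.2.1)
  invFun i := (i 0, i (Fin.last (s + 1)), Fin.init (Fin.tail i))
  left_inv p := by
    obtain ⟨a, b, l⟩ := p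
    simp [← Fin.succ_last]
  right_inv i := by
    have h : i (Fin.last (s + 1)) = Fin.tail i (Fin.last s) := by
      rw [Fin.tail, Fin.succ_last]
    simp only [h, Fin.snoc_init_self, Fin.cons_self_tail]

/-- The slots of a path. -/
def span (p : Chain m s) : Finset (Cube m) :=
  insert p.1 (insert p.2.1 (Finset.univ.image p.2.2))

theorem image_pathEquiv (p : Chain m s) : Finset.univ.image (pathEquiv m s p) = span p := by
  ext x
  simp only [Finset.mem_image, Finset.mem_univ, true_and, span, Finset.mem_insert]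
  rw [Fin.exists_fin_succ, Fin.exists_fin_succ']
  simp [pathEquiv, eq_comm, or_comm]

theorem card_span_le (p : Chain m s) : (span p).card ≤ s + 2 := by
  rw [← image_pathEquiv]
  exact Finset.card_image_le.trans (by simp)

theorem injective_iff (p : Chain m s) :
    Function.Injective (pathEquiv m s p) ↔ (span p).card = s + 2 := by
  rw [← image_pathEquiv]
  constructor
  · intro h
    rw [Finset.card_image_of_injective _ h, Finset.card_univ, Fintype.card_fin]
  · intro h x y hxy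
    have := Finset.card_image_iff.mp (h.trans (by simp))
    exact this (by simp) (by simp) hxy

theorem notMem_of_card (p : Chain m s) (h : (span p).card = s + 2) :
    p.1 ∉ Finset.univ.image p.2.2 ∧ p.2.1 ∉ Finset.univ.image p.2.2 ∧ p.1 ≠ p.2.1 := by
  have h0 : (Finset.univ.image p.2.2).card ≤ s := Finset.card_image_le.trans (by simp)
  have h1 := Finset.card_insert_le p.2.1 (Finset.univ.image p.2.2)
  have h3 : p.1 ∉ insert p.2.1 (Finset.univ.image p.2.2) := by
    intro hm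
    rw [span, Finset.insert_eq_of_mem hm] at h
    omega
  refine ⟨fun hm => h3 (Finset.mem_insert_of_mem hm), fun hm => ?_,
    fun he => h3 (he ▸ Finset.mem_insert_self _ _)⟩
  rw [span, Finset.insert_eq_of_mem hm] at h
  have := Finset.card_insert_le p.1 (Finset.univ.image p.2.2)
  omega

theorem span_swap (a b : Cube m) (l : Fin s → Cube m) : span (b, a, l) = span (a, b, l) :=
  Finset.insert_comm _ _ _

section Algebra

variable {C : Type*} [CStarAlgebra C] {Γ : Type*} [Fintype Γ]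

/-- Product of entries along a path. -/
noncomputable def walk (B : Γ → Cube m → C) (ρ : Γ → ℝ) :
    (s : ℕ) → (Fin s → Cube m) → Cube m → Cube m → C
  | 0, _, a, b => rEntry B ρ a b
  | s + 1, l, a, b => rEntry B ρ a (l 0) * walk B ρ s (Fin.tail l) (l 0) b

theorem chainProd_pathEquiv (B : Γ → Cube m → C) (ρ : Γ → ℝ) :
    ∀ (s : ℕ) (l : Fin s → Cube m) (a b : Cube m),
      chainProd (rEntry B ρ) (pathEquiv m s (a, b, l)) = walk B ρ s l a b := by
  intro s
  induction s with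
  | zero =>
    intro l a b
    simp [chainProd, pathEquiv, walk, List.ofFn_succ, Fin.snoc]
  | succ s ih =>
    intro l a b
    have hl : (Fin.snoc l b : Fin (s + 2) → Cube m) =
        Fin.cons (l 0) (Fin.snoc (Fin.tail l) b) := by
      rw [Fin.cons_snoc_eq_snoc_cons, Fin.cons_self_tail]
    have h : pathEquiv m (s + 1) (a, b, l) = Fin.cons a (pathEquiv m s (l 0, b, Fin.tail l)) := by
      simp only [pathEquiv, Equiv.coe_fn_mk, hl]
    rw [walk, ← ih, h, chainProd, List.ofFn_succ, List.prod_cons]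
    congr 1

/-- The part of a path between the outer factors of its first and last edge. -/
noncomputable def kerK [DecidableEq Γ] (B : Γ → Cube m → C) (ρ : Γ → ℝ) :
    (s : ℕ) → (Fin s → Cube m) → Γ × Γ → C
  | 0, _, z => if z.1 = z.2 then ((ρ z.1 / 2 ^ m : ℝ) : ℂ) • 1 else 0
  | s + 1, l, z =>
      ∑ f, ((ρ z.1 / 2 ^ m : ℝ) : ℂ) • (B z.1 (l 0) * B f (l 0) * kerK B ρ s (Fin.tail l) (f, z.2))

theorem walk_eq [DecidableEq Γ] (B : Γ → Cube m → C) (ρ : Γ → ℝ) :
    ∀ (s : ℕ) (l : Fin s → Cube m) (a b : Cube m),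
      walk B ρ s l a b = ∑ z : Γ × Γ, B z.1 a * kerK B ρ s l z * B z.2 b := by
  intro s
  induction s with
  | zero =>
    intro l a b
    simp [walk, kerK, rEntry, Fintype.sum_prod_type, mul_ite, ite_mul]
  | succ s ih =>
    intro l a b
    rw [walk, ih, rEntry]
    simp only [kerK, Fintype.sum_prod_type, Finset.mul_sum, Finset.sum_mul, smul_mul_assoc,
      mul_smul_comm, mul_assoc]
    rw [Finset.sum_comm]
    conv_lhs => enter [2, g]; rw [Finset.sum_comm]
    rw [Finset.sum_comm]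

theorem norm_one_le : ‖(1 : C)‖ ≤ 1 := by
  have h := CStarRing.norm_star_mul_self (x := (1 : C))
  rw [star_one, one_mul] at h
  nlinarith [norm_nonneg (1 : C)]

omit [Fintype Γ] in
theorem norm_B_le {τ : TraceState C} {ι : Type*} (S : SlotSystem τ Γ ι) (g : Γ) (i : ι) :
    ‖S.B g i‖ ≤ 1 := by
  have h := CStarRing.norm_star_mul_self (x := S.B g i)
  rw [S.B_sa, S.B_sq] at h
  nlinarith [norm_nonneg (S.B g i), norm_one_le (C := C)]

theorem sum_norm_kerK [DecidableEq Γ] {B : Γ → Cube m → C} (hB : ∀ g a, ‖B g a‖ ≤ 1)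
    {ρ : Γ → ℝ} (hρ : IsWeight ρ) :
    ∀ (s : ℕ) (l : Fin s → Cube m),
      ∑ z : Γ × Γ, ‖kerK B ρ s l z‖ ≤ (((2 : ℝ) ^ m)⁻¹) ^ (s + 1) := by
  have hw : ∀ g, ‖((ρ g / 2 ^ m : ℝ) : ℂ)‖ = ρ g / 2 ^ m := fun g => by
    rw [Complex.norm_real, Real.norm_of_nonneg (div_nonneg (hρ.1 g) (by positivity))]
  have hsum : ∑ g, ρ g / (2 : ℝ) ^ m = ((2 : ℝ) ^ m)⁻¹ := by
    rw [← Finset.sum_div, hρ.2, one_div]
  intro s
  induction s with
  | zero =>
    intro l
    rw [Fintype.sum_prod_type, zero_add, pow_one, ← hsum]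
    refine Finset.sum_le_sum fun g _ => ?_
    simp only [kerK, apply_ite norm, norm_zero, Finset.sum_ite_eq, Finset.mem_univ, if_true]
    rw [norm_smul, hw]
    exact mul_le_of_le_one_right (div_nonneg (hρ.1 g) (by positivity)) norm_one_le
  | succ s ih =>
    intro l
    have hle : ∀ z : Γ × Γ, ‖kerK B ρ (s + 1) l z‖ ≤
        ∑ f, ρ z.1 / 2 ^ m * ‖kerK B ρ s (Fin.tail l) (f, z.2)‖ := by
      intro z
      rw [kerK]
      refine (norm_sum_le _ _).trans (Finset.sum_le_sum fun f _ => ?_)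
      rw [norm_smul, hw]
      refine mul_le_mul_of_nonneg_left ?_ (div_nonneg (hρ.1 _) (by positivity))
      refine (norm_mul_le _ _).trans ?_
      refine (mul_le_mul_of_nonneg_right ((norm_mul_le _ _).trans
        (mul_le_one₀ (hB _ _) (norm_nonneg _) (hB _ _))) (norm_nonneg _)).trans ?_
      rw [one_mul]
    refine (Finset.sum_le_sum fun z _ => hle z).trans ?_
    rw [Fintype.sum_prod_type]
    simp only [← Finset.mul_sum]
    have h2 := ih (Fin.tail l)
    rw [Fintype.sum_prod_type, Finset.sum_comm] at h2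
    rw [← Finset.sum_mul, hsum, pow_succ' _ (s + 1)]
    exact mul_le_mul_of_nonneg_left h2 (by positivity)

theorem commute_kerK [DecidableEq Γ] {B : Γ → Cube m → C} (ρ : Γ → ℝ) {y : C} :
    ∀ (s : ℕ) (l : Fin s → Cube m), (∀ g k, Commute y (B g (l k))) →
      ∀ z, Commute y (kerK B ρ s l z) := by
  intro s
  induction s with
  | zero =>
    intro l _ z
    rw [kerK]
    split_ifs
    · exact (Commute.one_right y).smul_right _
    · exact Commute.zero_right y
  | succ s ih =>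
    intro l hy z
    rw [kerK]
    exact Commute.sum_right _ _ _ fun f _ =>
      (((hy _ _).mul_right (hy _ _)).mul_right (ih _ (fun g k => hy g k.succ) _)).smul_right _

theorem norm_walk_le [DecidableEq Γ] {B : Γ → Cube m → C} (hB : ∀ g a, ‖B g a‖ ≤ 1)
    {ρ : Γ → ℝ} (hρ : IsWeight ρ) (l : Fin s → Cube m) (a b : Cube m) :
    ‖walk B ρ s l a b‖ ≤ (((2 : ℝ) ^ m)⁻¹) ^ (s + 1) := by
  rw [walk_eq]
  refine (norm_sum_le _ _).trans ((Finset.sum_le_sum fun z _ => ?_).trans (sum_norm_kerK hB hρ s l))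
  refine (norm_mul_le _ _).trans (mul_le_of_le_one_right (norm_nonneg _) (hB _ _) |>.trans ?_)
  exact (norm_mul_le _ _).trans (mul_le_of_le_one_left (norm_nonneg _) (hB _ _))

theorem blockT_eq {q : ℕ} (c : Fin q → ℝ) (B : Γ → Cube m → C) (ρ : Γ → ℝ) :
    blockT c B ρ = ∑ s : Fin q, (c s : ℂ) • ∑ p : Chain m s,
      if (span p).card = (s : ℕ) + 2 then phase p.1 p.2.1 • walk B ρ s p.2.2 p.1 p.2.1 else 0 := by
  rw [blockT]
  refine Finset.sum_congr rfl fun s _ => ?_
  congr 1
  rw [injChains, Finset.sum_filter, ← (pathEquiv m s).sum_comp]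
  refine Finset.sum_congr rfl fun p _ => ?_
  obtain ⟨a, b, l⟩ := p
  have h0 : pathEquiv m s (a, b, l) 0 = a := by simp [pathEquiv]
  have h1 : pathEquiv m s (a, b, l) (Fin.last _) = b := by simp [pathEquiv, ← Fin.succ_last]
  simp only [decide_eq_true_eq, injective_iff, chainProd_pathEquiv, h0, h1]

theorem rMatrix_pow_apply (B : Γ → Cube m → C) (ρ : Γ → ℝ) :
    ∀ (s : ℕ) (a b : Cube m), (rMatrix B ρ ^ (s + 1)) a b = ∑ l, walk B ρ s l a b := by
  intro s
  induction s with
  | zero =>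
    intro a b
    simp [rMatrix, walk]
  | succ s ih =>
    intro a b
    rw [pow_succ', CStarMatrix.mul_apply, ← (Fin.consEquiv fun _ => Cube m).sum_comp,
      Fintype.sum_prod_type]
    refine Finset.sum_congr rfl fun d _ => ?_
    rw [ih, Finset.mul_sum]
    simp [walk, rMatrix, Fin.consEquiv]

theorem polyMatrix_apply {q : ℕ} (c : Fin q → ℝ) (B : Γ → Cube m → C) (ρ : Γ → ℝ) (a b : Cube m) :
    polyMatrix c B ρ a b = ∑ s : Fin q, (c s : ℂ) • ∑ l, walk B ρ s l a b := by
  simp only [← rMatrix_pow_apply]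
  let ev : CStarMatrix (Cube m) (Cube m) C →+ C :=
    { toFun := fun M => M a b, map_zero' := rfl, map_add' := fun _ _ => rfl }
  show ev (polyMatrix c B ρ) = _
  rw [polyMatrix, map_sum]
  rfl

end Algebra

section Trace

set_option linter.unusedSectionVars false

variable {C : Type*} [CStarAlgebra C] {τ : TraceState C} {Γ : Type*} [Fintype Γ]

/-- Two elements in different slots commute. -/
theorem commute_B (S : SlotSystem τ Γ (Cube m)) {a b : Cube m} (h : a ≠ b) (g g' : Γ) :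
    Commute (S.B g a) (S.B g' b) :=
  S.comm a b h _ (S.B_mem g a) _ (S.B_mem g' b)

theorem trace_mid (S : SlotSystem τ Γ (Cube m)) (g : Γ) (a : Cube m) {Y Z : C}
    (hY : ∀ y ∈ S.U a, Commute Y y) (hZ : ∀ y ∈ S.U a, Commute Z y) :
    τ.f (Y * S.B g a * Z) = 0 := by
  rw [τ.trace, ← mul_assoc]
  exact S.par g a _ fun y hy => (hZ y hy).mul_left (hY y hy)

theorem commute_B_U (S : SlotSystem τ Γ (Cube m)) {a b : Cube m} (h : b ≠ a) (g : Γ) :
    ∀ y ∈ S.U a, Commute (S.B g b) y :=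
  fun y hy => S.comm b a h _ (S.B_mem g b) y hy

variable [DecidableEq Γ]

theorem commute_kerK_U (S : SlotSystem τ Γ (Cube m)) (ρ : Γ → ℝ) {l : Fin s → Cube m}
    {a : Cube m} (h : a ∉ Finset.univ.image l) (z : Γ × Γ) :
    ∀ y ∈ S.U a, Commute (kerK S.B ρ s l z) y := by
  intro y hy
  exact (commute_kerK ρ s l
    (fun g k => (commute_B_U S (fun he => h (Finset.mem_image.mpr ⟨k, Finset.mem_univ k, he⟩)) g y hy).symm) z).symm

theorem commute_walk_U (S : SlotSystem τ Γ (Cube m)) (ρ : Γ → ℝ) (p : Chain m s)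
    {a : Cube m} (h : a ∉ span p) :
    ∀ y ∈ S.U a, Commute (walk S.B ρ s p.2.2 p.1 p.2.1) y := by
  intro y hy
  simp only [span, Finset.mem_insert, not_or] at h
  rw [walk_eq]
  exact Commute.sum_left _ _ _ fun z _ =>
    ((commute_B_U S (Ne.symm h.1) _ y hy).mul_left (commute_kerK_U S ρ h.2.2 z y hy)).mul_left
      (commute_B_U S (Ne.symm h.2.1) _ y hy)

/-- An endpoint of a path that is seen only once kills the trace. -/
theorem trace_walk_eq_zero (S : SlotSystem τ Γ (Cube m)) (ρ : Γ → ℝ) (p : Chain m s)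
    (hp : (span p).card = s + 2) {Y Z : C}
    (h : (∀ y ∈ S.U p.1, Commute Y y ∧ Commute Z y) ∨
      ∀ y ∈ S.U p.2.1, Commute Y y ∧ Commute Z y) :
    τ.f (Y * walk S.B ρ s p.2.2 p.1 p.2.1 * Z) = 0 := by
  obtain ⟨ha, hb, hab⟩ := notMem_of_card p hp
  rw [walk_eq, Finset.mul_sum, Finset.sum_mul, map_sum]
  refine Finset.sum_eq_zero fun z _ => ?_
  rcases h with h | h
  · have e : Y * (S.B z.1 p.1 * kerK S.B ρ s p.2.2 z * S.B z.2 p.2.1) * Z =
        Y * S.B z.1 p.1 * (kerK S.B ρ s p.2.2 z * S.B z.2 p.2.1 * Z) := by simp [mul_assoc]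
    rw [e]
    exact trace_mid S z.1 p.1 (fun y hy => (h y hy).1) fun y hy =>
      ((commute_kerK_U S ρ ha z y hy).mul_left
        (commute_B_U S hab.symm _ y hy)).mul_left (h y hy).2
  · have e : Y * (S.B z.1 p.1 * kerK S.B ρ s p.2.2 z * S.B z.2 p.2.1) * Z =
        (Y * (S.B z.1 p.1 * kerK S.B ρ s p.2.2 z)) * S.B z.2 p.2.1 * Z := by simp [mul_assoc]
    rw [e]
    exact trace_mid S z.2 p.2.1 (fun y hy => (h y hy).1.mul_left
      ((commute_B_U S hab _ y hy).mul_left (commute_kerK_U S ρ hb z y hy))) fun y hy => (h y hy).2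

/-- Two paths with the same endpoints, endpoint factors moved outside. -/
noncomputable def eqTerm (B : Γ → Cube m → C) (ρ σ : Γ → ℝ) (a b : Cube m)
    (l : Fin s → Cube m) (l' : Fin s' → Cube m) : C :=
  ∑ z : (Γ × Γ) × (Γ × Γ),
    (B z.1.1 a * B z.2.1 a) * (kerK B ρ s l z.1 * kerK B σ s' l' z.2) *
      (B z.1.2 b * B z.2.2 b)

theorem walk_mul_walk (S : SlotSystem τ Γ (Cube m)) (ρ σ : Γ → ℝ) {a b : Cube m}
    {l : Fin s → Cube m} {l' : Fin s' → Cube m} (hab : a ≠ b)
    (ha : a ∉ Finset.univ.image l) (hb : b ∉ Finset.univ.image l') :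
    walk S.B ρ s l a b * walk S.B σ s' l' a b = eqTerm S.B ρ σ a b l l' := by
  rw [walk_eq, walk_eq, Finset.sum_mul_sum, eqTerm, ← Fintype.sum_prod_type']
  refine Finset.sum_congr rfl fun z _ => ?_
  have c1 := commute_kerK_U S ρ ha z.1 _ (S.B_mem z.2.1 a)
  have c2 := commute_B S hab.symm z.1.2 z.2.1
  have c3 := (commute_kerK_U S σ hb z.2 _ (S.B_mem z.1.2 b)).symm
  set P := S.B z.1.1 a
  set K := kerK S.B ρ s l z.1
  set Q := S.B z.1.2 b
  set P' := S.B z.2.1 a
  set K' := kerK S.B σ s' l' z.2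
  set Q' := S.B z.2.2 b
  calc P * K * Q * (P' * K' * Q') = P * K * (Q * P') * K' * Q' := by simp [mul_assoc]
    _ = P * (K * P') * (Q * K') * Q' := by rw [c2.eq]; simp [mul_assoc]
    _ = P * P' * (K * K') * (Q * Q') := by rw [c1.eq, c3.eq]; simp [mul_assoc]

theorem norm_eqTerm_le {B : Γ → Cube m → C} (hB : ∀ g a, ‖B g a‖ ≤ 1) {ρ σ : Γ → ℝ}
    (hρ : IsWeight ρ) (hσ : IsWeight σ) (a b : Cube m) (l : Fin s → Cube m)
    (l' : Fin s' → Cube m) :
    ‖eqTerm B ρ σ a b l l'‖ ≤ (((2 : ℝ) ^ m)⁻¹) ^ (s + 1) * (((2 : ℝ) ^ m)⁻¹) ^ (s' + 1) := by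
  have h : ∀ z : (Γ × Γ) × (Γ × Γ), ‖(B z.1.1 a * B z.2.1 a) *
      (kerK B ρ s l z.1 * kerK B σ s' l' z.2) * (B z.1.2 b * B z.2.2 b)‖ ≤
      ‖kerK B ρ s l z.1‖ * ‖kerK B σ s' l' z.2‖ := by
    intro z
    refine (norm_mul_le _ _).trans ((mul_le_of_le_one_right (norm_nonneg _) ?_).trans ?_)
    · exact (norm_mul_le _ _).trans (mul_le_one₀ (hB _ _) (norm_nonneg _) (hB _ _))
    refine (norm_mul_le _ _).trans
      ((mul_le_of_le_one_left (norm_nonneg _) ?_).trans (norm_mul_le _ _))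
    exact (norm_mul_le _ _).trans (mul_le_one₀ (hB _ _) (norm_nonneg _) (hB _ _))
  refine ((norm_sum_le _ _).trans (Finset.sum_le_sum fun z _ => h z)).trans ?_
  refine le_trans (le_of_eq ((Fintype.sum_prod_type' (fun x y =>
    ‖kerK B ρ s l x‖ * ‖kerK B σ s' l' y‖)).trans (Finset.sum_mul_sum _ _ _ _).symm)) ?_
  exact mul_le_mul (sum_norm_kerK hB hρ s l) (sum_norm_kerK hB hσ s' l')
    (Finset.sum_nonneg fun _ _ => norm_nonneg _) (by positivity)

/-- Equal endpoints: the Hadamard signs cancel. -/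
theorem norm_sum_eqTerm_le {B : Γ → Cube m → C} (hB : ∀ g a, ‖B g a‖ ≤ 1) {ρ σ : Γ → ℝ}
    (hρ : IsWeight ρ) (hσ : IsWeight σ) (l : Fin s → Cube m) (l' : Fin s' → Cube m) :
    ‖∑ a, ∑ b, (hsign a b : ℂ) • eqTerm B ρ σ a b l l'‖ ≤
      (2 : ℝ) ^ m * Real.sqrt ((2 : ℝ) ^ m) *
        ((((2 : ℝ) ^ m)⁻¹) ^ (s + 1) * (((2 : ℝ) ^ m)⁻¹) ^ (s' + 1)) := by
  have e : ∑ a, ∑ b, (hsign a b : ℂ) • eqTerm B ρ σ a b l l' =
      ∑ z : (Γ × Γ) × (Γ × Γ), ∑ a, ∑ b, (hsign a b : ℂ) •
        ((B z.1.1 a * B z.2.1 a) * (kerK B ρ s l z.1 * kerK B σ s' l' z.2) *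
          (B z.1.2 b * B z.2.2 b)) := by
    simp only [eqTerm, Finset.smul_sum]
    conv_rhs => rw [Finset.sum_comm]; enter [2, a]; rw [Finset.sum_comm]
  rw [e]
  refine (norm_sum_le _ _).trans ((Finset.sum_le_sum fun z _ => norm_hsign_sum_le _ _ _
    (fun a => (norm_mul_le _ _).trans (mul_le_one₀ (hB _ _) (norm_nonneg _) (hB _ _)))
    fun b => (norm_mul_le _ _).trans (mul_le_one₀ (hB _ _) (norm_nonneg _) (hB _ _))).trans ?_)
  rw [← Finset.mul_sum]
  refine mul_le_mul_of_nonneg_left ?_ (by positivity)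
  refine (Finset.sum_le_sum fun z _ => norm_mul_le _ _).trans ?_
  refine le_trans (le_of_eq ((Fintype.sum_prod_type' (fun x y =>
    ‖kerK B ρ s l x‖ * ‖kerK B σ s' l' y‖)).trans (Finset.sum_mul_sum _ _ _ _).symm)) ?_
  exact mul_le_mul (sum_norm_kerK hB hρ s l) (sum_norm_kerK hB hσ s' l')
    (Finset.sum_nonneg fun _ _ => norm_nonneg _) (by positivity)

/-- Indicator of a pair of paths with few slots. -/
noncomputable def few (p : Chain m s) (q : Chain m s') : ℝ :=
  if (span p ∪ span q).card ≤ s + s' + 1 then 1 else 0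

theorem sum_few_le (m s s' : ℕ) :
    ∑ p : Chain m s, ∑ q : Chain m s', few p q ≤
      ((2 : ℝ) ^ m) ^ (s + s' + 1) * ((s + s' + 2 : ℕ) : ℝ) ^ (s + s' + 4) := by
  classical
  have h : (Finset.univ.filter fun z : Chain m s × Chain m s' =>
      (span z.1 ∪ span z.2).card ≤ s + s' + 1).card ≤
      (2 ^ m) ^ (s + s' + 1) * (s + s' + 2) ^ (s + s' + 4) := by
    refine le_trans ?_ (le_trans (card_image_le_bound (α := Fin (s + 2) ⊕ Fin (s' + 2))
      (μ := Cube m) (s + s' + 1)) (le_of_eq ?_))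
    · refine Finset.card_le_card_of_injOn
        (fun z => Sum.elim (pathEquiv m s z.1) (pathEquiv m s' z.2)) ?_ ?_
      · intro z hz
        simp only [Finset.coe_filter, Finset.mem_univ, true_and, Set.mem_ofPred_eq] at hz ⊢
        refine le_trans (le_of_eq (congrArg Finset.card ?_)) hz
        rw [← image_pathEquiv, ← image_pathEquiv]
        ext x
        simp
      · intro z _ z' _ hzz
        have h1 := congrArg (fun F => F ∘ Sum.inl) hzz
        have h2 := congrArg (fun F => F ∘ Sum.inr) hzz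
        simp only [Sum.elim_comp_inl, Sum.elim_comp_inr, EmbeddingLike.apply_eq_iff_eq] at h1 h2
        exact Prod.ext h1 h2
    · have hα : Fintype.card (Fin (s + 2) ⊕ Fin (s' + 2)) = s + s' + 4 := by
        simp; omega
      rw [hα]
      simp [Cube]
  have h' : ((Finset.univ.filter fun z : Chain m s × Chain m s' =>
      (span z.1 ∪ span z.2).card ≤ s + s' + 1).card : ℝ) ≤
      ((2 : ℝ) ^ m) ^ (s + s' + 1) * ((s + s' + 2 : ℕ) : ℝ) ^ (s + s' + 4) := by
    exact_mod_cast h
  refine le_trans (le_of_eq ?_) h'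
  rw [← Fintype.sum_prod_type']
  simp [few, Finset.sum_boole]

/-- Summand of the second moment. -/
noncomputable def term (B : Γ → Cube m → C) (τ : TraceState C) (X : C) (ρ σ : Γ → ℝ)
    (p : Chain m s) (q : Chain m s') : ℂ :=
  if (span p).card = s + 2 ∧ (span q).card = s' + 2 then
    phase p.1 p.2.1 * phase q.1 q.2.1 *
      τ.f (X * (walk B ρ s p.2.2 p.1 p.2.1 * walk B σ s' q.2.2 q.1 q.2.1))
  else 0

theorem norm_trace_mul_le (τ : TraceState C) (X Y : C) {e : ℝ} (h : ‖Y‖ ≤ e) :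
    ‖τ.f (X * Y)‖ ≤ ‖X‖ * e :=
  ((τ.bound _).trans (norm_mul_le _ _)).trans (mul_le_mul_of_nonneg_left h (norm_nonneg _))

theorem norm_term_le {B : Γ → Cube m → C} (hB : ∀ g a, ‖B g a‖ ≤ 1) (X : C) {ρ σ : Γ → ℝ}
    (hρ : IsWeight ρ) (hσ : IsWeight σ) (p : Chain m s) (q : Chain m s') :
    ‖term B τ X ρ σ p q‖ ≤
      ‖X‖ * ((((2 : ℝ) ^ m)⁻¹) ^ (s + 1) * (((2 : ℝ) ^ m)⁻¹) ^ (s' + 1)) := by
  rw [term]
  split_ifs with h
  · rw [norm_mul, norm_mul, norm_phase, norm_phase, one_mul, one_mul]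
    exact norm_trace_mul_le τ X _ ((norm_mul_le _ _).trans (mul_le_mul (norm_walk_le hB hρ _ _ _)
      (norm_walk_le hB hσ _ _ _) (norm_nonneg _) (by positivity)))
  · rw [norm_zero]; positivity

theorem sum_ends {M : Type*} [AddCommMonoid M] (f : Chain m s' → M) (u w : Cube m) :
    ∑ q : Chain m s', (if q.1 = u ∧ q.2.1 = w then f q else 0) =
      ∑ l' : Fin s' → Cube m, f (u, w, l') := by
  rw [Fintype.sum_prod_type, Finset.sum_eq_single u (fun x _ hx => by simp [hx]) (by simp),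
    Fintype.sum_prod_type, Finset.sum_eq_single w (fun x _ hx => by simp [hx]) (by simp)]
  simp

theorem sum_comm_four {α β γ δ M : Type*} [Fintype α] [Fintype β] [Fintype γ] [Fintype δ]
    [AddCommMonoid M] (f : α → β → γ → δ → M) :
    ∑ a, ∑ b, ∑ c, ∑ d, f a b c d = ∑ c, ∑ d, ∑ a, ∑ b, f a b c d :=
  calc ∑ a, ∑ b, ∑ c, ∑ d, f a b c d
      = ∑ a, ∑ c, ∑ b, ∑ d, f a b c d := Finset.sum_congr rfl fun _ _ => Finset.sum_comm
    _ = ∑ c, ∑ a, ∑ b, ∑ d, f a b c d := Finset.sum_comm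
    _ = ∑ c, ∑ a, ∑ d, ∑ b, f a b c d :=
      Finset.sum_congr rfl fun _ _ => Finset.sum_congr rfl fun _ _ => Finset.sum_comm
    _ = ∑ c, ∑ d, ∑ a, ∑ b, f a b c d := Finset.sum_congr rfl fun _ _ => Finset.sum_comm

/-- A pair of paths with many slots contributes only if the endpoint pairs agree. -/
theorem term_eq_zero (S : SlotSystem τ Γ (Cube m)) {X : C}
    (hX : ∀ i, ∀ x ∈ S.U i, Commute X x) (ρ σ : Γ → ℝ) (p : Chain m s) (q : Chain m s')
    (hbig : ¬ (span p ∪ span q).card ≤ s + s' + 1)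
    (h1 : ¬ (q.1 = p.1 ∧ q.2.1 = p.2.1)) (h2 : ¬ (q.1 = p.2.1 ∧ q.2.1 = p.1)) :
    term S.B τ X ρ σ p q = 0 := by
  rw [term]
  split_ifs with h
  swap
  · rfl
  obtain ⟨hp, hq⟩ := h
  suffices h0 : τ.f (X * (walk S.B ρ s p.2.2 p.1 p.2.1 * walk S.B σ s' q.2.2 q.1 q.2.1)) = 0 by
    rw [h0, mul_zero]
  by_cases hpq : p.1 ∈ span q ∧ p.2.1 ∈ span q
  swap
  · rw [← mul_assoc]
    refine trace_walk_eq_zero S ρ p hp ?_
    rcases not_and_or.mp hpq with h | h
    · exact Or.inl fun y hy => ⟨hX _ y hy, commute_walk_U S σ q h y hy⟩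
    · exact Or.inr fun y hy => ⟨hX _ y hy, commute_walk_U S σ q h y hy⟩
  by_cases hqp : q.1 ∈ span p ∧ q.2.1 ∈ span p
  swap
  · rw [show X * (walk S.B ρ s p.2.2 p.1 p.2.1 * walk S.B σ s' q.2.2 q.1 q.2.1) =
      X * walk S.B ρ s p.2.2 p.1 p.2.1 * walk S.B σ s' q.2.2 q.1 q.2.1 * 1 by simp [mul_assoc]]
    refine trace_walk_eq_zero S σ q hq ?_
    rcases not_and_or.mp hqp with h | h
    · exact Or.inl fun y hy =>
        ⟨(hX _ y hy).mul_left (commute_walk_U S ρ p h y hy), Commute.one_left y⟩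
    · exact Or.inr fun y hy =>
        ⟨(hX _ y hy).mul_left (commute_walk_U S ρ p h y hy), Commute.one_left y⟩
  exfalso
  have hcard : (span p ∩ span q).card ≤ 2 := by
    have := Finset.card_union_add_card_inter (span p) (span q)
    omega
  have hsub : ({p.1, p.2.1} : Finset (Cube m)) ⊆ span p ∩ span q := by
    intro x hx
    rcases Finset.mem_insert.mp hx with rfl | hx
    · exact Finset.mem_inter.mpr ⟨by simp [span], hpq.1⟩
    · rw [Finset.mem_singleton.mp hx]
      exact Finset.mem_inter.mpr ⟨by simp [span], hpq.2⟩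
  have he := Finset.eq_of_subset_of_card_le hsub
    (by rw [Finset.card_pair (notMem_of_card p hp).2.2]; exact hcard)
  have hq' := (notMem_of_card q hq).2.2
  have m1 : q.1 ∈ ({p.1, p.2.1} : Finset (Cube m)) := by
    rw [he]; exact Finset.mem_inter.mpr ⟨hqp.1, by simp [span]⟩
  have m2 : q.2.1 ∈ ({p.1, p.2.1} : Finset (Cube m)) := by
    rw [he]; exact Finset.mem_inter.mpr ⟨hqp.2, by simp [span]⟩
  simp only [Finset.mem_insert, Finset.mem_singleton] at m1 m2
  rcases m1 with m1 | m1 <;> rcases m2 with m2 | m2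
  · exact hq' (m1.trans m2.symm)
  · exact h1 ⟨m1, m2⟩
  · exact h2 ⟨m1, m2⟩
  · exact hq' (m1.trans m2.symm)

/-- The two surviving classes of pairs. -/
theorem sum_many (S : SlotSystem τ Γ (Cube m)) {X : C}
    (hX : ∀ i, ∀ x ∈ S.U i, Commute X x) (ρ σ : Γ → ℝ) :
    ∑ p : Chain m s, ∑ q : Chain m s', ((1 - few p q : ℝ) : ℂ) * term S.B τ X ρ σ p q =
      ∑ a, ∑ b, ∑ l : Fin s → Cube m, ∑ l' : Fin s' → Cube m,
        ((1 - few (a, b, l) (a, b, l') : ℝ) : ℂ) *
          (τ.f (X * (walk S.B ρ s l a b * walk S.B σ s' l' b a)) +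
            (hsign a b : ℂ) * τ.f (X * eqTerm S.B ρ σ a b l l')) := by
  set G : Chain m s → Chain m s' → ℂ :=
    fun p q => ((1 - few p q : ℝ) : ℂ) * term S.B τ X ρ σ p q with hG
  have hsplit : ∀ p q, G p q =
      (if q.1 = p.1 ∧ q.2.1 = p.2.1 then G p q else 0) +
      (if q.1 = p.2.1 ∧ q.2.1 = p.1 then G p q else 0) := by
    intro p q
    by_cases hb : (span p ∪ span q).card ≤ s + s' + 1
    · simp [hG, few, hb]
    split_ifs with h1 h2 h2
    · have hne : ¬ (span p).card = s + 2 := fun hp => (notMem_of_card p hp).2.2 (h1.1.symm.trans h2.1)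
      simp [hG, term, hne]
    · rw [add_zero]
    · rw [zero_add]
    · simp [hG, term_eq_zero S hX ρ σ p q hb h1 h2]
  show ∑ p, ∑ q, G p q = _
  rw [Finset.sum_congr rfl fun p _ => Finset.sum_congr rfl fun q _ => hsplit p q]
  simp only [Finset.sum_add_distrib, sum_ends]
  rw [← Finset.sum_add_distrib, Fintype.sum_prod_type]
  simp only [Fintype.sum_prod_type]
  refine Finset.sum_congr rfl fun a _ => Finset.sum_congr rfl fun b _ =>
    Finset.sum_congr rfl fun l _ => ?_
  rw [← Finset.sum_add_distrib]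
  refine Finset.sum_congr rfl fun l' _ => ?_
  have hfew : few (a, b, l) (b, a, l') = few (a, b, l) (a, b, l') := by
    simp only [few, span_swap a b l']
  simp only [hG, hfew, ← mul_add]
  by_cases hb : (span (a, b, l) ∪ span (a, b, l')).card ≤ s + s' + 1
  · simp [few, hb]
  congr 1
  -- many slots: all distinct
  have hu : span (a, b, l) ∪ span (a, b, l') =
      span (a, b, l) ∪ Finset.univ.image l' := by
    ext x; simp [span]
  have hu' : span (a, b, l) ∪ span (a, b, l') =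
      span (a, b, l') ∪ Finset.univ.image l := by
    ext x; simp [span]; tauto
  have hl : (Finset.univ.image l).card ≤ s := Finset.card_image_le.trans (by simp)
  have hl' : (Finset.univ.image l').card ≤ s' := Finset.card_image_le.trans (by simp)
  have hp : (span (a, b, l)).card = s + 2 := by
    have h1 := Finset.card_union_le (span (a, b, l)) (Finset.univ.image l')
    have := card_span_le (a, b, l)
    rw [← hu] at h1
    omega
  have hq : (span (a, b, l')).card = s' + 2 := by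
    have h1 := Finset.card_union_le (span (a, b, l')) (Finset.univ.image l)
    have := card_span_le (a, b, l')
    rw [← hu'] at h1
    omega
  obtain ⟨ha, -, hab⟩ := notMem_of_card _ hp
  obtain ⟨-, hb', -⟩ := notMem_of_card _ hq
  simp only [term, span_swap a b l', hp, hq, and_self, if_true, phase_mul_self,
    walk_mul_walk S ρ σ hab ha hb']
  have hph : phase a b * phase b a = 1 := by
    rw [← phase_conj hab, Complex.mul_conj']
    simp [norm_phase]
  rw [hph, one_mul, add_comm]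

/-- The second moment in fixed degrees. -/
theorem second_moment (S : SlotSystem τ Γ (Cube m)) {X : C}
    (hX : ∀ i, ∀ x ∈ S.U i, Commute X x) {ρ σ : Γ → ℝ} (hρ : IsWeight ρ) (hσ : IsWeight σ)
    (s s' : ℕ) :
    ‖∑ p : Chain m s, ∑ q : Chain m s', term S.B τ X ρ σ p q -
        ∑ a, ∑ b, ∑ l : Fin s → Cube m, ∑ l' : Fin s' → Cube m,
          τ.f (X * (walk S.B ρ s l a b * walk S.B σ s' l' b a))‖ ≤
      ‖X‖ / Real.sqrt ((2 : ℝ) ^ m) * (3 * ((s + s' + 2 : ℕ) : ℝ) ^ (s + s' + 4) + 1) := by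
  have hB := norm_B_le S
  set M : ℝ := (2 : ℝ) ^ m with hM
  set e : ℝ := M⁻¹ ^ (s + 1) * M⁻¹ ^ (s' + 1) with he
  set N : ℝ := ((s + s' + 2 : ℕ) : ℝ) ^ (s + s' + 4) with hN
  have hM1 : 1 ≤ M := one_le_pow₀ (by norm_num)
  have hM0 : 0 < M := by linarith
  have he0 : 0 ≤ e := by positivity
  have hXe : 0 ≤ ‖X‖ * e := mul_nonneg (norm_nonneg _) he0
  have hfew0 : ∀ {t t' : ℕ} (p : Chain m t) (q : Chain m t'), 0 ≤ few p q := fun p q => by
    rw [few]; split_ifs <;> norm_num
  set R : Cube m → Cube m → (Fin s → Cube m) → (Fin s' → Cube m) → ℂ :=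
    fun a b l l' => τ.f (X * (walk S.B ρ s l a b * walk S.B σ s' l' b a)) with hR
  set E : Cube m → Cube m → (Fin s → Cube m) → (Fin s' → Cube m) → ℂ :=
    fun a b l l' => (hsign a b : ℂ) * τ.f (X * eqTerm S.B ρ σ a b l l') with hE
  have key : ∑ p : Chain m s, ∑ q : Chain m s', term S.B τ X ρ σ p q -
      ∑ a, ∑ b, ∑ l, ∑ l', R a b l l' =
      (∑ p : Chain m s, ∑ q : Chain m s', (few p q : ℂ) * term S.B τ X ρ σ p q -
        ∑ a, ∑ b, ∑ l, ∑ l', (few (a, b, l) (a, b, l') : ℂ) * (R a b l l' + E a b l l')) +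
      ∑ a, ∑ b, ∑ l, ∑ l', E a b l l' := by
    have := sum_many (s := s) (s' := s') S hX ρ σ
    simp only [Complex.ofReal_sub, Complex.ofReal_one, sub_mul, one_mul,
      Finset.sum_sub_distrib, Finset.sum_add_distrib, mul_add] at this ⊢
    simp only [hR, hE]
    linear_combination this
  show ‖_ - ∑ a, ∑ b, ∑ l, ∑ l', R a b l l'‖ ≤ _
  rw [key]
  have hfsum : ∀ p : Chain m s,
      ∑ l' : Fin s' → Cube m, few p (p.1, p.2.1, l') ≤ ∑ q : Chain m s', few p q := by
    intro p
    rw [Fintype.sum_prod_type]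
    simp only [Fintype.sum_prod_type]
    refine le_trans ?_ (Finset.single_le_sum
      (f := fun a' => ∑ b', ∑ l' : Fin s' → Cube m, few p (a', b', l'))
      (fun _ _ => Finset.sum_nonneg fun _ _ => Finset.sum_nonneg fun _ _ => hfew0 _ _)
      (Finset.mem_univ p.1))
    exact Finset.single_le_sum (f := fun b' => ∑ l' : Fin s' → Cube m, few p (p.1, b', l'))
      (fun _ _ => Finset.sum_nonneg fun _ _ => hfew0 _ _) (Finset.mem_univ p.2.1)
  have hcount : ∑ p : Chain m s, ∑ q : Chain m s', few p q ≤ M ^ (s + s' + 1) * N :=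
    sum_few_le m s s'
  have hMe : M ^ (s + s' + 1) * e = M⁻¹ := by
    rw [he, ← pow_add, show s + 1 + (s' + 1) = (s + s' + 1) + 1 by omega, pow_succ M⁻¹,
      inv_pow,
      ← mul_assoc, mul_inv_cancel₀ (pow_ne_zero _ hM0.ne'), one_mul]
  have b1 : ‖∑ p : Chain m s, ∑ q : Chain m s', (few p q : ℂ) * term S.B τ X ρ σ p q‖ ≤
      ‖X‖ * N * M⁻¹ := by
    refine (norm_sum_le _ _).trans ((Finset.sum_le_sum fun p _ => norm_sum_le _ _).trans ?_)
    calc ∑ p : Chain m s, ∑ q : Chain m s', ‖(few p q : ℂ) * term S.B τ X ρ σ p q‖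
        ≤ ∑ p : Chain m s, ∑ q : Chain m s', few p q * (‖X‖ * e) := by
          refine Finset.sum_le_sum fun p _ => Finset.sum_le_sum fun q _ => ?_
          rw [norm_mul, Complex.norm_real, Real.norm_of_nonneg (hfew0 p q)]
          exact mul_le_mul_of_nonneg_left (norm_term_le hB X hρ hσ p q) (hfew0 p q)
      _ = (∑ p : Chain m s, ∑ q : Chain m s', few p q) * (‖X‖ * e) := by simp only [Finset.sum_mul]
      _ ≤ M ^ (s + s' + 1) * N * (‖X‖ * e) := mul_le_mul_of_nonneg_right hcount hXe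
      _ = ‖X‖ * N * M⁻¹ := by rw [← hMe]; ring
  have b2 : ‖∑ a, ∑ b, ∑ l, ∑ l', (few (a, b, l) (a, b, l') : ℂ) * (R a b l l' + E a b l l')‖ ≤
      2 * (‖X‖ * N * M⁻¹) := by
    refine (norm_sum_le _ _).trans ((Finset.sum_le_sum fun a _ => (norm_sum_le _ _).trans
      (Finset.sum_le_sum fun b _ => (norm_sum_le _ _).trans
        (Finset.sum_le_sum fun l _ => norm_sum_le _ _))).trans ?_)
    calc ∑ a, ∑ b, ∑ l : Fin s → Cube m, ∑ l' : Fin s' → Cube m,
          ‖(few (a, b, l) (a, b, l') : ℂ) * (R a b l l' + E a b l l')‖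
        ≤ ∑ a, ∑ b, ∑ l : Fin s → Cube m, ∑ l' : Fin s' → Cube m,
            few (a, b, l) (a, b, l') * (2 * (‖X‖ * e)) := by
          refine Finset.sum_le_sum fun a _ => Finset.sum_le_sum fun b _ =>
            Finset.sum_le_sum fun l _ => Finset.sum_le_sum fun l' _ => ?_
          rw [norm_mul, Complex.norm_real, Real.norm_of_nonneg (hfew0 _ _)]
          refine mul_le_mul_of_nonneg_left ((norm_add_le _ _).trans ?_) (hfew0 _ _)
          rw [two_mul]
          refine add_le_add (norm_trace_mul_le τ X _ ((norm_mul_le _ _).trans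
            (mul_le_mul (norm_walk_le hB hρ _ _ _) (norm_walk_le hB hσ _ _ _) (norm_nonneg _)
              (by positivity)))) ?_
          rw [hE, norm_mul, ← phase_mul_self, norm_mul, norm_phase, one_mul, one_mul]
          exact norm_trace_mul_le τ X _ (norm_eqTerm_le hB hρ hσ a b l l')
      _ = (∑ p : Chain m s, ∑ l' : Fin s' → Cube m, few p (p.1, p.2.1, l')) *
            (2 * (‖X‖ * e)) := by
          simp only [Fintype.sum_prod_type, Finset.sum_mul]
      _ ≤ M ^ (s + s' + 1) * N * (2 * (‖X‖ * e)) := mul_le_mul_of_nonneg_right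
            ((Finset.sum_le_sum fun p _ => hfsum p).trans hcount) (by linarith)
      _ = 2 * (‖X‖ * N * M⁻¹) := by rw [← hMe]; ring
  have b3 : ‖∑ a, ∑ b, ∑ l, ∑ l', E a b l l'‖ ≤ ‖X‖ / Real.sqrt M := by
    have e1 : ∑ a, ∑ b, ∑ l, ∑ l', E a b l l' = ∑ l : Fin s → Cube m, ∑ l' : Fin s' → Cube m,
        τ.f (X * ∑ a, ∑ b, (hsign a b : ℂ) • eqTerm S.B ρ σ a b l l') := by
      rw [sum_comm_four]
      simp only [hE, Finset.mul_sum, map_sum, mul_smul_comm, map_smul, smul_eq_mul]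
    rw [e1]
    refine (norm_sum_le _ _).trans ((Finset.sum_le_sum fun l _ => (norm_sum_le _ _).trans
      (Finset.sum_le_sum fun l' _ => norm_trace_mul_le τ X _
        (norm_sum_eqTerm_le hB hρ hσ l l'))).trans (le_of_eq ?_))
    have hsq : Real.sqrt M * Real.sqrt M = M := Real.mul_self_sqrt hM0.le
    simp only [Finset.sum_const, Finset.card_univ, nsmul_eq_mul, Fintype.card_fun,
      Fintype.card_fin, Fintype.card_bool, Nat.cast_pow, Nat.cast_ofNat, ← hM, inv_pow,
      pow_succ]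
    field_simp
    linear_combination (‖X‖ * 1) * hsq
  have hinv : M⁻¹ ≤ (Real.sqrt M)⁻¹ := by
    apply inv_anti₀ (Real.sqrt_pos.mpr hM0)
    rw [Real.sqrt_le_left hM0.le]
    nlinarith
  have hN0 : 0 ≤ N := by positivity
  refine (norm_add_le _ _).trans ((add_le_add ((norm_sub_le _ _).trans (add_le_add b1 b2)) b3).trans ?_)
  have := mul_le_mul_of_nonneg_left hinv (mul_nonneg (norm_nonneg X) hN0)
  rw [div_eq_mul_inv]
  nlinarith

end Trace

end Block

open Block

theorem blockT_isSelfAdjoint {C : Type*} [CStarAlgebra C] {Γ : Type*}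
    [Fintype Γ] {q m : ℕ} (c : Fin q → ℝ) (B : Γ → Cube m → C)
    (hB : ∀ g a, star (B g a) = B g a) (ρ : Γ → ℝ) :
    IsSelfAdjoint (blockT c B ρ) := by
  have hE : ∀ a b, star (rEntry B ρ a b) = rEntry B ρ b a := fun a b => by
    simp only [rEntry, star_sum, star_smul, star_mul, hB, Complex.star_def, Complex.conj_ofReal]
  have hrev : ∀ (n : ℕ) (f : Fin n → C),
      star (List.ofFn f).prod = (List.ofFn fun k => star (f k.rev)).prod := by
    intro n
    induction n with
    | zero => intro f; simp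
    | succ n ih =>
      intro f
      rw [List.ofFn_succ, List.prod_cons, star_mul, ih, List.ofFn_succ'
        (f := fun k => star (f k.rev)), List.prod_concat, Fin.rev_last]
      congr 2
      simp [Fin.rev_castSucc]
  show star (blockT c B ρ) = blockT c B ρ
  simp only [blockT, star_sum, star_smul, Complex.star_def, Complex.conj_ofReal]
  refine Finset.sum_congr rfl fun s _ => ?_
  congr 1
  have hmem : ∀ i ∈ injChains m s, i ∘ Fin.rev ∈ injChains m s := fun i hi => by
    simp only [injChains, Finset.mem_filter, Finset.mem_univ, true_and, decide_eq_true_eq] at hi ⊢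
    exact hi.comp Fin.rev_injective
  refine Finset.sum_nbij' (· ∘ Fin.rev) (· ∘ Fin.rev) hmem hmem
    (fun i _ => funext fun k => by simp) (fun i _ => funext fun k => by simp) fun i hi => ?_
  have hi' : Function.Injective i := by
    simpa [injChains] using hi
  have hne : i 0 ≠ i (Fin.last _) := fun h => by
    simpa [Fin.ext_iff] using hi' h
  have hchain : star (chainProd (rEntry B ρ) i) = chainProd (rEntry B ρ) (i ∘ Fin.rev) := by
    simp only [chainProd, hrev, hE, Function.comp_apply, Fin.rev_castSucc, Fin.rev_succ]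
  rw [hchain, phase_conj hne]
  simp

theorem commute_blockT {C : Type*} [CStarAlgebra C] {τ : TraceState C} {Γ : Type*}
    [Fintype Γ] {q m : ℕ} (c : Fin q → ℝ) (S : SlotSystem τ Γ (Cube m)) (ρ : Γ → ℝ) {y : C}
    (hy : ∀ i, ∀ x ∈ S.U i, Commute y x) : Commute y (blockT c S.B ρ) :=
  Commute.sum_right _ _ _ fun s _ => Commute.smul_right (Commute.sum_right _ _ _ fun i _ =>
    Commute.smul_right (Commute.list_prod_right _ _ fun x hx => by
      obtain ⟨k, rfl⟩ := List.mem_ofFn.mp hx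
      exact Commute.sum_right _ _ _ fun g _ => ((hy _ _ (S.B_mem g _)).mul_right
        (hy _ _ (S.B_mem g _))).smul_right _) _) _

/-- The mean of one block vanishes against everything commuting with the block. -/
theorem trace_mul_blockT {C : Type*} [CStarAlgebra C] {τ : TraceState C} {Γ : Type*}
    [Fintype Γ] {q m : ℕ} (c : Fin q → ℝ) (S : SlotSystem τ Γ (Cube m)) (ρ : Γ → ℝ) {X : C}
    (hX : ∀ i, ∀ x ∈ S.U i, Commute X x) : τ.f (X * blockT c S.B ρ) = 0 := by
  classical
  simp only [blockT_eq, Finset.mul_sum, mul_smul_comm, map_sum, map_smul]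
  refine Finset.sum_eq_zero fun s _ => smul_eq_zero_of_right _ (Finset.sum_eq_zero fun p _ => ?_)
  split_ifs with hp
  · rw [mul_smul_comm, map_smul, ← mul_one (X * _),
      trace_walk_eq_zero S ρ p hp (Or.inl fun y hy => ⟨hX _ y hy, Commute.one_left y⟩), smul_zero]
  · simp

/-- The second moment of one block is the trace of the matrix, up to `O(2 ^ (-m/2))`. -/
theorem exists_blockT_bound {q : ℕ} (c : Fin q → ℝ) :
    ∃ K : ℝ, 0 ≤ K ∧ ∀ (C : Type u) [CStarAlgebra C] (τ : TraceState C) (Γ : Type v) [Fintype Γ]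
      (m : ℕ) (S : SlotSystem τ Γ (Cube m)) (ρ σ : Γ → ℝ), IsWeight ρ → IsWeight σ →
      ‖blockT c S.B ρ‖ ≤ K * 2 ^ m ∧
      ∀ X : C, (∀ i, ∀ x ∈ S.U i, Commute X x) →
        ‖τ.f (X * (blockT c S.B ρ * blockT c S.B σ)) -
          ∑ a, τ.f (X * (polyMatrix c S.B ρ * polyMatrix c S.B σ) a a)‖
            ≤ K * ‖X‖ / Real.sqrt ((2 : ℝ) ^ m) := by
  refine ⟨(∑ s : Fin q, |c s|) + ∑ s : Fin q, ∑ s' : Fin q, |c s| * |c s'| *
      (3 * (((s : ℕ) + s' + 2 : ℕ) : ℝ) ^ ((s : ℕ) + s' + 4) + 1), by positivity, ?_⟩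
  intro C _ τ Γ _ m S ρ σ hρ hσ
  classical
  set K₁ : ℝ := ∑ s : Fin q, |c s|
  set K₂ : ℝ := ∑ s : Fin q, ∑ s' : Fin q, |c s| * |c s'| *
      (3 * (((s : ℕ) + s' + 2 : ℕ) : ℝ) ^ ((s : ℕ) + s' + 4) + 1) with hK₂
  have hK₂0 : 0 ≤ K₂ := by positivity
  have hK₁0 : 0 ≤ K₁ := by positivity
  refine ⟨?_, fun X hX => ?_⟩
  · rw [blockT_eq]
    refine (norm_sum_le _ _).trans (le_trans ?_ (mul_le_mul_of_nonneg_right
      (le_add_of_nonneg_right hK₂0) (by positivity)))
    rw [Finset.sum_mul]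
    refine Finset.sum_le_sum fun s _ => ?_
    rw [norm_smul, Complex.norm_real, Real.norm_eq_abs]
    refine mul_le_mul_of_nonneg_left ((norm_sum_le _ _).trans ?_) (abs_nonneg _)
    refine (Finset.sum_le_sum fun p _ =>
      (?_ : _ ≤ (((2 : ℝ) ^ m)⁻¹) ^ ((s : ℕ) + 1))).trans (le_of_eq ?_)
    · split_ifs
      · rw [norm_smul, norm_phase, one_mul]
        exact norm_walk_le (norm_B_le S) hρ _ _ _
      · rw [norm_zero]; positivity
    · simp only [Finset.sum_const, Finset.card_univ, nsmul_eq_mul, Fintype.card_prod,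
        Fintype.card_fun, Fintype.card_fin, Fintype.card_bool, Nat.cast_mul, Nat.cast_pow,
        Nat.cast_ofNat, inv_pow, pow_succ]
      field_simp
  have hLHS : τ.f (X * (blockT c S.B ρ * blockT c S.B σ)) =
      ∑ s : Fin q, ∑ s' : Fin q, ((c s : ℂ) * (c s' : ℂ)) *
        ∑ p : Chain m s, ∑ q : Chain m s', term S.B τ X ρ σ p q := by
    rw [blockT_eq, blockT_eq]
    simp only [Finset.sum_mul_sum, smul_mul_smul_comm]
    simp only [Finset.mul_sum, Finset.smul_sum, mul_smul_comm, map_sum, map_smul, smul_eq_mul]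
    refine Finset.sum_congr rfl fun s _ => Finset.sum_congr rfl fun s' _ =>
      Finset.sum_congr rfl fun p _ => Finset.sum_congr rfl fun q _ => ?_
    congr 1
    rw [term]
    by_cases h1 : (span p).card = (s : ℕ) + 2 <;> by_cases h2 : (span q).card = (s' : ℕ) + 2 <;>
      simp [h1, h2, mul_assoc, mul_left_comm]
  have hRHS : ∑ a, τ.f (X * (polyMatrix c S.B ρ * polyMatrix c S.B σ) a a) =
      ∑ s : Fin q, ∑ s' : Fin q, ((c s : ℂ) * (c s' : ℂ)) *
        ∑ a, ∑ b, ∑ l : Fin s → Cube m, ∑ l' : Fin s' → Cube m,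
          τ.f (X * (walk S.B ρ s l a b * walk S.B σ s' l' b a)) := by
    simp only [CStarMatrix.mul_apply, polyMatrix_apply]
    simp only [Finset.sum_mul_sum, smul_mul_smul_comm]
    simp only [Finset.mul_sum, Finset.smul_sum, mul_smul_comm, map_sum, map_smul, smul_eq_mul]
    exact sum_comm_four (fun a b s s' => ∑ l, ∑ l', ((c s : ℂ) * (c s' : ℂ)) *
      τ.f (X * (walk S.B ρ (s : ℕ) l a b * walk S.B σ (s' : ℕ) l' b a)))
  rw [hLHS, hRHS, ← Finset.sum_sub_distrib]
  simp only [← Finset.sum_sub_distrib, ← mul_sub]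
  refine (norm_sum_le _ _).trans ((Finset.sum_le_sum fun s _ => norm_sum_le _ _).trans ?_)
  have hfin : ∑ s : Fin q, ∑ s' : Fin q, |c s| * |c s'| * (‖X‖ / Real.sqrt ((2 : ℝ) ^ m) *
      (3 * (((s : ℕ) + s' + 2 : ℕ) : ℝ) ^ ((s : ℕ) + s' + 4) + 1)) ≤
      (K₁ + K₂) * ‖X‖ / Real.sqrt ((2 : ℝ) ^ m) := by
    rw [mul_div_assoc, add_mul, hK₂]
    refine le_add_of_nonneg_of_le (by positivity) (le_of_eq ?_)
    simp only [Finset.sum_mul]
    exact Finset.sum_congr rfl fun s _ => Finset.sum_congr rfl fun s' _ => by ring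
  refine le_trans (Finset.sum_le_sum fun s _ => Finset.sum_le_sum fun s' _ => ?_) hfin
  rw [norm_mul, norm_mul, Complex.norm_real, Complex.norm_real, Real.norm_eq_abs, Real.norm_eq_abs]
  exact mul_le_mul_of_nonneg_left (second_moment S hX hρ hσ s s') (by positivity)

end Vale.Agent.P095.Gamma
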