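import Vale.Agent.P095.Gamma.Basic

/-! P095: exponentials of block sums.

`norm_trace_exp_le` strips one block at a time off `exp (i t Z)`; `hsq_exp_sub_le` writes
`exp (i A)` as an `n`-th power of a unitary and lets `n → ∞`.
-/

open scoped ComplexOrder
open Filter Topology

namespace Vale.Agent.P095.Gamma

variable {C : Type*} [CStarAlgebra C] (τ : TraceState C)

/-- `exp (i A)` is unitary for self-adjoint `A`. -/
private theorem exp_I_smul_mem {A : C} (hA : IsSelfAdjoint A) :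
    NormedSpace.exp (Complex.I • A) ∈ unitary C :=
  (selfAdjoint.expUnitary ⟨A, hA⟩).2

/-- A unitary has norm at most one. -/
private theorem norm_le_one_of_mem_unitary {u : C} (hu : u ∈ unitary C) : ‖u‖ ≤ 1 := by
  rcases subsingleton_or_nontrivial C with h | h
  · simp [Subsingleton.elim u 0]
  · exact (CStarRing.norm_of_mem_unitary hu).le

/-- `exp x` agrees with its second order Taylor polynomial up to `‖x‖ ^ 3`. -/
private theorem norm_exp_sub_taylor_le {x : C} (hx : ‖x‖ ≤ 1) :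
    ‖NormedSpace.exp x - (1 + x + (1 / 2 : ℂ) • (x * x))‖ ≤ ‖x‖ ^ 3 := by
  have hs : HasSum (fun n : ℕ => ((n.factorial : ℂ)⁻¹) • x ^ n) (NormedSpace.exp x) :=
    NormedSpace.exp_series_hasSum_exp' x
  have h3 : HasSum (fun n : ℕ => (((n + 3).factorial : ℂ)⁻¹) • x ^ (n + 3))
      (NormedSpace.exp x - (1 + x + (1 / 2 : ℂ) • (x * x))) := by
    have h := (hasSum_nat_add_iff' 3).mpr hs
    simpa [Finset.sum_range_succ, pow_two] using h
  have hb : ∀ n : ℕ, ‖(((n + 3).factorial : ℂ)⁻¹) • x ^ (n + 3)‖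
      ≤ ‖x‖ ^ 3 / 2 * (1 / 2) ^ n := by
    intro n
    rw [norm_smul, norm_inv, Complex.norm_natCast]
    have hf : (2 : ℝ) * 2 ^ n ≤ ((n + 3).factorial : ℝ) := by
      have : ∀ k : ℕ, 2 * 2 ^ k ≤ (k + 3).factorial := by
        intro k
        induction k with
        | zero => simp [Nat.factorial]
        | succ k ih =>
          rw [show k + 1 + 3 = (k + 3) + 1 from rfl, Nat.factorial_succ, pow_succ]
          nlinarith [Nat.factorial_pos (k + 3)]
      exact_mod_cast this n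
    have hp : ‖x ^ (n + 3)‖ ≤ ‖x‖ ^ 3 := by
      calc ‖x ^ (n + 3)‖ ≤ ‖x‖ ^ (n + 3) := norm_pow_le' x (by omega)
        _ = ‖x‖ ^ n * ‖x‖ ^ 3 := by ring
        _ ≤ 1 * ‖x‖ ^ 3 := by gcongr; exact pow_le_one₀ (norm_nonneg _) hx
        _ = ‖x‖ ^ 3 := one_mul _
    calc ((n + 3).factorial : ℝ)⁻¹ * ‖x ^ (n + 3)‖
        ≤ (2 * 2 ^ n)⁻¹ * ‖x‖ ^ 3 := by gcongr
      _ = ‖x‖ ^ 3 / 2 * (1 / 2) ^ n := by rw [div_pow, one_pow]; ring
  have hg : HasSum (fun n : ℕ => ‖x‖ ^ 3 / 2 * (1 / 2 : ℝ) ^ n) (‖x‖ ^ 3) := by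
    have h := (hasSum_geometric_two).mul_left (‖x‖ ^ 3 / 2)
    simpa using h
  rw [← h3.tsum_eq]
  exact tsum_of_norm_bounded hg hb

/-- Removing one block from the trace of a product. -/
private theorem norm_trace_mul_exp_le {X T : C} {s K err : ℝ}
    (hK : ‖T‖ ≤ K) (hs : s ^ 2 ≤ 2) (hsK : |s| * K ≤ 1)
    (h1 : τ.f (X * T) = 0) (h2 : ‖τ.f (X * (T * T)) - τ.f X‖ ≤ err * ‖X‖) :
    ‖τ.f (X * NormedSpace.exp ((Complex.I * (s : ℂ)) • T))‖
      ≤ (1 - s ^ 2 / 2) * ‖τ.f X‖ + ‖X‖ * (s ^ 2 / 2 * err + |s| ^ 3 * K ^ 3) := by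
  set y : C := (Complex.I * (s : ℂ)) • T with hy
  have hny : ‖y‖ ≤ |s| * K := by
    rw [hy, norm_smul]
    simp only [norm_mul, Complex.norm_I, one_mul, Complex.norm_real, Real.norm_eq_abs]
    gcongr
  have hR := norm_exp_sub_taylor_le (hny.trans hsK)
  set R : C := NormedSpace.exp y - (1 + y + (1 / 2 : ℂ) • (y * y)) with hRdef
  have hyy : X * ((1 / 2 : ℂ) • (y * y)) = ((-(s ^ 2 / 2) : ℝ) : ℂ) • (X * (T * T)) := by
    rw [hy, smul_mul_smul_comm, smul_smul, mul_smul_comm]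
    congr 1
    push_cast
    linear_combination ((s : ℂ) ^ 2 / 2) * Complex.I_mul_I
  have hy1 : τ.f (X * y) = 0 := by
    rw [hy, mul_smul_comm, map_smul, h1, smul_zero]
  have hexp : τ.f (X * NormedSpace.exp y) = ((1 - s ^ 2 / 2 : ℝ) : ℂ) * τ.f X
      + ((-(s ^ 2 / 2) : ℝ) : ℂ) * (τ.f (X * (T * T)) - τ.f X) + τ.f (X * R) := by
    have hE : NormedSpace.exp y = 1 + y + (1 / 2 : ℂ) • (y * y) + R := by
      rw [hRdef]; abel
    rw [hE, mul_add, mul_add, mul_add, hyy, map_add, map_add, map_add, hy1, map_smul,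
      smul_eq_mul, mul_one]
    push_cast
    ring
  have hXR : ‖τ.f (X * R)‖ ≤ ‖X‖ * (|s| ^ 3 * K ^ 3) := by
    calc ‖τ.f (X * R)‖ ≤ ‖X * R‖ := τ.bound _
      _ ≤ ‖X‖ * ‖R‖ := norm_mul_le _ _
      _ ≤ ‖X‖ * (|s| * K) ^ 3 := by
          gcongr
          exact hR.trans (pow_le_pow_left₀ (norm_nonneg _) hny 3)
      _ = ‖X‖ * (|s| ^ 3 * K ^ 3) := by rw [mul_pow]
  rw [hexp]
  calc ‖((1 - s ^ 2 / 2 : ℝ) : ℂ) * τ.f X
        + ((-(s ^ 2 / 2) : ℝ) : ℂ) * (τ.f (X * (T * T)) - τ.f X) + τ.f (X * R)‖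
      ≤ ‖((1 - s ^ 2 / 2 : ℝ) : ℂ) * τ.f X‖
        + ‖((-(s ^ 2 / 2) : ℝ) : ℂ) * (τ.f (X * (T * T)) - τ.f X)‖ + ‖τ.f (X * R)‖ :=
          norm_add₃_le
    _ ≤ (1 - s ^ 2 / 2) * ‖τ.f X‖ + s ^ 2 / 2 * (err * ‖X‖) + ‖X‖ * (|s| ^ 3 * K ^ 3) := by
        gcongr
        · rw [norm_mul, Complex.norm_real, Real.norm_of_nonneg (by linarith)]
        · rw [norm_mul, Complex.norm_real, norm_neg, Real.norm_of_nonneg (by positivity)]
          gcongr
    _ = _ := by ring

/-- The exponential of a normalised sum of centred commuting blocks has small trace. -/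
theorem norm_trace_exp_le {L : ℕ} (hL : 0 < L) (T : Fin L → C) (V : Fin L → Set C) (a : C)
    (hT : ∀ l, IsSelfAdjoint (T l)) (hTT : ∀ l l', Commute (T l) (T l'))
    (hTV : ∀ l l', l ≠ l' → ∀ y ∈ V l', Commute (T l) y)
    (ha : ∀ l, ∀ y ∈ V l, Commute a y) {K err t : ℝ} (hK : ∀ l, ‖T l‖ ≤ K) (herr : 0 ≤ err)
    (ht : t ^ 2 ≤ 2 * L) (htK : |t| * K ≤ Real.sqrt L)
    (h1 : ∀ l X, (∀ y ∈ V l, Commute X y) → τ.f (X * T l) = 0)
    (h2 : ∀ l X, (∀ y ∈ V l, Commute X y) → ‖τ.f (X * (T l * T l)) - τ.f X‖ ≤ err * ‖X‖) :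
    ‖τ.f (a * NormedSpace.exp ((Complex.I * (t : ℂ)) • (((Real.sqrt L)⁻¹ : ℂ) • ∑ l, T l)))‖
      ≤ ‖a‖ * (Real.exp (-t ^ 2 / 2) + t ^ 2 * err + |t| ^ 3 * K ^ 3 / Real.sqrt L) := by
  classical
  let _ : NormedAlgebra ℚ C := NormedAlgebra.restrictScalars ℚ ℂ C
  have hL' : (0 : ℝ) < L := by exact_mod_cast hL
  have hsL : 0 < Real.sqrt L := Real.sqrt_pos.mpr hL'
  set s : ℝ := t / Real.sqrt L with hs_def
  have hs2 : s ^ 2 = t ^ 2 / L := by rw [hs_def, div_pow, Real.sq_sqrt hL'.le]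
  have hs : s ^ 2 ≤ 2 := by rw [hs2, div_le_iff₀ hL']; linarith
  have hsK : |s| * K ≤ 1 := by
    rw [hs_def, abs_div, abs_of_pos hsL, div_mul_eq_mul_div, div_le_one hsL]; exact htK
  have hK0 : 0 ≤ K := (norm_nonneg _).trans (hK ⟨0, hL⟩)
  have hr0 : 0 ≤ 1 - s ^ 2 / 2 := by linarith
  set e : ℝ := s ^ 2 / 2 * err + |s| ^ 3 * K ^ 3 with he
  have he0 : 0 ≤ e := by positivity
  set E : Finset (Fin L) → C :=
    fun S => a * NormedSpace.exp ((Complex.I * (s : ℂ)) • ∑ l ∈ S, T l) with hE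
  have key : ∀ S : Finset (Fin L),
      ‖τ.f (E S)‖ ≤ ‖a‖ * ((1 - s ^ 2 / 2) ^ S.card + S.card * e) := by
    intro S
    induction S using Finset.induction_on with
    | empty =>
      simp only [hE, Finset.sum_empty, smul_zero, NormedSpace.exp_zero, mul_one,
        Finset.card_empty, pow_zero, Nat.cast_zero, zero_mul, add_zero]
      exact τ.bound a
    | @insert l S hl ih =>
      have hc : Commute (∑ j ∈ S, T j) (T l) := Commute.sum_left _ _ _ fun j _ => hTT j l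
      have hsplit : E (insert l S) = E S * NormedSpace.exp ((Complex.I * (s : ℂ)) • T l) := by
        simp only [hE]
        rw [Finset.sum_insert hl, add_comm (T l), smul_add,
          NormedSpace.exp_add_of_commute ((hc.smul_left _).smul_right _), mul_assoc]
      have hX : ∀ y ∈ V l, Commute (E S) y := fun y hy =>
        (ha l y hy).mul_left (((Commute.sum_left _ _ _ fun j hj =>
          hTV j l (fun h => hl (h ▸ hj)) y hy).smul_left _).exp_left)
      have hXn : ‖E S‖ ≤ ‖a‖ := by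
        have hsa : IsSelfAdjoint (s • ∑ j ∈ S, T j) :=
          IsSelfAdjoint.smul (by simp [isSelfAdjoint_iff]) (isSelfAdjoint_sum _ fun j _ => hT j)
        have he1 : (Complex.I * (s : ℂ)) • ∑ j ∈ S, T j = Complex.I • (s • ∑ j ∈ S, T j) := by
          rw [mul_smul, Complex.coe_smul]
        calc ‖E S‖ ≤ ‖a‖ * ‖NormedSpace.exp ((Complex.I * (s : ℂ)) • ∑ j ∈ S, T j)‖ :=
              norm_mul_le _ _
          _ ≤ ‖a‖ * 1 := by
              gcongr
              rw [he1]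
              exact norm_le_one_of_mem_unitary (exp_I_smul_mem hsa)
          _ = ‖a‖ := mul_one _
      rw [hsplit, Finset.card_insert_of_notMem hl]
      calc _ ≤ (1 - s ^ 2 / 2) * ‖τ.f (E S)‖ + ‖E S‖ * e :=
            norm_trace_mul_exp_le τ (hK l) hs hsK (h1 l _ hX) (h2 l _ hX)
        _ ≤ (1 - s ^ 2 / 2) * (‖a‖ * ((1 - s ^ 2 / 2) ^ S.card + S.card * e)) + ‖a‖ * e := by
            gcongr
        _ ≤ ‖a‖ * ((1 - s ^ 2 / 2) ^ (S.card + 1) + (S.card + 1 : ℕ) * e) := by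
            push_cast
            have : 0 ≤ ‖a‖ * (s ^ 2 / 2) * (S.card * e) := by positivity
            rw [pow_succ]
            linear_combination this
  have harg : (Complex.I * (t : ℂ)) • (((Real.sqrt L)⁻¹ : ℂ) • ∑ l, T l)
      = (Complex.I * (s : ℂ)) • ∑ l, T l := by
    rw [smul_smul, hs_def]
    push_cast
    rw [div_eq_mul_inv, mul_assoc]
  have hpow : (1 - s ^ 2 / 2) ^ L ≤ Real.exp (-t ^ 2 / 2) := by
    calc (1 - s ^ 2 / 2) ^ L ≤ Real.exp (-(s ^ 2 / 2)) ^ L :=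
          pow_le_pow_left₀ hr0 (Real.one_sub_le_exp_neg _) L
      _ = Real.exp (-t ^ 2 / 2) := by
          rw [← Real.exp_nat_mul, hs2]
          congr 1
          field_simp
  have hLe : (L : ℝ) * e ≤ t ^ 2 * err + |t| ^ 3 * K ^ 3 / Real.sqrt L := by
    have h3 : (L : ℝ) * |s| ^ 3 = |t| ^ 3 / Real.sqrt L := by
      rw [hs_def, abs_div, abs_of_pos hsL, div_pow]
      field_simp
      rw [Real.sq_sqrt hL'.le, mul_comm]
    have h4 : (L : ℝ) * (s ^ 2 / 2) = t ^ 2 / 2 := by rw [hs2]; field_simp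
    have h5 : 0 ≤ t ^ 2 / 2 * err := by positivity
    calc (L : ℝ) * e = (L : ℝ) * (s ^ 2 / 2) * err + (L : ℝ) * |s| ^ 3 * K ^ 3 := by
          rw [he]; ring
      _ = t ^ 2 / 2 * err + |t| ^ 3 * K ^ 3 / Real.sqrt L := by rw [h4, h3]; ring
      _ ≤ _ := by linarith
  have h := key Finset.univ
  simp only [hE, Finset.card_univ, Fintype.card_fin] at h
  rw [harg]
  refine h.trans ?_
  rw [add_assoc]
  gcongr

/-- The squared 2-norm of a sum, with a weight. -/
private theorem hsq_add_le (x y : C) {n : ℝ} (hn : 0 < n) :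
    τ.hsq (x + y) ≤ (1 + 1 / n) * τ.hsq x + (1 + n) * τ.hsq y := by
  have e1 : (τ.f (star y * x)).re = (τ.f (star x * y)).re := by
    rw [← Complex.conj_re (τ.f (star x * y)), ← τ.star_map, star_mul, star_star]
  have h0 : 0 ≤ τ.hsq x - 2 * n * (τ.f (star x * y)).re + n ^ 2 * τ.hsq y := by
    have h : τ.hsq (x - (n : ℂ) • y)
        = τ.hsq x - 2 * n * (τ.f (star x * y)).re + n ^ 2 * τ.hsq y := by
      simp only [TraceState.hsq, star_sub, star_smul, sub_mul, mul_sub, smul_mul_assoc,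
        mul_smul_comm, map_sub, map_smul, smul_eq_mul, Complex.sub_re, Complex.star_def,
        Complex.conj_ofReal, Complex.re_ofReal_mul, e1]
      ring
    exact h ▸ τ.nonneg _
  have hexp : τ.hsq (x + y) = τ.hsq x + 2 * (τ.f (star x * y)).re + τ.hsq y := by
    simp only [TraceState.hsq, star_add, add_mul, mul_add, map_add, Complex.add_re, e1]
    ring
  rw [hexp]
  have hd : 2 * (τ.f (star x * y)).re ≤ 1 / n * τ.hsq x + n * τ.hsq y := by
    rw [div_mul_eq_mul_div, one_mul, ← sub_le_iff_le_add, le_div_iff₀ hn]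
    linarith
  linarith

private theorem hsq_unitary_mul {u : C} (hu : u ∈ unitary C) (x : C) :
    τ.hsq (u * x) = τ.hsq x := by
  rw [TraceState.hsq, TraceState.hsq, star_mul, mul_assoc, ← mul_assoc (star u),
    Unitary.star_mul_self_of_mem hu, one_mul]

private theorem hsq_mul_unitary {v : C} (hv : v ∈ unitary C) (x : C) :
    τ.hsq (x * v) = τ.hsq x := by
  rw [TraceState.hsq, TraceState.hsq, star_mul, mul_assoc, τ.trace, mul_assoc, mul_assoc,
    Unitary.mul_star_self_of_mem hv, mul_one]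

/-- Powers of unitaries: the 2-distance grows at most linearly. -/
private theorem hsq_pow_sub_le {u v : C} (hu : u ∈ unitary C) (hv : v ∈ unitary C) (n : ℕ) :
    τ.hsq (u ^ n - v ^ n) ≤ (n : ℝ) ^ 2 * τ.hsq (u - v) := by
  induction n with
  | zero => simp [TraceState.hsq]
  | succ n ih =>
    rcases Nat.eq_zero_or_pos n with rfl | hn
    · simp
    have hn' : (0 : ℝ) < n := by exact_mod_cast hn
    have hsplit : u ^ (n + 1) - v ^ (n + 1) = u * (u ^ n - v ^ n) + (u - v) * v ^ n := by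
      rw [pow_succ', pow_succ']; noncomm_ring
    rw [hsplit]
    calc _ ≤ (1 + 1 / (n : ℝ)) * τ.hsq (u * (u ^ n - v ^ n))
          + (1 + (n : ℝ)) * τ.hsq ((u - v) * v ^ n) := hsq_add_le τ _ _ hn'
      _ ≤ (1 + 1 / (n : ℝ)) * ((n : ℝ) ^ 2 * τ.hsq (u - v))
          + (1 + (n : ℝ)) * τ.hsq (u - v) := by
          rw [hsq_unitary_mul τ hu, hsq_mul_unitary τ (pow_mem hv n)]
          gcongr
      _ = _ := by push_cast; field_simp; ring

/-- `A ↦ exp (i A)` is 1-Lipschitz in the 2-norm. -/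
theorem hsq_exp_sub_le {A B : C} (hA : IsSelfAdjoint A) (hB : IsSelfAdjoint B) :
    τ.hsq (NormedSpace.exp (Complex.I • A) - NormedSpace.exp (Complex.I • B)) ≤ τ.hsq (A - B) := by
  let _ : NormedAlgebra ℚ C := NormedAlgebra.restrictScalars ℚ ℂ C
  have hmem : ∀ (r : ℝ) (D : C), IsSelfAdjoint D →
      NormedSpace.exp ((r : ℂ) • Complex.I • D) ∈ unitary C := by
    intro r D hD
    rw [smul_comm (r : ℂ), Complex.coe_smul]
    exact exp_I_smul_mem (IsSelfAdjoint.smul (by simp [isSelfAdjoint_iff]) hD)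
  have hcont : Continuous (τ.hsq) := by
    have hf : Continuous τ.f := (τ.f.mkContinuous 1 fun x => by simpa using τ.bound x).continuous
    exact Complex.continuous_re.comp (hf.comp (continuous_star.mul continuous_id))
  -- the difference quotients of the two exponentials
  set F : ℂ → C := fun r => NormedSpace.exp (r • Complex.I • A) - NormedSpace.exp (r • Complex.I • B)
    with hF
  have hd : HasDerivAt F (Complex.I • A - Complex.I • B) 0 := by
    have h : ∀ x : C, HasDerivAt (fun r : ℂ => NormedSpace.exp (r • x)) x 0 := fun x => by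
      have := hasDerivAt_exp_smul_const x (0 : ℂ)
      simpa [zero_smul, NormedSpace.exp_zero] using this
    exact (h _).sub (h _)
  have hlim : Tendsto (fun n : ℕ => ((n : ℂ) • F ((n : ℂ)⁻¹))) atTop
      (𝓝 (Complex.I • A - Complex.I • B)) := by
    have h0 : Tendsto (fun n : ℕ => ((n : ℂ)⁻¹)) atTop (𝓝[≠] (0 : ℂ)) := by
      refine tendsto_nhdsWithin_iff.mpr ⟨tendsto_inv_atTop_nhds_zero_nat, ?_⟩
      filter_upwards [eventually_gt_atTop 0] with n hn
      simpa using hn.ne'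
    have h := (hasDerivAt_iff_tendsto_slope.mp hd).comp h0
    refine h.congr fun n => ?_
    simp [slope_def_module, hF, NormedSpace.exp_zero]
  have hval : τ.hsq (Complex.I • A - Complex.I • B) = τ.hsq (A - B) := by
    rw [← smul_sub, TraceState.hsq, TraceState.hsq, star_smul, smul_mul_smul_comm,
      Complex.star_def, Complex.conj_I, neg_mul, Complex.I_mul_I, neg_neg, one_smul]
  rw [← hval]
  refine ge_of_tendsto ((hcont.tendsto _).comp hlim) ?_
  filter_upwards [eventually_gt_atTop 0] with n hn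
  have hn' : (n : ℂ) ≠ 0 := by exact_mod_cast hn.ne'
  have hroot : ∀ D : C, NormedSpace.exp (Complex.I • D)
      = NormedSpace.exp ((n : ℂ)⁻¹ • Complex.I • D) ^ n := by
    intro D
    rw [← NormedSpace.exp_nsmul, ← Nat.cast_smul_eq_nsmul ℂ n, smul_smul, mul_inv_cancel₀ hn',
      one_smul]
  have hu : ∀ D : C, IsSelfAdjoint D →
      NormedSpace.exp ((n : ℂ)⁻¹ • Complex.I • D) ∈ unitary C := by
    intro D hD
    have := hmem ((n : ℝ)⁻¹) D hD
    push_cast at this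
    exact this
  rw [hroot A, hroot B]
  calc _ ≤ (n : ℝ) ^ 2 * τ.hsq (F ((n : ℂ)⁻¹)) := hsq_pow_sub_le τ (hu A hA) (hu B hB) n
    _ = (τ.hsq ∘ fun n : ℕ => ((n : ℂ) • F ((n : ℂ)⁻¹))) n := by
        simp only [Function.comp_apply, TraceState.hsq, star_smul, smul_mul_smul_comm, map_smul,
          smul_eq_mul, Complex.star_def, Complex.conj_natCast]
        rw [show ((n : ℂ) * (n : ℂ)) = (((n : ℝ) ^ 2 : ℝ) : ℂ) by push_cast; ring,
          Complex.re_ofReal_mul]

end Vale.Agent.P095.Gamma
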