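import Vale.Agent.P095.Gamma.Basic

/-! P095: counting of chains and the Hadamard bound. -/

open scoped InnerProductSpace

namespace Vale.Agent.P095.Gamma

theorem card_image_le_bound {α μ : Type*} [Fintype α] [Fintype μ] [DecidableEq α] [DecidableEq μ]
    [Nonempty μ]
    (k : ℕ) :
    (Finset.univ.filter fun f : α → μ => (Finset.univ.image f).card ≤ k).card
      ≤ Fintype.card μ ^ k * (k + 1) ^ Fintype.card α := by
  classical
  let dec : (Fin k → μ) × (α → Fin (k + 1)) → (α → μ) := fun p a =>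
    if h : (p.2 a : ℕ) < k then p.1 ⟨p.2 a, h⟩ else Classical.arbitrary μ
  have hsub : (Finset.univ.filter fun f : α → μ => (Finset.univ.image f).card ≤ k)
      ⊆ Finset.univ.image dec := by
    intro f hf
    simp only [Finset.mem_filter, Finset.mem_univ, true_and] at hf
    set S := Finset.univ.image f
    have hidx : ∀ a, f a ∈ S := fun a => Finset.mem_image_of_mem f (Finset.mem_univ a)
    let σ : α → Fin (k + 1) := fun a =>
      ⟨(S.equivFin ⟨f a, hidx a⟩ : ℕ),
        Nat.lt_succ_of_le ((S.equivFin ⟨f a, hidx a⟩).isLt.le.trans hf)⟩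
    let e : Fin k → μ := fun j =>
      if h : (j : ℕ) < S.card then (S.equivFin.symm ⟨j, h⟩ : μ) else Classical.arbitrary μ
    refine Finset.mem_image.2 ⟨(e, σ), Finset.mem_univ _, funext fun a => ?_⟩
    have h1 : (σ a : ℕ) < k := lt_of_lt_of_le (S.equivFin ⟨f a, hidx a⟩).isLt hf
    have h2 : (σ a : ℕ) < S.card := (S.equivFin ⟨f a, hidx a⟩).isLt
    have h3 : (⟨(σ a : ℕ), h2⟩ : Fin S.card) = S.equivFin ⟨f a, hidx a⟩ := Fin.ext rfl
    simp only [dec, dif_pos h1, e, dif_pos h2, h3, Equiv.symm_apply_apply]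
  calc _ ≤ (Finset.univ.image dec).card := Finset.card_le_card hsub
    _ ≤ (Finset.univ : Finset ((Fin k → μ) × (α → Fin (k + 1)))).card := Finset.card_image_le
    _ = _ := by simp

theorem hsign_sq {m : ℕ} (a b : Cube m) : hsign a b ^ 2 = 1 := by
  simp only [hsign, ← Finset.prod_pow]
  exact Finset.prod_eq_one fun k _ => by split <;> norm_num

theorem hsign_comm {m : ℕ} (a b : Cube m) : hsign a b = hsign b a := by
  simp only [hsign, Bool.and_comm]

theorem hsign_orthogonal {m : ℕ} (a b : Cube m) :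
    ∑ c, hsign a c * hsign b c = if a = b then 2 ^ m else 0 := by
  classical
  simp only [hsign, ← Finset.prod_mul_distrib]
  rw [← Fintype.prod_sum fun (k : Fin m) (c : Bool) =>
    (if a k && c then (-1 : ℝ) else 1) * (if b k && c then (-1 : ℝ) else 1)]
  by_cases hab : a = b
  · subst hab
    rw [if_pos rfl, ← Fin.prod_const]
    refine Finset.prod_congr rfl fun k _ => ?_
    cases a k <;> norm_num
  · rw [if_neg hab]
    obtain ⟨k, hk⟩ := Function.ne_iff.1 hab
    refine Finset.prod_eq_zero (Finset.mem_univ k) ?_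
    cases ha : a k <;> cases hb : b k <;> simp_all

theorem hsign_eq_one_or {m : ℕ} (a b : Cube m) : hsign a b = 1 ∨ hsign a b = -1 :=
  sq_eq_one_iff.1 (hsign_sq a b)

theorem phase_conj {m : ℕ} {a b : Cube m} (h : a ≠ b) :
    (starRingEnd ℂ) (phase a b) = phase b a := by
  have hne : Fintype.equivFin (Cube m) a ≠ Fintype.equivFin (Cube m) b :=
    fun e => h ((Fintype.equivFin (Cube m)).injective e)
  unfold phase
  rw [hsign_comm b a]
  rcases lt_or_gt_of_ne hne with hl | hl <;>
    simp only [hl, asymm hl, if_true, if_false] <;> split_ifs <;> simp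

theorem phase_mul_self {m : ℕ} (a b : Cube m) : phase a b * phase a b = (hsign a b : ℂ) := by
  unfold phase
  rcases hsign_eq_one_or a b with h | h <;> rw [h]
  · simp
  · rw [if_neg (by norm_num)]
    split_ifs <;> simp [Complex.I_mul_I]

theorem norm_phase {m : ℕ} (a b : Cube m) : ‖phase a b‖ = 1 := by
  unfold phase
  split_ifs <;> simp

/-- Row times column: the operator Cauchy-Schwarz inequality. -/
theorem norm_sum_mul_le {C : Type*} [CStarAlgebra C] {ι : Type*} [Fintype ι] (P Q : ι → C) :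
    ‖∑ i, P i * Q i‖
      ≤ Real.sqrt ‖∑ i, P i * star (P i)‖ * Real.sqrt ‖∑ i, star (Q i) * Q i‖ := by
  let _ := CStarAlgebra.spectralOrder C
  let _ := CStarAlgebra.spectralOrderedRing C
  let x : WithCStarModule C (ι → C) := (WithCStarModule.equiv C (ι → C)).symm fun i => star (Q i)
  let y : WithCStarModule C (ι → C) := (WithCStarModule.equiv C (ι → C)).symm P
  have h : ‖⟪x, y⟫_C‖ ≤ ‖x‖ * ‖y‖ := CStarModule.norm_inner_le _
  rw [WithCStarModule.pi_inner, WithCStarModule.pi_norm, WithCStarModule.pi_norm] at h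
  simp only [WithCStarModule.inner_def, x, y, WithCStarModule.equiv_symm_pi_apply,
    star_star] at h
  rw [mul_comm (Real.sqrt _)] at h
  simpa [star_star] using h

/-- Hadamard signs cancel: `‖∑ h(a,b) X_a K Y_b‖ ≤ M ^ (3/2) ‖K‖` for contractions `X_a, Y_b`. -/
theorem norm_hsign_sum_le {C : Type*} [CStarAlgebra C] {m : ℕ} (X Y : Cube m → C) (K : C)
    (hX : ∀ a, ‖X a‖ ≤ 1) (hY : ∀ b, ‖Y b‖ ≤ 1) :
    ‖∑ a, ∑ b, (hsign a b : ℂ) • (X a * K * Y b)‖
      ≤ (2 : ℝ) ^ m * Real.sqrt ((2 : ℝ) ^ m) * ‖K‖ := by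
  classical
  have hM : (Fintype.card (Cube m) : ℝ) = 2 ^ m := by simp
  let W : Cube m → C := fun a => ∑ b, (hsign a b : ℂ) • Y b
  have e : (∑ a, ∑ b, (hsign a b : ℂ) • (X a * K * Y b)) = ∑ a, (X a * K) * W a := by
    simp only [W, Finset.mul_sum, mul_smul_comm]
  have hW : (∑ a, star (W a) * W a) = ((2 : ℂ) ^ m) • ∑ b, star (Y b) * Y b := by
    have h1 : ∀ a, star (W a) * W a
        = ∑ b, ∑ b', ((hsign a b * hsign a b' : ℝ) : ℂ) • (star (Y b) * Y b') := by
      intro a
      simp only [W, star_sum, star_smul, Complex.star_def, Complex.conj_ofReal,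
        Finset.sum_mul_sum, smul_mul_smul_comm, Complex.ofReal_mul]
    simp only [h1]
    rw [Finset.sum_comm, Finset.smul_sum]
    refine Finset.sum_congr rfl fun b _ => ?_
    rw [Finset.sum_comm]
    have h2 : ∀ b', (∑ a, ((hsign a b * hsign a b' : ℝ) : ℂ) • (star (Y b) * Y b'))
        = if b = b' then ((2 : ℂ) ^ m) • (star (Y b) * Y b') else 0 := by
      intro b'
      rw [← Finset.sum_smul, ← Complex.ofReal_sum]
      simp only [hsign_comm _ b, hsign_comm _ b', hsign_orthogonal]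
      split_ifs <;> simp
    simp only [h2, Finset.sum_ite_eq, Finset.mem_univ, if_true]
  have hP : ‖∑ a, (X a * K) * star (X a * K)‖ ≤ 2 ^ m * ‖K‖ ^ 2 := by
    refine (norm_sum_le_of_le _ (fun a _ => ?_ : ∀ a ∈ Finset.univ, _ ≤ ‖K‖ ^ 2)).trans (le_of_eq ?_)
    · rw [CStarRing.norm_self_mul_star, ← sq]
      refine pow_le_pow_left₀ (norm_nonneg _) ((norm_mul_le _ _).trans ?_) 2
      exact (mul_le_mul_of_nonneg_right (hX a) (norm_nonneg _)).trans (le_of_eq (one_mul _))
    · simp
  have hQ : ‖∑ a, star (W a) * W a‖ ≤ (2 ^ m) ^ 2 := by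
    rw [hW, norm_smul, norm_pow, RCLike.norm_ofNat, sq]
    refine mul_le_mul_of_nonneg_left ?_ (by positivity)
    refine (norm_sum_le_of_le _ (fun b _ => ?_ : ∀ b ∈ Finset.univ, _ ≤ (1 : ℝ))).trans (le_of_eq ?_)
    · rw [CStarRing.norm_star_mul_self]
      exact mul_le_one₀ (hY b) (norm_nonneg _) (hY b)
    · simp
  rw [e]
  refine (norm_sum_mul_le (fun a => X a * K) W).trans ?_
  refine (mul_le_mul (Real.sqrt_le_sqrt hP) (Real.sqrt_le_sqrt hQ) (Real.sqrt_nonneg _)
    (Real.sqrt_nonneg _)).trans (le_of_eq ?_)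
  rw [Real.sqrt_mul (by positivity), Real.sqrt_sq (norm_nonneg _), Real.sqrt_sq (by positivity)]
  ring

end Vale.Agent.P095.Gamma
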