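import Vale.Agent.P095.Gamma.Basic

/-! P095: periodic partitions of unity and trigonometric approximation. -/

open MeasureTheory Set
open scoped Real

namespace Vale.Agent.P095.Gamma

/-- Trigonometric approximation of a continuous `1`-periodic function, rescaled to
period `2π`, with the constant coefficient controlled by the mean over one period. -/
theorem trigApprox_of_periodic {h : ℝ → ℝ} (hc : Continuous h) (hp : Function.Periodic h 1)
    {mean κ : ℝ} (hκ : 0 < κ) (hm : ‖(∫ x in (0 : ℝ)..1, h x) - mean‖ ≤ κ / 2) :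
    TrigApprox (fun θ => h (θ / (2 * π))) mean κ := by
  have : Fact (0 < (1 : ℝ)) := ⟨one_pos⟩
  have hpC : Function.Periodic (fun x => (h x : ℂ)) 1 := hp.comp (fun r : ℝ => (r : ℂ))
  let H : C(AddCircle (1 : ℝ), ℂ) :=
    ⟨hpC.lift, continuous_coinduced_dom.2 (Complex.continuous_ofReal.comp hc)⟩
  have hmem : H ∈ (Submodule.span ℂ (range (@fourier (1 : ℝ)))).topologicalClosure := by
    rw [span_fourier_closure_eq_top]; exact Submodule.mem_top
  obtain ⟨P, hPm, hP⟩ : ∃ P ∈ Submodule.span ℂ (range (@fourier (1 : ℝ))), ‖H - P‖ ≤ κ / 2 := by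
    rw [← SetLike.mem_coe, Submodule.topologicalClosure_coe, Metric.mem_closure_iff] at hmem
    obtain ⟨P, hPm, hP⟩ := hmem (κ / 2) (by linarith)
    exact ⟨P, hPm, by rw [← dist_eq_norm]; exact hP.le⟩
  obtain ⟨c, rfl⟩ := Finsupp.mem_span_range_iff_exists_finsupp.1 hPm
  obtain ⟨D, hD⟩ : ∃ D : ℕ, c.support ⊆ Finset.Icc (-(D : ℤ)) D := by
    refine ⟨c.support.sup Int.natAbs, fun d hd => ?_⟩
    have := Finset.le_sup (f := Int.natAbs) hd
    rw [Finset.mem_Icc]
    omega
  have heval : ∀ x : ℝ, (c.sum fun i a => a • fourier (T := (1 : ℝ)) i) (x : AddCircle (1 : ℝ)) =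
      ∑ d ∈ Finset.Icc (-(D : ℤ)) D, c d * Complex.exp (2 * π * Complex.I * d * x) := by
    intro x
    rw [Finsupp.sum_of_support_subset c hD _ fun i _ => by simp, ContinuousMap.sum_apply]
    refine Finset.sum_congr rfl fun d _ => ?_
    rw [ContinuousMap.smul_apply, smul_eq_mul, fourier_coe_apply]
    norm_num
  have happ : ∀ x : ℝ, ‖(h x : ℂ) -
      ∑ d ∈ Finset.Icc (-(D : ℤ)) D, c d * Complex.exp (2 * π * Complex.I * d * x)‖ ≤ κ / 2 := by
    intro x
    rw [← heval x]
    exact ((H - _ : C(AddCircle (1 : ℝ), ℂ)).norm_coe_le_norm (x : AddCircle (1 : ℝ))).trans hP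
  refine ⟨D, fun d => c d, ?_, fun θ => ?_⟩
  · have hint : ∀ d : ℤ, (∫ x in (0 : ℝ)..1, c d * Complex.exp (2 * π * Complex.I * d * x)) =
        if d = 0 then c 0 else 0 := by
      intro d
      rcases eq_or_ne d 0 with rfl | hd
      · simp
      · have hne : (2 * π * Complex.I * d : ℂ) ≠ 0 := by
          simp [Real.pi_ne_zero, hd, Complex.I_ne_zero]
        rw [if_neg hd, intervalIntegral.integral_const_mul, integral_exp_mul_complex hne]
        have h1 : Complex.exp (2 * π * Complex.I * d * ((1 : ℝ) : ℂ)) = 1 := by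
          rw [← Complex.exp_int_mul_two_pi_mul_I d]; congr 1; push_cast; ring
        rw [h1]; simp
    have hi : ∀ d : ℤ, IntervalIntegrable
        (fun x : ℝ => c d * Complex.exp (2 * π * Complex.I * d * x)) volume 0 1 := fun d =>
      (by fun_prop : Continuous fun x : ℝ =>
        c d * Complex.exp (2 * π * Complex.I * d * x)).intervalIntegrable 0 1
    have h0 : (∫ x in (0 : ℝ)..1,
        ∑ d ∈ Finset.Icc (-(D : ℤ)) D, c d * Complex.exp (2 * π * Complex.I * d * x)) = c 0 := by
      rw [intervalIntegral.integral_finsetSum fun d _ => hi d]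
      simp only [hint, Finset.sum_ite_eq', Finset.mem_Icc]
      simp
    have hI : IntervalIntegrable (fun x => (h x : ℂ)) volume 0 1 :=
      (Complex.continuous_ofReal.comp hc).intervalIntegrable 0 1
    have hS : IntervalIntegrable (fun x : ℝ =>
        ∑ d ∈ Finset.Icc (-(D : ℤ)) D, c d * Complex.exp (2 * π * Complex.I * d * x)) volume 0 1 :=
      (by fun_prop : Continuous fun x : ℝ =>
        ∑ d ∈ Finset.Icc (-(D : ℤ)) D,
          c d * Complex.exp (2 * π * Complex.I * d * x)).intervalIntegrable 0 1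
    have hd : ‖((∫ x in (0 : ℝ)..1, h x : ℝ) : ℂ) - c 0‖ ≤ κ / 2 := by
      rw [← intervalIntegral.integral_ofReal, ← h0, ← intervalIntegral.integral_sub hI hS]
      simpa using intervalIntegral.norm_integral_le_of_norm_le_const (a := (0 : ℝ)) (b := 1)
        fun x _ => happ x
    have hm' : ‖((∫ x in (0 : ℝ)..1, h x : ℝ) : ℂ) - (mean : ℂ)‖ ≤ κ / 2 := by
      rw [← Complex.ofReal_sub, Complex.norm_real]; exact hm
    calc ‖c 0 - (mean : ℂ)‖ ≤ ‖c 0 - ((∫ x in (0 : ℝ)..1, h x : ℝ) : ℂ)‖ +
          ‖((∫ x in (0 : ℝ)..1, h x : ℝ) : ℂ) - (mean : ℂ)‖ := norm_sub_le_norm_sub_add_norm_sub ..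
      _ ≤ κ := by rw [norm_sub_rev]; linarith
  · refine le_trans (le_of_eq ?_) ((happ (θ / (2 * π))).trans (by linarith))
    congr 2
    refine Finset.sum_congr rfl fun d _ => ?_
    congr 2
    push_cast
    field_simp

/-- Ramp of width `δ` at the start of each period. -/
noncomputable def ramp (δ u : ℝ) : ℝ := -1 + min 1 (Int.fract u / δ)

/-- Smoothed floor function. -/
noncomputable def softFloor (δ u : ℝ) : ℝ := (⌊u⌋ : ℝ) + ramp δ u

theorem continuous_softFloor {δ : ℝ} (hδ : 0 < δ) (hδ1 : δ ≤ 1) : Continuous (softFloor δ) := by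
  have hg : Continuous ((fun v : ℝ => -v - 1 + min 1 (v / δ)) ∘ Int.fract) := by
    refine ContinuousOn.comp_fract'' (by fun_prop) ?_
    simp only [zero_div, neg_zero, zero_sub, min_eq_right zero_le_one,
      min_eq_left (one_le_one_div hδ hδ1)]
    norm_num
  have : softFloor δ = fun u => u + ((fun v : ℝ => -v - 1 + min 1 (v / δ)) ∘ Int.fract) u := by
    funext u
    have := Int.floor_add_fract u
    simp only [softFloor, ramp, Function.comp]
    linarith
  rw [this]
  exact continuous_id.add hg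

theorem ramp_mem {δ : ℝ} (hδ : 0 < δ) (u : ℝ) : -1 ≤ ramp δ u ∧ ramp δ u ≤ 0 := by
  have := div_nonneg (Int.fract_nonneg u) hδ.le
  unfold ramp
  constructor
  · linarith [le_min zero_le_one this]
  · linarith [min_le_left 1 (Int.fract u / δ)]

theorem monotone_softFloor {δ : ℝ} (hδ : 0 < δ) : Monotone (softFloor δ) := by
  intro u v huv
  rcases eq_or_lt_of_le (Int.floor_mono huv) with he | hl
  · have : Int.fract u ≤ Int.fract v := by
      rw [Int.fract, Int.fract, he]; linarith
    unfold softFloor ramp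
    rw [he]
    gcongr
  · have h1 : (⌊u⌋ : ℝ) + 1 ≤ ⌊v⌋ := by exact_mod_cast hl
    have := ramp_mem hδ u
    have := ramp_mem hδ v
    unfold softFloor
    linarith

theorem softFloor_add_one (δ u : ℝ) : softFloor δ (u + 1) = softFloor δ u + 1 := by
  simp only [softFloor, ramp, Int.floor_add_one, Int.fract_add_one]
  push_cast
  ring

theorem periodic_ramp (δ : ℝ) : Function.Periodic (ramp δ) 1 := fun u => by
  simp [ramp]

theorem measurable_ramp (δ : ℝ) : Measurable (ramp δ) := by
  unfold ramp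
  exact measurable_const.add (measurable_const.min (measurable_fract.div_const δ))

theorem intervalIntegrable_ramp {δ : ℝ} (hδ : 0 < δ) (w a b : ℝ) :
    IntervalIntegrable (fun x => |ramp δ (x - w)|) volume a b := by
  refine (intervalIntegrable_const (c := (1 : ℝ))).mono_fun'
    ((measurable_ramp δ).comp (measurable_id.sub_const w)).abs.aestronglyMeasurable
    (ae_of_all _ fun x => ?_)
  have := ramp_mem hδ (x - w)
  simp only [Real.norm_eq_abs, abs_abs, abs_le]
  exact ⟨this.1, by linarith [this.2]⟩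

/-- Over one period the ramp has mass at most `δ`. -/
theorem integral_ramp_le {δ : ℝ} (hδ : 0 < δ) (hδ1 : δ ≤ 1) (w : ℝ) :
    (∫ x in (0 : ℝ)..1, |ramp δ (x - w)|) ≤ δ := by
  have hper : Function.Periodic (fun x => |ramp δ x|) 1 := (periodic_ramp δ).comp abs
  rw [intervalIntegral.integral_comp_sub_right (fun x => |ramp δ x|) w,
    show (1 : ℝ) - w = 0 - w + 1 by ring, hper.intervalIntegral_add_eq (0 - w) 0]
  have h1 : ∀ a b, IntervalIntegrable (fun x => |ramp δ x|) volume a b := fun a b => by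
    simpa using intervalIntegrable_ramp hδ 0 a b
  rw [zero_add, ← intervalIntegral.integral_add_adjacent_intervals (h1 0 δ) (h1 δ 1)]
  have h2 : (∫ x in δ..1, |ramp δ x|) = 0 := by
    refine intervalIntegral.integral_zero_ae ?_
    filter_upwards [Measure.ae_ne volume (1 : ℝ)] with x hne hx
    rw [uIoc_of_le hδ1] at hx
    rw [ramp, Int.fract_eq_self.2 ⟨by linarith [hx.1], lt_of_le_of_ne hx.2 hne⟩,
      min_eq_left ((one_le_div hδ).2 hx.1.le)]
    norm_num
  have h3 : (∫ x in (0 : ℝ)..δ, |ramp δ x|) ≤ δ := by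
    calc (∫ x in (0 : ℝ)..δ, |ramp δ x|) ≤ ∫ _x in (0 : ℝ)..δ, (1 : ℝ) := by
          refine intervalIntegral.integral_mono_on hδ.le (h1 0 δ) intervalIntegrable_const
            fun x _ => ?_
          have := ramp_mem hδ x
          rw [abs_le]
          exact ⟨this.1, by linarith [this.2]⟩
      _ = δ := by simp
  linarith

theorem exists_windows_periodic {k : ℕ} (hk : 0 < k) {κ : ℝ} (hκ : 0 < κ) :
    ∃ f : Fin k → ℝ → ℝ, (∀ j, Continuous (f j)) ∧ (∀ j θ, 0 ≤ f j θ) ∧ (∀ θ, ∑ j, f j θ = 1) ∧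
      (∀ j, TrigApprox (f j) (1 / k) κ) ∧
      (∀ i j, i ≠ j → TrigApprox (fun θ => f i θ * f j θ) 0 κ) ∧
      ∀ j, Function.Periodic (f j) (2 * π) := by
  set δ : ℝ := min 1 (κ / 4) with hδdef
  have hδ : 0 < δ := lt_min one_pos (by linarith)
  have hδ1 : δ ≤ 1 := min_le_left _ _
  have hδκ : δ ≤ κ / 4 := min_le_right _ _
  have hcF := continuous_softFloor hδ hδ1
  have hk' : (0 : ℝ) < k := by exact_mod_cast hk
  let h : Fin k → ℝ → ℝ := fun j x =>
    softFloor δ (x - (j : ℕ) / k) - softFloor δ (x - ((j : ℕ) + 1) / k)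
  have hh : ∀ j x, h j x =
      softFloor δ (x - (j : ℕ) / k) - softFloor δ (x - ((j : ℕ) + 1) / k) := fun _ _ => rfl
  have hhc : ∀ j, Continuous (h j) := fun j => by
    simp only [funext (hh j)]; fun_prop
  have hper : ∀ j, Function.Periodic (h j) 1 := fun j x => by
    simp only [hh, show ∀ w : ℝ, x + 1 - w = x - w + 1 from fun w => by ring, softFloor_add_one]
    ring
  have hnn : ∀ j x, 0 ≤ h j x := fun j x => by
    rw [hh, sub_nonneg]; apply monotone_softFloor hδ; gcongr; linarith
  have hsum : ∀ x, ∑ j, h j x = 1 := fun x => by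
    simp only [hh]
    have := Finset.sum_range_sub' (fun n : ℕ => softFloor δ (x - n / k)) k
    push_cast at this
    rw [Fin.sum_univ_eq_sum_range (fun n : ℕ =>
      softFloor δ (x - n / k) - softFloor δ (x - (n + 1) / k)) k, this]
    rw [zero_div, sub_zero, div_self hk'.ne']
    have := softFloor_add_one δ (x - 1)
    rw [sub_add_cancel] at this
    linarith
  have hone : ∀ j x, h j x ≤ 1 := fun j x => by
    rw [← hsum x]
    exact Finset.single_le_sum (f := fun i => h i x) (fun i _ => hnn i x) (Finset.mem_univ j)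
  have hstep : ∀ j x, h j x * (1 - h j x) ≤
      |ramp δ (x - (j : ℕ) / k)| + |ramp δ (x - ((j : ℕ) + 1) / k)| := by
    intro j x
    set u := x - (j : ℕ) / (k : ℝ) with hu
    set v := x - ((j : ℕ) + 1) / (k : ℝ) with hv
    have hvu : v ≤ u := by rw [hu, hv]; gcongr; linarith
    have huv : u ≤ v + 1 := by
      have : 1 / (k : ℝ) ≤ 1 := by
        rw [div_le_one hk']; exact_mod_cast hk
      rw [hu, hv, add_div]; linarith
    have hf : h j x = ((⌊u⌋ - ⌊v⌋ : ℤ) : ℝ) + (ramp δ u - ramp δ v) := by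
      rw [hh, ← hu, ← hv]; unfold softFloor; push_cast; ring
    have h0 : ⌊v⌋ ≤ ⌊u⌋ := Int.floor_mono hvu
    have h1 : ⌊u⌋ ≤ ⌊v⌋ + 1 := by
      rw [← Int.floor_add_one]; exact Int.floor_mono huv
    have hb := abs_sub (ramp δ u) (ramp δ v)
    have hr := hnn j x
    have hr1 := hone j x
    rcases (show ⌊u⌋ - ⌊v⌋ = 0 ∨ ⌊u⌋ - ⌊v⌋ = 1 by omega) with e | e
    · rw [e, Int.cast_zero, zero_add] at hf
      nlinarith [le_abs_self (ramp δ u - ramp δ v)]
    · rw [e, Int.cast_one] at hf
      nlinarith [neg_abs_le (ramp δ u - ramp δ v)]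
  have hF : ∀ a b, IntervalIntegrable (softFloor δ) volume a b := fun a b =>
    hcF.intervalIntegrable a b
  have hG : Function.Periodic (fun x => softFloor δ x - x) 1 := fun x => by
    simp only [softFloor_add_one]; ring
  have hint : ∀ w : ℝ, (∫ x in (0 : ℝ)..1, softFloor δ (x - w)) =
      (∫ x in (0 : ℝ)..1, (softFloor δ x - x)) + (1 / 2 - w) := by
    intro w
    have e : ∀ x : ℝ, softFloor δ (x - w) = (softFloor δ (x - w) - (x - w)) + (x - w) :=
      fun x => by ring
    rw [intervalIntegral.integral_congr fun x _ => e x,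
      intervalIntegral.integral_add ((by fun_prop : Continuous fun x : ℝ =>
        softFloor δ (x - w) - (x - w)).intervalIntegrable 0 1)
        ((by fun_prop : Continuous fun x : ℝ => x - w).intervalIntegrable 0 1),
      intervalIntegral.integral_comp_sub_right (fun x => softFloor δ x - x) w,
      show (1 : ℝ) - w = 0 - w + 1 by ring, hG.intervalIntegral_add_eq (0 - w) 0, zero_add]
    congr 1
    simp
  refine ⟨fun j θ => h j (θ / (2 * π)), fun j => (hhc j).comp (by fun_prop), fun j θ => hnn _ _,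
    fun θ => hsum _, fun j => trigApprox_of_periodic (hhc j) (hper j) hκ ?_, fun i j hij => ?_,
    fun j θ => ?_⟩
  · have : (∫ x in (0 : ℝ)..1, h j x) = 1 / k := by
      simp only [hh]
      rw [intervalIntegral.integral_sub
        ((by fun_prop : Continuous fun x : ℝ =>
          softFloor δ (x - (j : ℕ) / k)).intervalIntegrable 0 1)
        ((by fun_prop : Continuous fun x : ℝ =>
          softFloor δ (x - ((j : ℕ) + 1) / k)).intervalIntegrable 0 1), hint, hint, add_div]
      ring
    rw [this, sub_self, norm_zero]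
    linarith
  · refine trigApprox_of_periodic (h := fun x => h i x * h j x) ((hhc i).mul (hhc j))
      ((hper i).mul (hper j)) hκ ?_
    have hle : ∀ x, h i x * h j x ≤ h j x * (1 - h j x) := fun x => by
      have : h i x + h j x ≤ 1 := by
        rw [← hsum x, ← Finset.sum_pair (f := fun l => h l x) hij]
        exact Finset.sum_le_univ_sum_of_nonneg (fun l => hnn l x)
      nlinarith [hnn j x]
    have h0 : 0 ≤ ∫ x in (0 : ℝ)..1, h i x * h j x :=
      intervalIntegral.integral_nonneg zero_le_one fun x _ => mul_nonneg (hnn _ _) (hnn _ _)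
    have h1 : (∫ x in (0 : ℝ)..1, h i x * h j x) ≤ ∫ x in (0 : ℝ)..1,
        (|ramp δ (x - (j : ℕ) / k)| + |ramp δ (x - ((j : ℕ) + 1) / k)|) :=
      intervalIntegral.integral_mono_on zero_le_one (((hhc i).mul (hhc j)).intervalIntegrable 0 1)
        ((intervalIntegrable_ramp hδ _ 0 1).add (intervalIntegrable_ramp hδ _ 0 1))
        fun x _ => (hle x).trans (hstep j x)
    rw [intervalIntegral.integral_add (intervalIntegrable_ramp hδ _ 0 1)
      (intervalIntegrable_ramp hδ _ 0 1)] at h1
    have := integral_ramp_le hδ hδ1 ((j : ℕ) / (k : ℝ))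
    have := integral_ramp_le hδ hδ1 (((j : ℕ) + 1) / (k : ℝ))
    rw [sub_zero, Real.norm_eq_abs, abs_of_nonneg h0]
    linarith
  · show h j ((θ + 2 * π) / (2 * π)) = h j (θ / (2 * π))
    rw [add_div, div_self (by positivity), hper j]

/-- The windows without the periodicity. -/
theorem exists_windows {k : ℕ} (hk : 0 < k) {κ : ℝ} (hκ : 0 < κ) :
    ∃ f : Fin k → ℝ → ℝ, (∀ j, Continuous (f j)) ∧ (∀ j θ, 0 ≤ f j θ) ∧ (∀ θ, ∑ j, f j θ = 1) ∧
      (∀ j, TrigApprox (f j) (1 / k) κ) ∧
      ∀ i j, i ≠ j → TrigApprox (fun θ => f i θ * f j θ) 0 κ :=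
  let ⟨f, h1, h2, h3, h4, h5, _⟩ := exists_windows_periodic hk hκ
  ⟨f, h1, h2, h3, h4, h5⟩

end Vale.Agent.P095.Gamma
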