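import Vale.Agent.P095.Gamma.EngineAux
import Vale.Agent.P095.Gamma.Windows

/-! P095: the abstract engine. -/

namespace Vale.Agent.P095.Gamma

universe u v

/-- The estimates produced by a choice of parameters for weight sets of size at most `N`. -/
theorem exists_params {N : ℕ} {e err : ℝ} (he : 0 < e) (herr : 0 < err) (X : ℝ) :
    ∃ (q m L : ℕ) (c : Fin q → ℝ) (K : ℝ), 0 < L ∧ 0 ≤ K ∧ X ≤ Real.sqrt L ∧
      X * K ≤ Real.sqrt L ∧ X * K ^ 3 ≤ Real.sqrt L ∧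
      ∀ (C : Type u) [CStarAlgebra C] (τ : TraceState C) (Γ : Type v) [Fintype Γ],
        Fintype.card Γ ≤ N → ∀ (S : SlotSystem τ Γ (Fin L × Cube m)) (ρ : Γ → ℝ), IsWeight ρ →
        (∀ l, ‖blockT c (S.block l).B ρ‖ ≤ K) ∧
        (∀ l X, (∀ i, ∀ x ∈ (S.block l).U i, Commute X x) →
          ‖τ.f (X * (blockT c (S.block l).B ρ * blockT c (S.block l).B ρ)) - τ.f X‖
            ≤ err * ‖X‖) ∧
        ∀ σ, IsWeight σ → ∑ g, |ρ g - σ g| ≤ e / 6 →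
          τ.hsq (bigZ c S.B ρ - bigZ c S.B σ) ≤ e := by
  set γ := min 1 (min (e / (4 * (6 * N + 1))) (err / (2 * (3 * N + 1)))) with hγdef
  have hγ : 0 < γ := lt_min one_pos (lt_min (by positivity) (by positivity))
  have hγe : 6 * γ * N ≤ e / 4 := by
    have : γ * (4 * (6 * N + 1)) ≤ e := (le_div_iff₀ (by positivity)).1
      ((min_le_right _ _).trans (min_le_left _ _))
    nlinarith
  have hγerr : 3 * γ * N ≤ err / 2 := by
    have : γ * (2 * (3 * N + 1)) ≤ err := (le_div_iff₀ (by positivity)).1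
      ((min_le_right _ _).trans (min_le_right _ _))
    nlinarith
  obtain ⟨q, c, hc⟩ := exists_poly_near_sqrt hγ
  obtain ⟨K, hK0, hK⟩ := exists_blockT_bound.{u, v} c
  obtain ⟨m, hm⟩ := pow_unbounded_of_one_lt ((16 * K / e + 2 * K / err + 1) ^ 2) one_lt_two
  have hs : 16 * K / e + 2 * K / err + 1 ≤ Real.sqrt ((2 : ℝ) ^ m) :=
    (Real.le_sqrt (by positivity) (by positivity)).2 hm.le
  have hs0 : 0 < Real.sqrt ((2 : ℝ) ^ m) := by positivity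
  have hKe : 4 * (K / Real.sqrt ((2 : ℝ) ^ m)) ≤ e / 4 := by
    rw [← mul_div_assoc, div_le_iff₀ hs0]
    have h1 : 16 * K / e * (e / 4) = 4 * K := by field_simp; ring
    have h2 : (0 : ℝ) ≤ 2 * K / err := by positivity
    nlinarith
  have hKerr : K / Real.sqrt ((2 : ℝ) ^ m) ≤ err / 2 := by
    rw [div_le_iff₀ hs0]
    have h1 : 2 * K / err * (err / 2) = K := by field_simp
    have h2 : (0 : ℝ) ≤ 16 * K / e := by positivity
    nlinarith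
  set K' := K * 2 ^ m
  obtain ⟨n, hn⟩ := exists_nat_ge (|X| * (1 + K' + K' ^ 3))
  have hL : |X| * (1 + K' + K' ^ 3) ≤ Real.sqrt ((n ^ 2 + 1 : ℕ) : ℝ) := by
    refine hn.trans (Real.le_sqrt_of_sq_le ?_)
    push_cast
    linarith
  have hK' : 0 ≤ K' := by positivity
  refine ⟨q, m, n ^ 2 + 1, c, K', Nat.succ_pos _, hK', ?_, ?_, ?_,
    fun C _ τ Γ _ hN S ρ hρ => ⟨fun l => ((hK C τ Γ m (S.block l) ρ ρ hρ hρ).1),
      fun l X hX => ?_, fun σ hσ hρσ => ?_⟩⟩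
  · nlinarith [le_abs_self X, abs_nonneg X, pow_nonneg hK' 3,
      mul_nonneg (abs_nonneg X) hK', mul_nonneg (abs_nonneg X) (pow_nonneg hK' 3)]
  · nlinarith [mul_le_mul_of_nonneg_right (le_abs_self X) hK', abs_nonneg X,
      mul_nonneg (abs_nonneg X) (pow_nonneg hK' 3)]
  · nlinarith [mul_le_mul_of_nonneg_right (le_abs_self X) (pow_nonneg hK' 3), abs_nonneg X,
      mul_nonneg (abs_nonneg X) hK']
  · refine (block_second_moment hγ.le (min_le_left _ _) hc (S.block l) hρ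
      (hK C τ Γ m (S.block l) ρ ρ hρ hρ).2 hX).trans ?_
    refine mul_le_mul_of_nonneg_right ?_ (norm_nonneg X)
    have : 3 * γ * (Fintype.card Γ : ℝ) ≤ 3 * γ * N := by gcongr
    linarith
  · refine hsq_bigZ_sub_le c S ρ σ (Nat.succ_pos _) fun l => ?_
    refine (block_hsq_sub hγ.le (min_le_left _ _) hc (S.block l) hρ hσ
      (fun ρ σ hρ hσ => (hK C τ Γ m (S.block l) ρ σ hρ hσ).2)).trans ?_
    have : 6 * γ * (Fintype.card Γ : ℝ) ≤ 6 * γ * N := by gcongr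
    linarith

/-- Gaussian decay beats `W` once `t` is large. -/
theorem exp_decay_le {W κ t : ℝ} (hW : 0 ≤ W) (hκ : 0 < κ) (ht : 8 * W / κ + 1 ≤ t) {d : ℤ}
    (hd : d ≠ 0) : W * Real.exp (-((d : ℝ) * t) ^ 2 / 2) ≤ κ / 4 := by
  have h0 : 0 ≤ 8 * W / κ := by positivity
  have ht1 : 1 ≤ t := by linarith
  have hd1 : (1 : ℝ) ≤ |(d : ℝ)| := by exact_mod_cast Int.one_le_abs hd
  have hd2 : (1 : ℝ) ≤ (d : ℝ) ^ 2 := by nlinarith [sq_abs (d : ℝ)]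
  have hsq : t ≤ ((d : ℝ) * t) ^ 2 := by
    have : t * 1 ≤ t ^ 2 * (d : ℝ) ^ 2 := mul_le_mul (by nlinarith) hd2 zero_le_one (sq_nonneg t)
    rw [mul_pow]; linarith
  have hexp := Real.add_one_le_exp (((d : ℝ) * t) ^ 2 / 2)
  have hinv : Real.exp (-((d : ℝ) * t) ^ 2 / 2) * Real.exp (((d : ℝ) * t) ^ 2 / 2) = 1 := by
    rw [← Real.exp_add, neg_div, neg_add_cancel, Real.exp_zero]
  have h8 : 8 * W ≤ t * κ := by
    have : 8 * W / κ * κ = 8 * W := by field_simp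
    nlinarith
  have hmul : Real.exp (-((d : ℝ) * t) ^ 2 / 2) * (t / 2) ≤ 1 :=
    hinv ▸ mul_le_mul_of_nonneg_left (by linarith) (Real.exp_pos _).le
  have := mul_le_mul_of_nonneg_right h8 (Real.exp_pos (-((d : ℝ) * t) ^ 2 / 2)).le
  nlinarith

/-- The three error terms together stay below `κ`. -/
theorem three_terms_le {W κ r R err K s : ℝ} (hW : 0 ≤ W) (hκ : 0 < κ) (hr : |r| ≤ R)
    (hK : 0 ≤ K) (hs : 0 < s) (hgauss : W * Real.exp (-r ^ 2 / 2) ≤ κ / 4)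
    (herr : err = κ / (4 * (W * R ^ 2 + 1))) (hX : (4 * W * R ^ 3 / κ) * K ^ 3 ≤ s) :
    W * (Real.exp (-r ^ 2 / 2) + r ^ 2 * err + |r| ^ 3 * K ^ 3 / s) ≤ κ := by
  have hR : 0 ≤ R := (abs_nonneg r).trans hr
  have hr2 : r ^ 2 ≤ R ^ 2 := by rw [← sq_abs]; exact pow_le_pow_left₀ (abs_nonneg r) hr 2
  have hr3 : |r| ^ 3 ≤ R ^ 3 := pow_le_pow_left₀ (abs_nonneg r) hr 3
  have herr0 : 0 ≤ err := herr ▸ by positivity
  have h' : err * (4 * (W * R ^ 2 + 1)) = κ := by rw [herr]; field_simp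
  have e2 : W * (r ^ 2 * err) ≤ κ / 4 := by
    have := mul_le_mul_of_nonneg_left hr2 (mul_nonneg hW herr0)
    nlinarith
  have e3 : W * (|r| ^ 3 * K ^ 3 / s) ≤ κ / 4 := by
    rw [← mul_div_assoc, div_le_iff₀ hs]
    have h6 : κ * (4 * W * R ^ 3 / κ * K ^ 3) = 4 * W * R ^ 3 * K ^ 3 := by field_simp
    have h7 := mul_le_mul_of_nonneg_left hX hκ.le
    have h8 := mul_le_mul_of_nonneg_left hr3 (mul_nonneg hW (pow_nonneg hK 3))
    linarith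
  rw [mul_add, mul_add]
  linarith

/-- Uniform decay of the exponentials of degree at most `D`. -/
theorem decay_le {C : Type u} [CStarAlgebra C] {τ : TraceState C} {Γ : Type v} [Fintype Γ]
    {q m L : ℕ} {c : Fin q → ℝ} (S : SlotSystem τ Γ (Fin L × Cube m)) {ρ : Γ → ℝ}
    (hL : 0 < L) {K W κ t D err : ℝ} (hK : 0 ≤ K) (hW : 0 < W) (hκ : 0 < κ)
    (hD : 0 ≤ D) (ht : 8 * W / κ + 1 ≤ t) (herr : err = κ / (4 * (W * (D * t) ^ 2 + 1)))
    (hX1 : D * t + 4 * W * (D * t) ^ 3 / κ + 1 ≤ Real.sqrt L)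
    (hX2 : (D * t + 4 * W * (D * t) ^ 3 / κ + 1) * K ≤ Real.sqrt L)
    (hX3 : (D * t + 4 * W * (D * t) ^ 3 / κ + 1) * K ^ 3 ≤ Real.sqrt L)
    (hnorm : ∀ l, ‖blockT c (S.block l).B ρ‖ ≤ K)
    (h2 : ∀ l X, (∀ i, ∀ x ∈ (S.block l).U i, Commute X x) →
      ‖τ.f (X * (blockT c (S.block l).B ρ * blockT c (S.block l).B ρ)) - τ.f X‖ ≤ err * ‖X‖)
    {a : C} (ha : ∀ i, ∀ x ∈ S.U i, Commute a x) {d : ℤ} (hd : d ≠ 0) (hdD : |(d : ℝ)| ≤ D) :
    ‖τ.f (a * uExp (d * t) (bigZ c S.B ρ))‖ ≤ κ / W * ‖a‖ := by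
  have hsL : 0 < Real.sqrt L := Real.sqrt_pos.2 (Nat.cast_pos.2 hL)
  have h0 : 0 ≤ 8 * W / κ := by positivity
  have ht0 : 0 < t := by linarith
  have hDt : 0 ≤ D * t := by positivity
  have hextra : 0 ≤ 4 * W * (D * t) ^ 3 / κ := by positivity
  have hr : |(d : ℝ) * t| ≤ D * t := by
    rw [abs_mul, abs_of_pos ht0]
    exact mul_le_mul_of_nonneg_right hdD ht0.le
  have hr2L : ((d : ℝ) * t) ^ 2 ≤ 2 * L := by
    have h := pow_le_pow_left₀ (abs_nonneg ((d : ℝ) * t)) (hr.trans (by linarith :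
      D * t ≤ Real.sqrt L)) 2
    rw [sq_abs, Real.sq_sqrt (Nat.cast_nonneg L)] at h
    linarith [(Nat.cast_nonneg L : (0 : ℝ) ≤ L)]
  refine (trace_uExp_bigZ_le c S ρ hL ha (herr ▸ by positivity) hnorm hr2L
    ((mul_le_mul_of_nonneg_right (hr.trans (by linarith)) hK).trans hX2) h2).trans ?_
  rw [mul_comm]
  refine mul_le_mul_of_nonneg_right ?_ (norm_nonneg a)
  rw [le_div_iff₀ hW, mul_comm]
  exact three_terms_le hW.le hκ hr hK hsL (exp_decay_le hW.le hκ ht hd) herr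
    ((mul_le_mul_of_nonneg_right (by linarith) (pow_nonneg hK 3)).trans hX3)

/-- Bookkeeping for the trace bound. -/
theorem two_kappa_le {κ ε W W' : ℝ} (hκ : 0 < κ) (hκ1 : 4 * κ ≤ ε) (hW : 0 < W) (hW' : W' ≤ W) :
    2 * κ + W' * (κ / W) ≤ ε := by
  have : W' * (κ / W) ≤ κ := by
    rw [← mul_div_assoc, div_le_iff₀ hW]
    nlinarith
  linarith

/-- Bookkeeping for the 2-norm bound. -/
theorem n2_bound_le {κ ε a b n : ℝ} (hκ : 4 * κ ≤ Real.sqrt ε) (hb : a ≤ b) (hb0 : 0 ≤ b)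
    (hn0 : 0 ≤ n) (hn : n ≤ Real.sqrt ε / (2 * (b + 1))) :
    2 * κ + a * n ≤ Real.sqrt ε := by
  have : b * (Real.sqrt ε / (2 * (b + 1))) ≤ Real.sqrt ε / 2 := by
    rw [← mul_div_assoc, div_le_div_iff₀ (by positivity) two_pos]
    nlinarith [Real.sqrt_nonneg ε]
  have := mul_le_mul hb hn hn0 hb0
  linarith

/-- Abstract engine: windows of `t • bigZ` divide the trace and vary little with the weights. -/
theorem engine {k : ℕ} (hk : 0 < k) {ε : ℝ} (hε : 0 < ε) :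
    ∃ (f : Fin k → ℝ → ℝ) (t δ : ℝ), 0 < δ ∧ (∀ j, Continuous (f j)) ∧ (∀ j θ, 0 ≤ f j θ) ∧
      (∀ θ, ∑ j, f j θ = 1) ∧
      ∀ N : ℕ, ∃ (q m L : ℕ) (c : Fin q → ℝ),
        ∀ (C : Type u) [CStarAlgebra C] (τ : TraceState C) (Γ : Type v) [Fintype Γ],
          Fintype.card Γ ≤ N → ∀ (S : SlotSystem τ Γ (Fin L × Cube m)) (ρ : Γ → ℝ), IsWeight ρ →
          (∀ i j, i ≠ j →
            ‖τ.f (window (f i) t (bigZ c S.B ρ) * window (f j) t (bigZ c S.B ρ))‖ ≤ ε) ∧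
          (∀ a : C, (∀ i, ∀ x ∈ S.U i, Commute a x) → ∀ j,
            ‖τ.f (a * window (f j) t (bigZ c S.B ρ)) - τ.f a / k‖ ≤ ε * ‖a‖) ∧
          (∀ σ, IsWeight σ → ∑ g, |ρ g - σ g| ≤ δ → ∀ j,
            τ.hsq (window (f j) t (bigZ c S.B ρ) - window (f j) t (bigZ c S.B σ)) ≤ ε) ∧
          (∀ a : C, (∀ i, ∀ x ∈ S.U i, Commute a x) → ∀ j,
            Commute a (window (f j) t (bigZ c S.B ρ))) := by
  obtain ⟨κ, hκ, hκ1, hκ2⟩ : ∃ κ : ℝ, 0 < κ ∧ 4 * κ ≤ ε ∧ 4 * κ ≤ Real.sqrt ε :=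
    ⟨min ε (Real.sqrt ε) / 8, div_pos (lt_min hε (Real.sqrt_pos.2 hε)) (by norm_num),
      (by linarith [min_le_left ε (Real.sqrt ε)]),
      (by linarith [min_le_right ε (Real.sqrt ε), Real.sqrt_nonneg ε])⟩
  obtain ⟨f, hf, hf0, hf1, hfa, hfb⟩ := exists_windows hk hκ
  choose D₁ W₁ hW₁ hc₁ using fun j => exists_window_control.{u} (hf j) (hfa j)
  choose D₂ W₂ hW₂ hc₂ using fun p : {p : Fin k × Fin k // p.1 ≠ p.2} =>
    exists_window_control.{u} ((hf p.1.1).mul (hf p.1.2)) (hfb _ _ p.2)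
  obtain ⟨D, hD₁, hD₂⟩ : ∃ D : ℕ, (∀ j, D₁ j ≤ D) ∧ ∀ p, D₂ p ≤ D :=
    ⟨∑ j, D₁ j + ∑ p, D₂ p,
      fun j => le_add_right (Finset.single_le_sum (fun _ _ => Nat.zero_le _) (Finset.mem_univ j)),
      fun p => le_add_left (Finset.single_le_sum (fun _ _ => Nat.zero_le _) (Finset.mem_univ p))⟩
  obtain ⟨W, hW, hW₁', hW₂'⟩ : ∃ W : ℝ, 0 < W ∧ (∀ j, W₁ j ≤ W) ∧ ∀ p, W₂ p ≤ W := by
    have h1 : 0 ≤ ∑ j, W₁ j := Finset.sum_nonneg fun j _ => hW₁ j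
    have h2 : 0 ≤ ∑ p, W₂ p := Finset.sum_nonneg fun p _ => hW₂ p
    exact ⟨∑ j, W₁ j + ∑ p, W₂ p + 1, by linarith,
      fun j => by linarith [Finset.single_le_sum (fun i _ => hW₁ i) (Finset.mem_univ j)],
      fun p => by linarith [Finset.single_le_sum (fun i _ => hW₂ i) (Finset.mem_univ p)]⟩
  obtain ⟨t, ht0, ht⟩ : ∃ t : ℝ, 0 < t ∧ 8 * W / κ + 1 ≤ t :=
    ⟨8 * W / κ + 1, by positivity, le_rfl⟩
  obtain ⟨e, he, hee⟩ : ∃ e : ℝ, 0 < e ∧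
      Real.sqrt e ≤ Real.sqrt ε / (2 * (W * (D * t) + 1)) :=
    ⟨(Real.sqrt ε / (2 * (W * (D * t) + 1))) ^ 2,
      pow_pos (div_pos (Real.sqrt_pos.2 hε) (by positivity)) 2,
      (Real.sqrt_sq (by positivity)).le⟩
  refine ⟨f, t, e / 6, by positivity, hf, hf0, hf1, fun N => ?_⟩
  obtain ⟨q, m, L, c, K, hL, hK, hX1, hX2, hX3, hpar⟩ :=
    exists_params.{u, v} (N := N) he
      (show 0 < κ / (4 * (W * ((D : ℝ) * t) ^ 2 + 1)) by positivity)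
      ((D : ℝ) * t + 4 * W * ((D : ℝ) * t) ^ 3 / κ + 1)
  refine ⟨q, m, L, c, fun C _ τ Γ _ hN S ρ hρ => ?_⟩
  obtain ⟨hnorm, h2, hinv⟩ := hpar C τ Γ hN S ρ hρ
  have hsa := isSelfAdjoint_bigZ c S.B S.B_sa ρ
  have hdec := fun (a : C) (ha : ∀ i, ∀ x ∈ S.U i, Commute a x) (d : ℤ) (hd : d ≠ 0)
    (hdD : |(d : ℝ)| ≤ D) =>
    decay_le S hL hK hW hκ (Nat.cast_nonneg D) ht rfl hX1 hX2 hX3 hnorm h2 ha hd hdD
  refine ⟨fun i j hij => ?_, fun a ha j => ?_, fun σ hσ hρσ j => ?_, fun a ha j => ?_⟩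
  · rw [window_mul (hf i) (hf j) t hsa]
    have h1 : ∀ l, ∀ x ∈ S.U l, Commute (1 : C) x := fun _ x _ => Commute.one_left x
    have h := ((hc₂ ⟨(i, j), hij⟩) C τ t _ hsa).1 1 (κ / W) (by positivity) fun d hd hdD =>
      hdec 1 h1 d hd (hdD.trans (Nat.cast_le.2 (hD₂ _)))
    simp only [norm_one_le τ, mul_one, one_mul, Complex.ofReal_zero, zero_mul, sub_zero] at h
    exact h.trans (two_kappa_le hκ hκ1 hW (hW₂' _))
  · have h := (hc₁ j C τ t _ hsa).1 a (κ / W) (by positivity) fun d hd hdD =>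
      hdec a ha d hd (hdD.trans (Nat.cast_le.2 (hD₁ j)))
    rw [show ((1 / (k : ℝ) : ℝ) : ℂ) * τ.f a = τ.f a / k by push_cast; ring] at h
    exact h.trans (mul_le_mul_of_nonneg_right (two_kappa_le hκ hκ1 hW (hW₁' _)) (norm_nonneg a))
  · refine (Real.sqrt_le_sqrt_iff hε.le).1 (((hc₁ j C τ t _ hsa).2 _
      (isSelfAdjoint_bigZ c S.B S.B_sa σ)).trans (n2_bound_le hκ2 (b := W * (D * t)) ?_
        (by positivity) (Real.sqrt_nonneg _) ((Real.sqrt_le_sqrt (hinv σ hσ hρσ)).trans hee)))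
    rw [abs_of_pos ht0]
    exact mul_le_mul (hW₁' j) (mul_le_mul_of_nonneg_right (Nat.cast_le.2 (hD₁ j)) ht0.le)
      (mul_nonneg (Nat.cast_nonneg _) ht0.le) hW.le
  · exact (commute_window t hsa (commute_bigZ c S ρ ha).symm).symm

end Vale.Agent.P095.Gamma
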