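import Mathlib

/-!
P095: trace estimates for `R = ∑ g, ρ g • P g`, with `P g` projections of trace one, in a
C*-algebra with a positive trace (not nec. normalised).
-/

open scoped CStarAlgebra ComplexOrder

namespace Vale.Agent.P095.Gamma

/-- A positive tracial functional. -/
structure PosTrace (D : Type*) [CStarAlgebra D] where
  f : D →ₗ[ℂ] ℂ
  trace : ∀ x y, f (x * y) = f (y * x)
  nonneg : ∀ x, 0 ≤ (f (star x * x)).re
  star_map : ∀ x, f (star x) = (starRingEnd ℂ) (f x)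

namespace PosTrace

variable {D : Type*} [CStarAlgebra D] (φ : PosTrace D)

/-- The real part. -/
noncomputable def re (x : D) : ℝ := (φ.f x).re

theorem re_add (x y : D) : φ.re (x + y) = φ.re x + φ.re y := by simp [re]

theorem re_sub (x y : D) : φ.re (x - y) = φ.re x - φ.re y := by simp [re]

theorem re_smul (r : ℝ) (x : D) : φ.re (r • x) = r * φ.re x := by
  rw [re, re, ← Complex.coe_smul, map_smul]; simp

theorem norm_apply_mul_le (a b : D) :
    ‖φ.f (star a * b)‖ ^ 2 ≤ φ.re (star a * a) * φ.re (star b * b) := by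
  set z := φ.f (star a * b) with hz
  have hq : ∀ t : ℝ, 0 ≤ φ.re (star a * a) * ‖z‖ ^ 2 * (t * t) + 2 * ‖z‖ ^ 2 * t +
      φ.re (star b * b) := by
    intro t
    have h := φ.nonneg (((t : ℂ) * z) • a + b)
    have hba : φ.f (star b * a) = (starRingEnd ℂ) z := by
      rw [hz, ← φ.star_map, star_mul, star_star]
    simp only [star_add, star_smul, add_mul, mul_add, smul_mul_assoc, mul_smul_comm, map_add,
      map_smul, smul_eq_mul, hba, ← hz, Complex.star_def, map_mul, Complex.conj_ofReal,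
      Complex.add_re, Complex.mul_re, Complex.mul_im, Complex.ofReal_re, Complex.ofReal_im,
      Complex.conj_re, Complex.conj_im] at h
    rw [Complex.sq_norm, Complex.normSq_apply]
    simp only [re]
    nlinarith [h]
  have h := discrim_le_zero hq
  rw [discrim] at h
  rcases eq_or_ne ‖z‖ 0 with h0 | h0
  · rw [h0]; simpa [re] using mul_nonneg (φ.nonneg a) (φ.nonneg b)
  · have hz0 : 0 < ‖z‖ ^ 2 := by positivity
    refine le_of_mul_le_mul_left ?_ hz0
    nlinarith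

variable [PartialOrder D] [StarOrderedRing D]

theorem re_nonneg {Y : D} (hY : 0 ≤ Y) : 0 ≤ φ.re Y := by
  have hs : star (CFC.sqrt Y) = CFC.sqrt Y :=
    (IsSelfAdjoint.of_nonneg (CFC.sqrt_nonneg Y)).star_eq
  have := φ.nonneg (CFC.sqrt Y)
  rwa [hs, CFC.sqrt_mul_sqrt_self Y hY] at this

theorem re_mono {X Y : D} (h : X ≤ Y) : φ.re X ≤ φ.re Y := by
  have := φ.re_nonneg (sub_nonneg.2 h)
  rw [re_sub] at this
  linarith

theorem re_mul_nonneg {X Y : D} (hX : 0 ≤ X) (hY : 0 ≤ Y) : 0 ≤ φ.re (X * Y) := by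
  have hs : star (CFC.sqrt Y) = CFC.sqrt Y :=
    (IsSelfAdjoint.of_nonneg (CFC.sqrt_nonneg Y)).star_eq
  have := φ.re_nonneg (star_left_conjugate_nonneg hX (CFC.sqrt Y))
  rwa [hs, re, φ.trace, ← mul_assoc, CFC.sqrt_mul_sqrt_self Y hY, φ.trace, ← re] at this

theorem re_mul_mono {X X' Y : D} (h : X ≤ X') (hY : 0 ≤ Y) : φ.re (X * Y) ≤ φ.re (X' * Y) := by
  have := φ.re_mul_nonneg (sub_nonneg.2 h) hY
  rw [sub_mul, re_sub] at this
  linarith

theorem re_mul_star_le (x X : D) :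
    φ.re (star (X * x) * (X * x)) ≤ ‖X‖ ^ 2 * φ.re (star x * x) := by
  have h : star X * X ≤ algebraMap ℝ D (‖X‖ ^ 2) := by
    rw [sq, ← CStarRing.norm_star_mul_self]
    exact (IsSelfAdjoint.star_mul_self X).le_algebraMap_norm_self
  have h2 := φ.re_mono (star_left_conjugate_le_conjugate h x)
  rw [Algebra.algebraMap_eq_smul_one, mul_smul_comm, smul_mul_assoc, mul_one, re_smul] at h2
  simpa [star_mul, mul_assoc] using h2

end PosTrace

/-- The data of the rank estimate. -/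
structure RankData (D : Type*) [CStarAlgebra D] (φ : PosTrace D) (Γ : Type*) where
  P : Γ → D
  sa : ∀ g, star (P g) = P g
  idem : ∀ g, P g * P g = P g
  trace_one : ∀ g, φ.f (P g) = 1

namespace RankData

variable {D : Type*} [CStarAlgebra D] {φ : PosTrace D} {Γ : Type*} [Fintype Γ]
  (S : RankData D φ Γ)

/-- `∑ g, ρ g • P g`. -/
noncomputable def op (ρ : Γ → ℝ) : D := ∑ g, ρ g • S.P g

variable [PartialOrder D] [StarOrderedRing D] {ρ σ : Γ → ℝ}

omit [Fintype Γ] in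
theorem P_nonneg (g : Γ) : 0 ≤ S.P g := by
  have := star_mul_self_nonneg (S.P g)
  rwa [S.sa, S.idem] at this

omit [Fintype Γ] in
theorem P_le_one (g : Γ) : S.P g ≤ 1 := by
  have h := star_mul_self_nonneg (1 - S.P g)
  rw [star_sub, star_one, S.sa,
    show (1 - S.P g) * (1 - S.P g) = 1 - S.P g - S.P g + S.P g * S.P g by noncomm_ring,
    S.idem, sub_add_cancel] at h
  exact sub_nonneg.1 h

theorem op_nonneg (h : ∀ g, 0 ≤ ρ g) : 0 ≤ S.op ρ :=
  Finset.sum_nonneg fun g _ => smul_nonneg (h g) (S.P_nonneg g)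

theorem op_le_one (h : ∀ g, 0 ≤ ρ g) (h1 : ∑ g, ρ g = 1) : S.op ρ ≤ 1 := by
  refine (Finset.sum_le_sum fun g _ => smul_le_smul_of_nonneg_left (S.P_le_one g) (h g)).trans_eq ?_
  rw [← Finset.sum_smul, h1, one_smul]

theorem mem_Icc_spectrum (h : ∀ g, 0 ≤ ρ g) (h1 : ∑ g, ρ g = 1) {x : ℝ}
    (hx : x ∈ spectrum ℝ (S.op ρ)) : x ∈ Set.Icc (0 : ℝ) 1 :=
  ⟨spectrum_nonneg_of_nonneg (S.op_nonneg h) hx,
    (le_algebraMap_iff_spectrum_le (IsSelfAdjoint.of_nonneg (S.op_nonneg h))).1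
      (by simpa using S.op_le_one h h1) x hx⟩

/-- The rank bound: `tr (R (R + e)⁻¹)` is at most the number of projections. -/
theorem re_ratio_le (h : ∀ g, 0 ≤ ρ g) (h1 : ∑ g, ρ g = 1) {e : ℝ} (he : 0 < e) :
    φ.re (cfc (fun x : ℝ => x / (x + e)) (S.op ρ)) ≤ Fintype.card Γ := by
  set R := S.op ρ with hR
  have hsp := fun x (hx : x ∈ spectrum ℝ R) => S.mem_Icc_spectrum h h1 hx
  have hRs : IsSelfAdjoint R := IsSelfAdjoint.of_nonneg (S.op_nonneg h)
  have hinv : ContinuousOn (fun x : ℝ => (x + e)⁻¹) (spectrum ℝ R) :=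
    (continuousOn_id.add continuousOn_const).inv₀ fun x hx =>
      (add_pos_of_nonneg_of_pos (hsp x hx).1 he).ne'
  set G := cfc (fun x : ℝ => (x + e)⁻¹) R
  set Q := cfc (fun x : ℝ => Real.sqrt (x + e)⁻¹) R
  have hQs : star Q = Q := (cfc_predicate _ R : IsSelfAdjoint Q).star_eq
  have hQQ : Q * Q = G := by
    rw [← cfc_mul _ _ R hinv.sqrt hinv.sqrt]
    exact cfc_congr fun x hx => Real.mul_self_sqrt
      (inv_nonneg.2 (add_pos_of_nonneg_of_pos (hsp x hx).1 he).le)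
  have hRG : R * G = cfc (fun x : ℝ => x / (x + e)) R := by
    nth_rw 1 [← cfc_id' ℝ R]
    rw [← cfc_mul (fun x : ℝ => x) _ R continuousOn_id hinv]
    rfl
  have hQRQ : Q * R * Q ≤ 1 := by
    nth_rw 1 [← cfc_id' ℝ R]
    rw [← cfc_mul _ (fun x : ℝ => x) R hinv.sqrt continuousOn_id,
      ← cfc_mul (fun x : ℝ => Real.sqrt (x + e)⁻¹ * x) _ R (hinv.sqrt.mul continuousOn_id)
        hinv.sqrt]
    refine cfc_le_one _ R fun x hx => ?_
    have hpos := add_pos_of_nonneg_of_pos (hsp x hx).1 he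
    rw [mul_right_comm, Real.mul_self_sqrt (inv_nonneg.2 hpos.le), inv_mul_le_one₀ hpos]
    linarith
  have key : ∀ g, ρ g * φ.re (S.P g * G) ≤ 1 := by
    intro g
    set T := Real.sqrt (ρ g) • (S.P g * Q) with hT
    have hT1 : star T * T ≤ 1 := by
      have e1 : star T * T = Q * (ρ g • S.P g) * Q := by
        rw [hT, star_smul, star_trivial, smul_mul_smul_comm, Real.mul_self_sqrt (h g), star_mul,
          hQs, S.sa, mul_smul_comm, smul_mul_assoc, mul_assoc Q, ← mul_assoc (S.P g), S.idem,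
          ← mul_assoc Q]
      rw [e1]
      have hle : ρ g • S.P g ≤ R := Finset.single_le_sum
        (f := fun i => ρ i • S.P i) (fun i _ => smul_nonneg (h i) (S.P_nonneg i))
        (Finset.mem_univ g)
      have := star_left_conjugate_le_conjugate hle Q
      rw [hQs] at this
      exact this.trans hQRQ
    have hT2 : T * star T ≤ 1 := by
      rw [← CStarAlgebra.norm_le_one_iff_of_nonneg _ (mul_star_self_nonneg T),
        CStarRing.norm_self_mul_star, ← CStarRing.norm_star_mul_self]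
      exact (CStarAlgebra.norm_le_one_iff_of_nonneg _ (star_mul_self_nonneg T)).2 hT1
    have h3 := φ.re_mono (star_left_conjugate_le_conjugate hT2 (S.P g))
    rw [S.sa, mul_one, S.idem] at h3
    have e2 : S.P g * (T * star T) * S.P g = ρ g • (S.P g * G * S.P g) := by
      rw [hT, star_smul, star_trivial, smul_mul_smul_comm, Real.mul_self_sqrt (h g), star_mul,
        hQs, S.sa, mul_smul_comm, smul_mul_assoc, ← hQQ]
      congr 1
      simp only [mul_assoc, S.idem]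
      simp only [← mul_assoc, S.idem]
    rw [e2, PosTrace.re_smul] at h3
    have e3 : φ.re (S.P g * G * S.P g) = φ.re (S.P g * G) := by
      rw [PosTrace.re, φ.trace, ← mul_assoc, S.idem, PosTrace.re]
    rw [e3] at h3
    exact h3.trans_eq (by rw [PosTrace.re, S.trace_one]; simp)
  rw [← hRG, hR, op, Finset.sum_mul, PosTrace.re, map_sum, Complex.re_sum]
  refine (Finset.sum_le_sum (g := fun _ => (1 : ℝ)) fun g _ => ?_).trans_eq (by simp)
  have := key g
  rw [smul_mul_assoc]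
  rwa [← φ.re_smul] at this

/-- A bounded function vanishing linearly at zero has small trace. -/
theorem re_cfc_le (h : ∀ g, 0 ≤ ρ g) (h1 : ∑ g, ρ g = 1) {f : ℝ → ℝ}
    (hf : ContinuousOn f (Set.Icc 0 1)) {s L : ℝ} (hs : 0 ≤ s) (hL : 0 ≤ L)
    (hfs : ∀ x ∈ Set.Icc (0 : ℝ) 1, f x ≤ s) (hfL : ∀ x ∈ Set.Icc (0 : ℝ) 1, f x ≤ L * x) :
    φ.re (cfc f (S.op ρ)) ≤ s * Fintype.card Γ := by
  refine le_of_forall_pos_le_add fun η hη => ?_
  set R := S.op ρ
  have hsp := fun x (hx : x ∈ spectrum ℝ R) => S.mem_Icc_spectrum h h1 hx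
  set N : ℝ := ((Fintype.card Γ : ℕ) : ℝ)
  have hN : 0 ≤ N := Nat.cast_nonneg _
  set e := η / (L * N + 1)
  have he : 0 < e := by positivity
  have hk : ContinuousOn (fun x : ℝ => x / (x + e)) (spectrum ℝ R) :=
    continuousOn_id.div (continuousOn_id.add continuousOn_const) fun x hx =>
      (add_pos_of_nonneg_of_pos (hsp x hx).1 he).ne'
  have hle : cfc f R ≤ (s + e * L) • cfc (fun x : ℝ => x / (x + e)) R := by
    rw [← cfc_smul (s + e * L) _ R hk]
    refine cfc_mono (fun x hx => ?_) (hf.mono hsp) (hk.const_smul (s + e * L))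
    have hpos := add_pos_of_nonneg_of_pos (hsp x hx).1 he
    rw [smul_eq_mul, ← mul_div_assoc, le_div_iff₀ hpos]
    nlinarith [mul_le_mul_of_nonneg_right (hfs x (hsp x hx)) (hsp x hx).1,
      mul_le_mul_of_nonneg_left (hfL x (hsp x hx)) he.le]
  refine (φ.re_mono hle).trans ?_
  rw [PosTrace.re_smul]
  refine (mul_le_mul_of_nonneg_left (S.re_ratio_le h h1 he) (by positivity)).trans ?_
  have : e * (L * N + 1) = η := div_mul_cancel₀ η (by positivity)
  nlinarith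

/-- Cauchy-Schwarz form of the rank bound. -/
theorem norm_apply_mul_cfc_le (h : ∀ g, 0 ≤ ρ g) (h1 : ∑ g, ρ g = 1) (X : D) {u w : ℝ → ℝ}
    (hu : ContinuousOn u (Set.Icc 0 1)) (hw : ContinuousOn w (Set.Icc 0 1)) {a b L : ℝ}
    (ha : 0 ≤ a) (hb : 0 ≤ b) (hL : 0 ≤ L)
    (hua : ∀ x ∈ Set.Icc (0 : ℝ) 1, |u x| ≤ a) (hwb : ∀ x ∈ Set.Icc (0 : ℝ) 1, |w x| ≤ b)
    (huL : ∀ x ∈ Set.Icc (0 : ℝ) 1, u x * u x ≤ L * x)
    (hwL : ∀ x ∈ Set.Icc (0 : ℝ) 1, w x * w x ≤ L * x) :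
    ‖φ.f (X * cfc (fun x => u x * w x) (S.op ρ))‖ ≤ ‖X‖ * (a * b) * Fintype.card Γ := by
  set R := S.op ρ
  have hsp := fun x (hx : x ∈ spectrum ℝ R) => S.mem_Icc_spectrum h h1 hx
  set U := cfc u R
  set W := cfc w R
  have hUs : star U = U := (cfc_predicate u R : IsSelfAdjoint U).star_eq
  have hWs : star W = W := (cfc_predicate w R : IsSelfAdjoint W).star_eq
  have hsq : ∀ (v : ℝ → ℝ) (c : ℝ), ContinuousOn v (Set.Icc 0 1) → 0 ≤ c →
      (∀ x ∈ Set.Icc (0 : ℝ) 1, |v x| ≤ c) → (∀ x ∈ Set.Icc (0 : ℝ) 1, v x * v x ≤ L * x) →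
      φ.re (cfc v R * cfc v R) ≤ c ^ 2 * Fintype.card Γ := by
    intro v c hv hc hvc hvL
    rw [← cfc_mul v v R (hv.mono hsp) (hv.mono hsp)]
    refine S.re_cfc_le h h1 (hv.mul hv) (sq_nonneg c) hL (fun x hx => ?_) hvL
    change v x * v x ≤ _
    nlinarith [abs_le.1 (hvc x hx)]
  have e : φ.f (X * cfc (fun x => u x * w x) R) = φ.f (star (star X * W) * U) := by
    rw [cfc_mul u w R (hu.mono hsp) (hw.mono hsp), (cfc_commute_cfc u w R).eq, star_mul, star_star,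
      hWs, φ.trace X, mul_assoc W X U, φ.trace W (X * U), mul_assoc X U W,
      φ.trace X (U * W), (cfc_commute_cfc u w R).eq]
  rw [e]
  have h2 := φ.norm_apply_mul_le (star X * W) U
  have h3 := φ.re_mul_star_le W (star X)
  rw [norm_star] at h3
  have h4 := hsq w b hw hb hwb hwL
  have h5 := hsq u a hu ha hua huL
  rw [hUs] at h2
  rw [hWs] at h3
  have hUU : 0 ≤ φ.re (U * U) := by have := φ.nonneg U; rwa [hUs] at this
  have : ‖φ.f (star (star X * W) * U)‖ ^ 2 ≤ (‖X‖ * (a * b) * Fintype.card Γ) ^ 2 :=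
    calc _ ≤ _ := h2
      _ ≤ ‖X‖ ^ 2 * φ.re (W * W) * φ.re (U * U) := mul_le_mul_of_nonneg_right h3 hUU
      _ ≤ ‖X‖ ^ 2 * (b ^ 2 * Fintype.card Γ) * (a ^ 2 * Fintype.card Γ) := by gcongr
      _ = _ := by ring
  nlinarith [mul_nonneg (mul_nonneg (norm_nonneg X) (mul_nonneg ha hb))
    (Nat.cast_nonneg (Fintype.card Γ) : (0 : ℝ) ≤ Fintype.card Γ)]

/-- Powers-Størmer: `‖√R - √R'‖₂² ≤ ‖ρ - σ‖₁`. -/
theorem re_sqrt_sub_sq_le (hρ : ∀ g, 0 ≤ ρ g) (hσ : ∀ g, 0 ≤ σ g) :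
    φ.re ((CFC.sqrt (S.op ρ) - CFC.sqrt (S.op σ)) * (CFC.sqrt (S.op ρ) - CFC.sqrt (S.op σ))) ≤
      ∑ g, |ρ g - σ g| := by
  set A := CFC.sqrt (S.op ρ)
  set B := CFC.sqrt (S.op σ)
  have hA : 0 ≤ A := CFC.sqrt_nonneg _
  have hB : 0 ≤ B := CFC.sqrt_nonneg _
  set Δ := A - B with hΔ
  set T := A + B with hT
  have hT0 : 0 ≤ T := add_nonneg hA hB
  have hΔs : IsSelfAdjoint Δ := (IsSelfAdjoint.of_nonneg hA).sub (IsSelfAdjoint.of_nonneg hB)
  refine le_of_forall_pos_le_add fun η hη => ?_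
  set e := η / (φ.re T + 1)
  have hτT : 0 ≤ φ.re T := φ.re_nonneg hT0
  have he : 0 < e := by positivity
  have hcont : Continuous fun x : ℝ => x / (|x| + e) :=
    continuous_id.div (continuous_abs.add continuous_const) fun x => by positivity
  set U := cfc (fun x : ℝ => x / (|x| + e)) Δ with hU
  have hUn : ‖U‖ ≤ 1 := norm_cfc_le zero_le_one fun x _ => by
    rw [Real.norm_eq_abs, abs_div, abs_of_pos (show 0 < |x| + e by positivity),
      div_le_one (by positivity)]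
    linarith
  -- lower bound
  have hlow : φ.re (Δ * Δ) ≤ φ.re (U * Δ * T) + e * φ.re T := by
    have hUΔ : U * Δ = cfc (fun x : ℝ => x / (|x| + e) * x) Δ := by
      nth_rw 1 [hU, ← cfc_id' ℝ Δ]
      rw [cfc_id' ℝ Δ]
      nth_rw 2 [← cfc_id' ℝ Δ]
      rw [← cfc_mul _ (fun x : ℝ => x) Δ hcont.continuousOn continuousOn_id]
    set Δp := cfc (fun x : ℝ => max x 0) Δ
    set Δm := cfc (fun x : ℝ => max (-x) 0) Δ
    have hp0 : 0 ≤ Δp := cfc_nonneg fun x _ => le_max_right _ _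
    have hm0 : 0 ≤ Δm := cfc_nonneg fun x _ => le_max_right _ _
    have hdiff : Δp - Δm = Δ := by
      rw [← cfc_sub _ _ Δ]
      conv_rhs => rw [← cfc_id' ℝ Δ]
      exact cfc_congr fun x _ => by rcases le_total x 0 with hx | hx <;> simp [hx]
    have hle : Δp + Δm - algebraMap ℝ D e ≤ U * Δ := by
      rw [hUΔ, ← cfc_const e Δ, ← cfc_add Δ _ _, ← cfc_sub _ _ Δ]
      refine cfc_mono (fun x _ => ?_) (by fun_prop) (hcont.mul continuous_id).continuousOn
      rw [div_mul_eq_mul_div, le_div_iff₀ (by positivity),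
        show max x 0 + max (-x) 0 = |x| by
          rcases le_total x 0 with hx | hx <;> simp [hx, abs_of_nonneg, abs_of_nonpos],
        ← abs_mul_abs_self x]
      nlinarith [abs_nonneg x, sq_nonneg e]
    have h3 := φ.re_mul_mono hle hT0
    have h4 : φ.re (Δ * Δ) ≤ φ.re ((Δp + Δm) * T) := by
      have h5 := φ.re_mul_nonneg hp0 (show 0 ≤ T - Δ by
        rw [show T - Δ = B + B by simp only [hT, hΔ]; abel]; exact add_nonneg hB hB)
      have h6 := φ.re_mul_nonneg hm0 (show 0 ≤ T + Δ by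
        rw [show T + Δ = A + A by simp only [hT, hΔ]; abel]; exact add_nonneg hA hA)
      have e1 : (Δp + Δm) * T - Δ * Δ = Δp * (T - Δ) + Δm * (T + Δ) := by
        nth_rw 1 [← hdiff]; noncomm_ring
      have := congrArg φ.re e1
      rw [φ.re_sub, φ.re_add] at this
      linarith
    rw [sub_mul, φ.re_sub, Algebra.algebraMap_eq_smul_one, smul_mul_assoc, one_mul,
      φ.re_smul] at h3
    linarith
  -- upper bound
  have hhigh : φ.re (U * Δ * T) ≤ ∑ g, |ρ g - σ g| := by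
    have hcomm : Commute U Δ := by
      have := cfc_commute_cfc (fun x : ℝ => x / (|x| + e)) (fun x : ℝ => x) Δ
      rwa [cfc_id' ℝ Δ] at this
    have e1 : φ.re (U * Δ * T) = φ.re (U * (S.op ρ - S.op σ)) := by
      rw [← CFC.sqrt_mul_sqrt_self (S.op ρ) (S.op_nonneg hρ),
        ← CFC.sqrt_mul_sqrt_self (S.op σ) (S.op_nonneg hσ)]
      change φ.re (U * Δ * T) = φ.re (U * (A * A - B * B))
      have h2 : U * (A * A - B * B) + U * (A * A - B * B) = U * Δ * T + U * (T * Δ) := by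
        simp only [hΔ, hT]; noncomm_ring
      have h3 : φ.re (U * (T * Δ)) = φ.re (U * Δ * T) := by
        simp only [PosTrace.re]
        rw [φ.trace U, mul_assoc T, ← hcomm.eq, φ.trace T]
      have h4 := congrArg φ.re h2
      rw [φ.re_add, φ.re_add, h3] at h4
      linarith
    rw [e1, op, op, ← Finset.sum_sub_distrib, Finset.mul_sum, PosTrace.re, map_sum,
      Complex.re_sum]
    refine Finset.sum_le_sum fun g _ => ?_
    rw [← sub_smul, mul_smul_comm, ← PosTrace.re, φ.re_smul]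
    refine (le_abs_self _).trans ?_
    rw [abs_mul]
    refine mul_le_of_le_one_right (abs_nonneg _) ?_
    refine (Complex.abs_re_le_norm _).trans ?_
    have h2 := φ.norm_apply_mul_le (S.P g) (U * S.P g)
    have h3 := φ.re_mul_star_le (S.P g) U
    rw [S.sa, S.idem, ← mul_assoc, φ.trace (S.P g * U), ← mul_assoc, S.idem, φ.trace,
      show φ.re (S.P g) = 1 by simp [PosTrace.re, S.trace_one], one_mul] at h2
    rw [S.sa, S.idem, show φ.re (S.P g) = 1 by simp [PosTrace.re, S.trace_one], mul_one] at h3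
    nlinarith [norm_nonneg (φ.f (U * S.P g)), norm_nonneg U]
  have : e * φ.re T ≤ η := by
    rw [div_mul_eq_mul_div, div_le_iff₀ (by positivity)]
    nlinarith
  linarith

/-- `∑ s, c s * x ^ (s + 1)` evaluated at `S.op ρ`. -/
noncomputable def polyOp {q : ℕ} (c : Fin q → ℝ) (ρ : Γ → ℝ) : D :=
  ∑ s : Fin q, (c s : ℂ) • S.op ρ ^ ((s : ℕ) + 1)

variable {q : ℕ} (c : Fin q → ℝ)

theorem polyOp_eq_cfc (h : ∀ g, 0 ≤ ρ g) :
    S.polyOp c ρ = cfc (fun x : ℝ => ∑ s : Fin q, c s * x ^ ((s : ℕ) + 1)) (S.op ρ) := by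
  have hs : IsSelfAdjoint (S.op ρ) := IsSelfAdjoint.of_nonneg (S.op_nonneg h)
  rw [show (fun x : ℝ => ∑ s : Fin q, c s * x ^ ((s : ℕ) + 1)) =
      ∑ s : Fin q, (fun x : ℝ => c s * x ^ ((s : ℕ) + 1)) by funext x; simp [Finset.sum_apply],
    cfc_sum_univ _ _ fun s => by fun_prop]
  refine Finset.sum_congr rfl fun s _ => ?_
  rw [cfc_const_mul _ _ _ (by fun_prop), cfc_pow_id _ _ hs, Complex.coe_smul]

omit [Fintype Γ] in
theorem exists_sq_le_mul :
    ∃ L, 0 ≤ L ∧ ∀ x ∈ Set.Icc (0 : ℝ) 1,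
      ((∑ s : Fin q, c s * x ^ ((s : ℕ) + 1)) - Real.sqrt x) *
        ((∑ s : Fin q, c s * x ^ ((s : ℕ) + 1)) - Real.sqrt x) ≤ L * x ∧
      ((∑ s : Fin q, c s * x ^ ((s : ℕ) + 1)) + Real.sqrt x) *
        ((∑ s : Fin q, c s * x ^ ((s : ℕ) + 1)) + Real.sqrt x) ≤ L * x := by
  refine ⟨2 * (∑ s, |c s|) ^ 2 + 2, by positivity, fun x hx => ?_⟩
  set p := ∑ s : Fin q, c s * x ^ ((s : ℕ) + 1) with hpd
  have hp : |p| ≤ (∑ s, |c s|) * x := by
    rw [hpd, Finset.sum_mul]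
    refine (Finset.abs_sum_le_sum_abs _ _).trans (Finset.sum_le_sum fun s _ => ?_)
    rw [abs_mul, abs_pow, abs_of_nonneg hx.1]
    exact mul_le_mul_of_nonneg_left (pow_le_of_le_one hx.1 hx.2 (by simp)) (abs_nonneg _)
  have h2 : p ^ 2 ≤ (∑ s, |c s|) ^ 2 * x := by
    rw [← sq_abs p]
    refine (pow_le_pow_left₀ (abs_nonneg _) hp 2).trans ?_
    rw [mul_pow]
    exact mul_le_mul_of_nonneg_left (pow_le_of_le_one hx.1 hx.2 two_ne_zero) (sq_nonneg _)
  have h3 := Real.mul_self_sqrt hx.1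
  constructor <;> nlinarith [sq_nonneg (p - Real.sqrt x), sq_nonneg (p + Real.sqrt x)]

variable {γ : ℝ}

/-- `p(R)²` is close to `R` in trace norm. -/
theorem norm_apply_polyOp_sq_sub (hγ : 0 ≤ γ) (hγ1 : γ ≤ 1)
    (hp : ∀ x ∈ Set.Icc (0 : ℝ) 1, |(∑ s : Fin q, c s * x ^ ((s : ℕ) + 1)) - Real.sqrt x| ≤ γ)
    (h : ∀ g, 0 ≤ ρ g) (h1 : ∑ g, ρ g = 1) (X : D) :
    ‖φ.f (X * (S.polyOp c ρ * S.polyOp c ρ)) - φ.f (X * S.op ρ)‖ ≤
      3 * γ * Fintype.card Γ * ‖X‖ := by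
  set R := S.op ρ
  set p : ℝ → ℝ := fun x => ∑ s : Fin q, c s * x ^ ((s : ℕ) + 1)
  have hsp := fun x (hx : x ∈ spectrum ℝ R) => S.mem_Icc_spectrum h h1 hx
  have hs : IsSelfAdjoint R := IsSelfAdjoint.of_nonneg (S.op_nonneg h)
  obtain ⟨L, hL, hLx⟩ := exists_sq_le_mul c
  have hpc : Continuous p := by fun_prop
  rw [← map_sub, ← mul_sub, S.polyOp_eq_cfc c h]
  have e : cfc p R * cfc p R - R =
      cfc (fun x => (p x - Real.sqrt x) * (p x + Real.sqrt x)) R := by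
    nth_rw 3 [← cfc_id' ℝ R]
    rw [← cfc_mul p p R hpc.continuousOn hpc.continuousOn, ← cfc_sub _ _ R]
    exact cfc_congr fun x hx => by nlinarith [Real.mul_self_sqrt (hsp x hx).1]
  rw [e]
  refine (S.norm_apply_mul_cfc_le h h1 X (hpc.sub Real.continuous_sqrt).continuousOn
    (hpc.add Real.continuous_sqrt).continuousOn hγ
    (show (0 : ℝ) ≤ 3 by norm_num) hL hp (fun x hx => ?_) (fun x hx => (hLx x hx).1)
    fun x hx => (hLx x hx).2).trans_eq (by ring)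
  have := abs_le.1 (hp x hx)
  have h1 : Real.sqrt x ≤ 1 := Real.sqrt_le_one.2 hx.2
  change |p x + Real.sqrt x| ≤ 3
  rw [abs_le]
  constructor <;> linarith [Real.sqrt_nonneg x]

/-- Hölder dependence of `p(R)` on the weights. -/
theorem re_polyOp_sub_sq_le (hγ : 0 ≤ γ) (hγ1 : γ ≤ 1)
    (hp : ∀ x ∈ Set.Icc (0 : ℝ) 1, |(∑ s : Fin q, c s * x ^ ((s : ℕ) + 1)) - Real.sqrt x| ≤ γ)
    (hρ : ∀ g, 0 ≤ ρ g) (hρ1 : ∑ g, ρ g = 1) (hσ : ∀ g, 0 ≤ σ g) (hσ1 : ∑ g, σ g = 1) :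
    φ.re ((S.polyOp c ρ - S.polyOp c σ) * (S.polyOp c ρ - S.polyOp c σ)) ≤
      3 * ∑ g, |ρ g - σ g| + 6 * γ * Fintype.card Γ := by
  set p : ℝ → ℝ := fun x => ∑ s : Fin q, c s * x ^ ((s : ℕ) + 1)
  have hpc : Continuous p := by fun_prop
  obtain ⟨L, hL, hLx⟩ := exists_sq_le_mul c
  have hclose : ∀ θ : Γ → ℝ, (∀ g, 0 ≤ θ g) → (∑ g, θ g = 1) →
      IsSelfAdjoint (cfc p (S.op θ) - CFC.sqrt (S.op θ)) ∧
      φ.re ((cfc p (S.op θ) - CFC.sqrt (S.op θ)) *
        (cfc p (S.op θ) - CFC.sqrt (S.op θ))) ≤ γ * Fintype.card Γ := by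
    intro θ hθ hθ1
    rw [CFC.sqrt_eq_real_sqrt (S.op θ) (S.op_nonneg hθ), cfcₙ_eq_cfc,
      ← cfc_sub p Real.sqrt (S.op θ)]
    refine ⟨cfc_predicate _ _, ?_⟩
    rw [← cfc_mul _ _ (S.op θ)]
    refine (S.re_cfc_le hθ hθ1 (by fun_prop) (sq_nonneg γ) hL (fun x hx => ?_)
      fun x hx => (hLx x hx).1).trans ?_
    · nlinarith [abs_le.1 (hp x hx)]
    · gcongr; nlinarith
  obtain ⟨has, ha⟩ := hclose ρ hρ hρ1
  obtain ⟨hbs, hb⟩ := hclose σ hσ hσ1
  have hS := S.re_sqrt_sub_sq_le hρ hσ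
  have hSs : IsSelfAdjoint (CFC.sqrt (S.op ρ) - CFC.sqrt (S.op σ)) :=
    (IsSelfAdjoint.of_nonneg (CFC.sqrt_nonneg _)).sub (IsSelfAdjoint.of_nonneg (CFC.sqrt_nonneg _))
  rw [S.polyOp_eq_cfc c hρ, S.polyOp_eq_cfc c hσ]
  set a := cfc p (S.op ρ) - CFC.sqrt (S.op ρ)
  set d := CFC.sqrt (S.op ρ) - CFC.sqrt (S.op σ)
  set b := cfc p (S.op σ) - CFC.sqrt (S.op σ)
  rw [show cfc p (S.op ρ) - cfc p (S.op σ) = a + d - b by simp only [a, d, b]; abel]
  have hsq : ∀ z, IsSelfAdjoint z → 0 ≤ φ.re (z * z) := fun z hz => by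
    have := φ.nonneg z; rwa [hz.star_eq] at this
  have e : (a + d - b) * (a + d - b) + ((a - d) * (a - d) + (d + b) * (d + b) + (a + b) * (a + b))
      = a * a + a * a + a * a + (d * d + d * d + d * d) + (b * b + b * b + b * b) := by
    noncomm_ring
  have := congrArg φ.re e
  simp only [φ.re_add] at this
  linarith [hsq _ (has.sub hSs), hsq _ (hSs.add hbs), hsq _ (has.add hbs)]

end RankData

end Vale.Agent.P095.Gamma
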