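import Vale.Agent.P095.Gamma.Basic
import Vale.Agent.P095.Gamma.SpectralAux

/-!
P095: `R = ∑ g, ρ g • P g` with projections of trace one; consequently `p(R)` has unit
2-norm and depends on the weights in a Hölder way (Powers-Størmer).
-/

open scoped CStarAlgebra ComplexOrder

namespace Vale.Agent.P095.Gamma

theorem exists_poly_near_sqrt {γ : ℝ} (hγ : 0 < γ) :
    ∃ (q : ℕ) (c : Fin q → ℝ), ∀ x ∈ Set.Icc (0 : ℝ) 1, |polyVal c x - Real.sqrt x| ≤ γ := by
  obtain ⟨p, hp⟩ := exists_polynomial_near_of_continuousOn 0 1 Real.sqrt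
    Real.continuous_sqrt.continuousOn (γ / 2) (half_pos hγ)
  refine ⟨p.natDegree, fun s => p.coeff ((s : ℕ) + 1), fun x hx => ?_⟩
  have h0 := hp 0 (Set.left_mem_Icc.2 zero_le_one)
  rw [Real.sqrt_zero, sub_zero, ← p.coeff_zero_eq_eval_zero] at h0
  have hx' := hp x hx
  rw [p.eval_eq_sum_range, Finset.sum_range_succ', pow_zero, mul_one] at hx'
  rw [polyVal, Fin.sum_univ_eq_sum_range (fun s => p.coeff (s + 1) * x ^ (s + 1))]
  rw [abs_le]
  constructor <;> linarith [abs_lt.1 h0, abs_lt.1 hx']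

section bridge

variable {C : Type*} [CStarAlgebra C] {τ : TraceState C} {Γ : Type*} [Fintype Γ] {q m : ℕ}

theorem isSelfAdjoint_rMatrix (S : SlotSystem τ Γ (Cube m)) (ρ : Γ → ℝ) :
    IsSelfAdjoint (rMatrix S.B ρ) := by
  refine CStarMatrix.ext fun a b => ?_
  rw [CStarMatrix.star_apply]
  simp [rMatrix, rEntry, star_sum, S.B_sa]

theorem isSelfAdjoint_polyMatrix {C : Type*} [CStarAlgebra C] {τ : TraceState C} {Γ : Type*}
    [Fintype Γ] {q m : ℕ} (c : Fin q → ℝ) (S : SlotSystem τ Γ (Cube m)) (ρ : Γ → ℝ) :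
    IsSelfAdjoint (polyMatrix c S.B ρ) := by
  rw [polyMatrix, isSelfAdjoint_iff, star_sum]
  refine Finset.sum_congr rfl fun s _ => ?_
  rw [star_smul, ((isSelfAdjoint_rMatrix S ρ).pow _).star_eq]
  simp

variable [PartialOrder C] [StarOrderedRing C]

/-- The trace of matrices over `C`. -/
noncomputable def matTrace (τ : TraceState C) (m : ℕ) :
    PosTrace (CStarMatrix (Cube m) (Cube m) C) where
  f :=
    { toFun := fun Y => ∑ a, τ.f (Y a a)
      map_add' := fun x y => by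
        rw [← Finset.sum_add_distrib]
        exact Finset.sum_congr rfl fun a _ => map_add τ.f (x a a) (y a a)
      map_smul' := fun r x => by
        rw [RingHom.id_apply, Finset.smul_sum]
        exact Finset.sum_congr rfl fun a _ => map_smul τ.f r (x a a) }
  trace x y := by
    change ∑ a, τ.f ((x * y) a a) = ∑ a, τ.f ((y * x) a a)
    simp only [CStarMatrix.mul_apply, map_sum]
    rw [Finset.sum_comm]
    exact Finset.sum_congr rfl fun a _ => Finset.sum_congr rfl fun b _ => τ.trace _ _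
  nonneg x := by
    change 0 ≤ (∑ a, τ.f ((star x * x) a a)).re
    simp only [CStarMatrix.mul_apply, CStarMatrix.star_apply, map_sum, Complex.re_sum]
    exact Finset.sum_nonneg fun a _ => Finset.sum_nonneg fun b _ => τ.nonneg _
  star_map x := by
    change ∑ a, τ.f (star x a a) = (starRingEnd ℂ) (∑ a, τ.f (x a a))
    simp [CStarMatrix.star_apply, τ.star_map]

/-- The rank-one projection of a translate. -/
noncomputable def rankData (S : SlotSystem τ Γ (Cube m)) :
    RankData (CStarMatrix (Cube m) (Cube m) C) (matTrace τ m) Γ where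
  P g := CStarMatrix.ofMatrix (Matrix.of fun a b =>
    ((2 ^ m : ℝ)⁻¹ : ℂ) • (S.B g a * S.B g b))
  sa g := by
    refine CStarMatrix.ext fun a b => ?_
    rw [CStarMatrix.star_apply]
    simp [S.B_sa]
  idem g := by
    refine CStarMatrix.ext fun a b => ?_
    rw [CStarMatrix.mul_apply]
    simp only [CStarMatrix.ofMatrix_apply, Matrix.of_apply, smul_mul_smul_comm, mul_assoc,
      ← mul_assoc (S.B g _) (S.B g _) (S.B g b), S.B_sq, one_mul, Finset.sum_const,
      Finset.card_univ, ← Nat.cast_smul_eq_nsmul ℂ, smul_smul]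
    congr 1
    simp
  trace_one g := by
    change ∑ a, τ.f (((2 ^ m : ℝ)⁻¹ : ℂ) • (S.B g a * S.B g a)) = 1
    simp [S.B_sq, τ.one]

theorem op_rankData (S : SlotSystem τ Γ (Cube m)) (ρ : Γ → ℝ) :
    (rankData S).op ρ = rMatrix S.B ρ := by
  refine CStarMatrix.ext fun a b => ?_
  refine (Matrix.sum_apply a b Finset.univ
    fun g => (ρ g • (rankData S).P g : CStarMatrix (Cube m) (Cube m) C)).trans ?_
  refine Finset.sum_congr rfl fun g _ => ?_
  change ρ g • (((2 ^ m : ℝ)⁻¹ : ℂ) • (S.B g a * S.B g b)) = _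
  rw [← Complex.coe_smul, smul_smul]
  push_cast
  rw [div_eq_mul_inv]

/-- Scalar matrices. -/
noncomputable def diagHom (m : ℕ) : C →⋆ₐ[ℂ] CStarMatrix (Cube m) (Cube m) C where
  toFun X := CStarMatrix.ofMatrix (Matrix.diagonal fun _ => X)
  map_one' := Matrix.diagonal_one
  map_mul' x y := (Matrix.diagonal_mul_diagonal (fun _ => x) fun _ => y).symm
  map_zero' := Matrix.diagonal_zero
  map_add' x y := (Matrix.diagonal_add (fun _ => x) fun _ => y).symm
  commutes' r := (Matrix.algebraMap_eq_diagonal (n := Cube m) (α := C) r).symm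
  map_star' x := (Matrix.diagonal_conjTranspose fun _ : Cube m => x).symm

theorem matTrace_diagHom_mul (X : C) (Y : CStarMatrix (Cube m) (Cube m) C) :
    (matTrace τ m).f (diagHom m X * Y) = ∑ a, τ.f (X * Y a a) := by
  refine Finset.sum_congr rfl fun a _ => congrArg τ.f ?_
  exact Matrix.diagonal_mul (fun _ => X) Y a a

theorem matTrace_diagHom_mul_rMatrix (S : SlotSystem τ Γ (Cube m)) {ρ : Γ → ℝ} (hρ : IsWeight ρ)
    (X : C) : (matTrace τ m).f (diagHom m X * rMatrix S.B ρ) = τ.f X := by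
  rw [matTrace_diagHom_mul]
  have h : ∀ a, rMatrix S.B ρ a a = (((2 ^ m : ℝ)⁻¹ : ℝ) : ℂ) • (1 : C) := by
    intro a
    change ∑ g, ((ρ g / 2 ^ m : ℝ) : ℂ) • (S.B g a * S.B g a) = _
    simp only [S.B_sq, ← Finset.sum_smul, ← Complex.ofReal_sum, ← Finset.sum_div, hρ.2, one_div]
  simp [h, Finset.sum_const]

theorem polyMatrix_eq_polyOp (c : Fin q → ℝ) (S : SlotSystem τ Γ (Cube m)) (ρ : Γ → ℝ) :
    polyMatrix c S.B ρ = (rankData S).polyOp c ρ := by
  rw [RankData.polyOp, op_rankData]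
  rfl

end bridge

theorem abs_trace_polyMatrix_sq_sub {C : Type*} [CStarAlgebra C] {τ : TraceState C} {Γ : Type*}
    [Fintype Γ] {q m : ℕ} {c : Fin q → ℝ} {γ : ℝ} (hγ : 0 ≤ γ) (hγ1 : γ ≤ 1)
    (hp : ∀ x ∈ Set.Icc (0 : ℝ) 1, |polyVal c x - Real.sqrt x| ≤ γ)
    (S : SlotSystem τ Γ (Cube m)) {ρ : Γ → ℝ} (hρ : IsWeight ρ) (X : C) :
    ‖(∑ a, τ.f (X * (polyMatrix c S.B ρ * polyMatrix c S.B ρ) a a)) - τ.f X‖
      ≤ 3 * γ * Fintype.card Γ * ‖X‖ := by
  let := CStarAlgebra.spectralOrder C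
  have := CStarAlgebra.spectralOrderedRing C
  rw [← matTrace_diagHom_mul, ← matTrace_diagHom_mul_rMatrix S hρ X, ← op_rankData S ρ,
    polyMatrix_eq_polyOp]
  refine ((rankData S).norm_apply_polyOp_sq_sub c hγ hγ1 hp hρ.1 hρ.2 _).trans ?_
  gcongr
  exact NonUnitalStarAlgHom.norm_apply_le (diagHom m) X

theorem trace_polyMatrix_sub_sq_le {C : Type*} [CStarAlgebra C] {τ : TraceState C} {Γ : Type*}
    [Fintype Γ] {q m : ℕ} {c : Fin q → ℝ} {γ : ℝ} (hγ : 0 ≤ γ) (hγ1 : γ ≤ 1)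
    (hp : ∀ x ∈ Set.Icc (0 : ℝ) 1, |polyVal c x - Real.sqrt x| ≤ γ)
    (S : SlotSystem τ Γ (Cube m)) {ρ σ : Γ → ℝ} (hρ : IsWeight ρ) (hσ : IsWeight σ) :
    (∑ a, τ.f (((polyMatrix c S.B ρ - polyMatrix c S.B σ) *
      (polyMatrix c S.B ρ - polyMatrix c S.B σ)) a a)).re
      ≤ 3 * ∑ g, |ρ g - σ g| + 6 * γ * Fintype.card Γ := by
  let := CStarAlgebra.spectralOrder C
  have := CStarAlgebra.spectralOrderedRing C
  rw [polyMatrix_eq_polyOp c S ρ, polyMatrix_eq_polyOp c S σ]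
  exact (rankData S).re_polyOp_sub_sq_le c hγ hγ1 hp hρ.1 hρ.2 hσ.1 hσ.2

end Vale.Agent.P095.Gamma
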