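import Vale.Agent.P095.Gamma.Norm2

/-! P095: functional calculus of windows and their trigonometric approximants. -/

open scoped ComplexOrder

namespace Vale.Agent.P095.Gamma

variable {C : Type*} [CStarAlgebra C]

theorem map_window {D : Type*} [CStarAlgebra D] (φ : C →⋆ₐ[ℂ] D)
    {f : ℝ → ℝ} (hf : Continuous f) (t : ℝ) {Z : C} (hZ : IsSelfAdjoint Z) :
    φ (window f t Z) = window f t (φ Z) := by
  have : Continuous φ := AddMonoidHomClass.continuous_of_bound φ 1 fun x => by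
    simpa using NonUnitalStarAlgHom.norm_apply_le φ x
  exact StarAlgHom.map_cfc φ _ Z (by fun_prop) this hZ.isStarNormal (hZ.map φ).isStarNormal

theorem window_nonneg [PartialOrder C] [StarOrderedRing C]
    {f : ℝ → ℝ} (hf : ∀ θ, 0 ≤ f θ) (t : ℝ) (Z : C) : 0 ≤ window f t Z :=
  cfc_nonneg fun _ _ => Complex.zero_le_real.2 (hf _)

theorem sum_window {k : ℕ} {f : Fin k → ℝ → ℝ}
    (hf : ∀ j, Continuous (f j)) (hsum : ∀ θ, ∑ j, f j θ = 1) (t : ℝ) {Z : C}
    (hZ : IsSelfAdjoint Z) : ∑ j, window (f j) t Z = 1 := by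
  have := hZ.isStarNormal
  unfold window
  rw [← cfc_sum (fun j (z : ℂ) => ((f j (t * z.re) : ℝ) : ℂ)) Z Finset.univ
    (fun j _ => by fun_prop)]
  rw [← cfc_const_one ℂ Z]
  refine cfc_congr fun z _ => ?_
  rw [Finset.sum_apply, ← Complex.ofReal_sum, hsum, Complex.ofReal_one]

theorem window_mul {f g : ℝ → ℝ} (hf : Continuous f) (hg : Continuous g) (t : ℝ) {Z : C}
    (hZ : IsSelfAdjoint Z) :
    window f t Z * window g t Z = window (fun θ => f θ * g θ) t Z := by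
  have := hZ.isStarNormal
  unfold window
  rw [← cfc_mul _ _ Z (by fun_prop) (by fun_prop)]
  simp

theorem commute_window {f : ℝ → ℝ} (t : ℝ) {Z y : C} (hZ : IsSelfAdjoint Z)
    (h : Commute Z y) : Commute (window f t Z) y :=
  Commute.cfc h (by rwa [hZ.star_eq]) _

/-- `e^{i r Z}`. -/
noncomputable def uExp (r : ℝ) (Z : C) : C := NormedSpace.exp ((Complex.I * (r : ℂ)) • Z)

theorem cfc_exp_eq_uExp (r : ℝ) {Z : C} (hZ : IsSelfAdjoint Z) :
    cfc (fun z : ℂ => Complex.exp (((r * z.re : ℝ) : ℂ) * Complex.I)) Z = uExp r Z := by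
  have := hZ.isStarNormal
  have h : cfc (fun z : ℂ => Complex.exp ((Complex.I * (r : ℂ)) • z)) Z = uExp r Z := by
    rw [cfc_comp_smul _ _ Z (by fun_prop)]
    exact CFC.complex_exp_eq_normedSpace_exp (IsStarNormal.mk (by
      simp only [star_smul, hZ.star_eq]
      exact ((Commute.refl Z).smul_left _).smul_right _))
  rw [← h]
  refine cfc_congr fun z hz => ?_
  rw [hZ.mem_spectrum_eq_re hz, smul_eq_mul]
  push_cast
  rw [Complex.ofReal_re]
  congr 1
  ring

/-- Trigonometric data turn a window into a finite combination of exponentials, up to `κ`. -/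
theorem norm_window_sub_le {g : ℝ → ℝ} (hg : Continuous g) {D : ℕ} {c : ℤ → ℂ} {κ : ℝ}
    (hκ : 0 ≤ κ) (happ : ∀ θ : ℝ, ‖(g θ : ℂ) - ∑ d ∈ Finset.Icc (-(D : ℤ)) D,
      c d * Complex.exp ((d * θ : ℝ) * Complex.I)‖ ≤ κ)
    (t : ℝ) {Z : C} (hZ : IsSelfAdjoint Z) :
    ‖window g t Z - ∑ d ∈ Finset.Icc (-(D : ℤ)) D, c d • uExp (d * t) Z‖ ≤ κ := by
  have := hZ.isStarNormal
  have hsum : cfc (fun z : ℂ => ∑ d ∈ Finset.Icc (-(D : ℤ)) D,
      c d * Complex.exp ((((d : ℝ) * t * z.re : ℝ) : ℂ) * Complex.I)) Z =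
      ∑ d ∈ Finset.Icc (-(D : ℤ)) D, c d • uExp (d * t) Z := by
    rw [show (fun z : ℂ => ∑ d ∈ Finset.Icc (-(D : ℤ)) D,
      c d * Complex.exp ((((d : ℝ) * t * z.re : ℝ) : ℂ) * Complex.I)) =
      ∑ d ∈ Finset.Icc (-(D : ℤ)) D, fun z : ℂ =>
      c d * Complex.exp ((((d : ℝ) * t * z.re : ℝ) : ℂ) * Complex.I) from
        (Finset.sum_fn _ _).symm, cfc_sum _ Z _ (fun d _ => by fun_prop)]
    refine Finset.sum_congr rfl fun d _ => ?_
    rw [cfc_const_mul _ _ Z (by fun_prop), cfc_exp_eq_uExp _ hZ]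
  rw [← hsum, window, ← cfc_sub _ _ Z (by fun_prop) (by fun_prop)]
  refine norm_cfc_le hκ fun z _ => ?_
  refine le_of_eq_of_le ?_ (happ (t * z.re))
  simp [mul_assoc]

theorem uExp_zero (Z : C) : uExp 0 Z = 1 := by simp [uExp]

end Vale.Agent.P095.Gamma
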