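import Vale.Agent.P095.Gamma.Block
import Vale.Agent.P095.Gamma.Spectral
import Vale.Agent.P095.Gamma.Clt
import Vale.Agent.P095.Gamma.WindowCalc

/-! P095: estimates for the engine. -/

namespace Vale.Agent.P095.Gamma

universe u v

variable {C : Type u} [CStarAlgebra C] (τ : TraceState C)

theorem norm_one_le (τ : TraceState C) : ‖(1 : C)‖ = 1 := by
  have : Nontrivial C := ⟨⟨1, 0, fun h => by simpa [h] using τ.one⟩⟩
  exact CStarRing.norm_one

theorem uExp_n2_sub_le (r : ℝ) {Z Z' : C} (hZ : IsSelfAdjoint Z) (hZ' : IsSelfAdjoint Z') :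
    τ.n2 (uExp r Z - uExp r Z') ≤ |r| * τ.n2 (Z - Z') := by
  have hr : IsSelfAdjoint (r : ℂ) := Complex.conj_ofReal r
  have h := hsq_exp_sub_le τ (hr.smul hZ) (hr.smul hZ')
  simp only [smul_smul, ← smul_sub, TraceState.hsq_smul, Complex.norm_real, Real.norm_eq_abs] at h
  refine (Real.sqrt_le_sqrt h).trans ?_
  rw [Real.sqrt_mul (sq_nonneg _), Real.sqrt_sq (abs_nonneg r)]
  exact le_rfl

/-- What a trigonometric approximation yields for windows. -/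
theorem exists_window_control {g : ℝ → ℝ} {mean κ : ℝ} (hg : Continuous g)
    (h : TrigApprox g mean κ) :
    ∃ (D : ℕ) (W : ℝ), 0 ≤ W ∧ ∀ (C : Type u) [CStarAlgebra C] (τ : TraceState C) (t : ℝ) (Z : C),
      IsSelfAdjoint Z →
      (∀ (a : C) (β : ℝ), 0 ≤ β → (∀ d : ℤ, d ≠ 0 → |(d : ℝ)| ≤ D →
          ‖τ.f (a * uExp (d * t) Z)‖ ≤ β * ‖a‖) →
        ‖τ.f (a * window g t Z) - (mean : ℂ) * τ.f a‖ ≤ (2 * κ + W * β) * ‖a‖) ∧
      ∀ Z' : C, IsSelfAdjoint Z' →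
        τ.n2 (window g t Z - window g t Z') ≤ 2 * κ + W * (D * |t|) * τ.n2 (Z - Z') := by
  obtain ⟨D, c, hc0, happ⟩ := h
  have hκ : 0 ≤ κ := (norm_nonneg _).trans hc0
  refine ⟨D, ∑ d ∈ Finset.Icc (-(D : ℤ)) D, ‖c d‖, Finset.sum_nonneg fun _ _ => norm_nonneg _,
    fun C _ τ t Z hZ => ⟨fun a β hβ hdecay => ?_, fun Z' hZ' => ?_⟩⟩
  · set P := ∑ d ∈ Finset.Icc (-(D : ℤ)) D, c d • uExp (d * t) Z with hP
    have h1 : ‖τ.f (a * (window g t Z - P))‖ ≤ κ * ‖a‖ :=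
      (τ.bound _).trans ((norm_mul_le _ _).trans (by
        rw [mul_comm κ]
        exact mul_le_mul_of_nonneg_left (norm_window_sub_le hg hκ happ t hZ) (norm_nonneg _)))
    have h0 : (0 : ℤ) ∈ Finset.Icc (-(D : ℤ)) D := by simp
    have h2 : ‖τ.f (a * P) - c 0 * τ.f a‖
        ≤ (∑ d ∈ Finset.Icc (-(D : ℤ)) D, ‖c d‖) * β * ‖a‖ := by
      simp only [hP, Finset.mul_sum, mul_smul_comm, map_sum, map_smul, smul_eq_mul]
      rw [← Finset.add_sum_erase _ _ h0,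
        show ((0 : ℤ) : ℝ) * t = 0 by simp, uExp_zero, mul_one, add_sub_cancel_left,
        Finset.sum_mul, Finset.sum_mul]
      refine (norm_sum_le _ _).trans ((Finset.sum_le_sum fun d hd => ?_).trans
        (Finset.sum_le_sum_of_subset_of_nonneg (Finset.erase_subset _ _)
          fun _ _ _ => by positivity))
      obtain ⟨hd0, hd⟩ := Finset.mem_erase.1 hd
      rw [norm_mul, mul_assoc]
      refine mul_le_mul_of_nonneg_left (hdecay d hd0 ?_) (norm_nonneg _)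
      rw [Finset.mem_Icc] at hd
      rw [← Int.cast_abs]
      exact_mod_cast abs_le.2 hd
    have h3 : ‖c 0 * τ.f a - (mean : ℂ) * τ.f a‖ ≤ κ * ‖a‖ := by
      rw [← sub_mul, norm_mul]
      exact mul_le_mul hc0 (τ.bound a) (norm_nonneg _) hκ
    have h4 : τ.f (a * window g t Z) - (mean : ℂ) * τ.f a = τ.f (a * (window g t Z - P)) +
        ((τ.f (a * P) - c 0 * τ.f a) + (c 0 * τ.f a - (mean : ℂ) * τ.f a)) := by
      rw [mul_sub, map_sub]
      ring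
    rw [h4]
    refine (norm_add_le _ _).trans ((add_le_add h1 ((norm_add_le _ _).trans
      (add_le_add h2 h3))).trans (le_of_eq ?_))
    ring
  · set P := fun Z : C => ∑ d ∈ Finset.Icc (-(D : ℤ)) D, c d • uExp (d * t) Z with hP
    have hw : ∀ Y : C, IsSelfAdjoint Y → τ.n2 (window g t Y - P Y) ≤ κ := fun Y hY =>
      (τ.n2_le_norm _).trans (norm_window_sub_le hg hκ happ t hY)
    have hPP : τ.n2 (P Z - P Z') ≤
        (∑ d ∈ Finset.Icc (-(D : ℤ)) D, ‖c d‖) * (D * |t|) * τ.n2 (Z - Z') := by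
      simp only [hP, ← Finset.sum_sub_distrib, ← smul_sub]
      rw [Finset.sum_mul, Finset.sum_mul]
      refine (τ.n2_sum_le _ _).trans (Finset.sum_le_sum fun d hd => ?_)
      rw [τ.n2_smul, mul_assoc]
      refine mul_le_mul_of_nonneg_left ((uExp_n2_sub_le τ _ hZ hZ').trans
        (mul_le_mul_of_nonneg_right ?_ (Real.sqrt_nonneg _))) (norm_nonneg _)
      rw [abs_mul]
      refine mul_le_mul_of_nonneg_right ?_ (abs_nonneg _)
      rw [Finset.mem_Icc] at hd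
      rw [← Int.cast_abs]
      exact_mod_cast abs_le.2 hd
    have h5 : window g t Z - window g t Z' =
        (window g t Z - P Z) + ((P Z - P Z') - (window g t Z' - P Z')) := by abel
    rw [h5]
    linarith [τ.n2_add_le (window g t Z - P Z) ((P Z - P Z') - (window g t Z' - P Z')),
      τ.n2_sub_le (P Z - P Z') (window g t Z' - P Z'), hw Z hZ, hw Z' hZ', hPP]

variable {τ} {Γ : Type v} [Fintype Γ] {q m : ℕ}

/-- Second moment of a block against the commutant, in scalar form. -/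
theorem block_second_moment {c : Fin q → ℝ} {γ K : ℝ} (hγ : 0 ≤ γ) (hγ1 : γ ≤ 1)
    (hp : ∀ x ∈ Set.Icc (0 : ℝ) 1, |polyVal c x - Real.sqrt x| ≤ γ)
    (S : SlotSystem τ Γ (Cube m)) {ρ : Γ → ℝ} (hρ : IsWeight ρ)
    (hK : ∀ X : C, (∀ i, ∀ x ∈ S.U i, Commute X x) →
      ‖τ.f (X * (blockT c S.B ρ * blockT c S.B ρ)) -
        ∑ a, τ.f (X * (polyMatrix c S.B ρ * polyMatrix c S.B ρ) a a)‖
          ≤ K * ‖X‖ / Real.sqrt ((2 : ℝ) ^ m))
    {X : C} (hX : ∀ i, ∀ x ∈ S.U i, Commute X x) :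
    ‖τ.f (X * (blockT c S.B ρ * blockT c S.B ρ)) - τ.f X‖ ≤
      (3 * γ * Fintype.card Γ + K / Real.sqrt ((2 : ℝ) ^ m)) * ‖X‖ := by
  refine (norm_sub_le_norm_sub_add_norm_sub _
    (∑ a, τ.f (X * (polyMatrix c S.B ρ * polyMatrix c S.B ρ) a a)) _).trans ?_
  linarith [hK X hX, abs_trace_polyMatrix_sq_sub hγ hγ1 hp S hρ X,
    mul_div_right_comm K ‖X‖ (Real.sqrt ((2 : ℝ) ^ m))]

/-- Dependence of a block on the weights. -/
theorem block_hsq_sub {c : Fin q → ℝ} {γ K : ℝ} (hγ : 0 ≤ γ) (hγ1 : γ ≤ 1)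
    (hp : ∀ x ∈ Set.Icc (0 : ℝ) 1, |polyVal c x - Real.sqrt x| ≤ γ)
    (S : SlotSystem τ Γ (Cube m)) {ρ σ : Γ → ℝ} (hρ : IsWeight ρ) (hσ : IsWeight σ)
    (hK : ∀ ρ σ : Γ → ℝ, IsWeight ρ → IsWeight σ → ∀ X : C,
      (∀ i, ∀ x ∈ S.U i, Commute X x) →
      ‖τ.f (X * (blockT c S.B ρ * blockT c S.B σ)) -
        ∑ a, τ.f (X * (polyMatrix c S.B ρ * polyMatrix c S.B σ) a a)‖
          ≤ K * ‖X‖ / Real.sqrt ((2 : ℝ) ^ m)) :
    τ.hsq (blockT c S.B ρ - blockT c S.B σ) ≤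
      3 * ∑ g, |ρ g - σ g| + 6 * γ * Fintype.card Γ + 4 * (K / Real.sqrt ((2 : ℝ) ^ m)) := by
  have hone : ∀ i, ∀ x ∈ S.U i, Commute (1 : C) x := fun _ x _ => Commute.one_left x
  have e : ∀ ρ σ : Γ → ℝ, IsWeight ρ → IsWeight σ →
      |(τ.f (blockT c S.B ρ * blockT c S.B σ)).re -
        (∑ a, τ.f ((polyMatrix c S.B ρ * polyMatrix c S.B σ) a a)).re|
        ≤ K / Real.sqrt ((2 : ℝ) ^ m) := fun ρ σ hρ hσ => by
    have := hK ρ σ hρ hσ 1 hone
    simp only [one_mul, norm_one_le τ, mul_one] at this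
    rw [← Complex.sub_re]
    exact (Complex.abs_re_le_norm _).trans this
  have h0 := trace_polyMatrix_sub_sq_le hγ hγ1 hp S hρ hσ
  have hsa : star (blockT c S.B ρ - blockT c S.B σ) = blockT c S.B ρ - blockT c S.B σ :=
    ((blockT_isSelfAdjoint c S.B S.B_sa ρ).sub (blockT_isSelfAdjoint c S.B S.B_sa σ)).star_eq
  rw [TraceState.hsq, hsa]
  simp only [sub_mul, mul_sub, map_sub, Complex.sub_re] at h0 ⊢
  simp only [CStarMatrix.sub_apply, map_sub, Finset.sum_sub_distrib, Complex.sub_re] at h0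
  linarith [abs_le.1 (e ρ ρ hρ hρ), abs_le.1 (e ρ σ hρ hσ), abs_le.1 (e σ ρ hσ hρ),
    abs_le.1 (e σ σ hσ hσ)]

variable {L : ℕ}

theorem isSelfAdjoint_bigZ (c : Fin q → ℝ) (B : Γ → Fin L × Cube m → C)
    (hB : ∀ g a, star (B g a) = B g a) (ρ : Γ → ℝ) : IsSelfAdjoint (bigZ c B ρ) :=
  IsSelfAdjoint.smul (by simp [IsSelfAdjoint]) (isSelfAdjoint_sum _ fun l _ =>
    blockT_isSelfAdjoint c (fun g a => B g (l, a)) (fun g a => hB g _) ρ)

theorem map_bigZ {D : Type*} [CStarAlgebra D] (φ : C →⋆ₐ[ℂ] D) (c : Fin q → ℝ)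
    (B : Γ → Fin L × Cube m → C) (ρ : Γ → ℝ) :
    φ (bigZ c B ρ) = bigZ c (fun g a => φ (B g a)) ρ := by
  simp only [bigZ, blockT, chainProd, rEntry, map_smul, map_sum, map_list_prod, List.map_ofFn,
    Function.comp_def, map_mul]

/-- The slot system of one block. -/
def SlotSystem.block (S : SlotSystem τ Γ (Fin L × Cube m)) (l : Fin L) :
    SlotSystem τ Γ (Cube m) :=
  S.comap (fun a => (l, a)) fun _ _ h => (Prod.ext_iff.1 h).2

theorem commute_block (c : Fin q → ℝ) (S : SlotSystem τ Γ (Fin L × Cube m)) (ρ : Γ → ℝ)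
    {l l' : Fin L} (h : l ≠ l') (a : Cube m) {x : C} (hx : x ∈ S.U (l', a)) :
    Commute (blockT c (S.block l).B ρ) x :=
  (commute_blockT c (S.block l) ρ fun i y hy =>
    S.comm (l', a) (l, i) (fun e => h (Prod.ext_iff.1 e).1.symm) x hx y hy).symm

theorem commute_bigZ (c : Fin q → ℝ) (S : SlotSystem τ Γ (Fin L × Cube m)) (ρ : Γ → ℝ) {y : C}
    (hy : ∀ i, ∀ x ∈ S.U i, Commute y x) : Commute y (bigZ c S.B ρ) :=
  (Commute.sum_right _ _ _ fun l _ =>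
    commute_blockT c (S.block l) ρ fun i x hx => hy (l, i) x hx).smul_right _

/-- Orthogonality of blocks. -/
theorem hsq_bigZ_sub_le (c : Fin q → ℝ) (S : SlotSystem τ Γ (Fin L × Cube m)) (ρ σ : Γ → ℝ)
    (hL : 0 < L) {e : ℝ}
    (he : ∀ l, τ.hsq (blockT c (S.block l).B ρ - blockT c (S.block l).B σ) ≤ e) :
    τ.hsq (bigZ c S.B ρ - bigZ c S.B σ) ≤ e := by
  change τ.hsq (((Real.sqrt L)⁻¹ : ℂ) • ∑ l, blockT c (S.block l).B ρ -
    ((Real.sqrt L)⁻¹ : ℂ) • ∑ l, blockT c (S.block l).B σ) ≤ e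
  rw [← smul_sub, ← Finset.sum_sub_distrib, TraceState.hsq_smul]
  have horth : ∀ i ∈ (Finset.univ : Finset (Fin L)), ∀ j ∈ Finset.univ, i ≠ j →
      τ.f (star (blockT c (S.block i).B ρ - blockT c (S.block i).B σ) *
        (blockT c (S.block j).B ρ - blockT c (S.block j).B σ)) = 0 := fun i _ j _ hij => by
    have hX : ∀ a, ∀ x ∈ (S.block j).U a,
        Commute (star (blockT c (S.block i).B ρ - blockT c (S.block i).B σ)) x := fun a x hx => by
      rw [((blockT_isSelfAdjoint c _ (S.block i).B_sa ρ).sub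
        (blockT_isSelfAdjoint c _ (S.block i).B_sa σ)).star_eq]
      exact (commute_block c S ρ hij a hx).sub_left (commute_block c S σ hij a hx)
    rw [mul_sub, map_sub, trace_mul_blockT c _ ρ hX, trace_mul_blockT c _ σ hX, sub_zero]
  rw [τ.hsq_sum_of_orthogonal _ _ horth, norm_inv, Complex.norm_real, Real.norm_eq_abs, inv_pow,
    sq_abs, Real.sq_sqrt (Nat.cast_nonneg L), inv_mul_le_iff₀ (Nat.cast_pos.2 hL)]
  exact (Finset.sum_le_sum fun l _ => he l).trans (by simp [nsmul_eq_mul])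

/-- Decay of the characteristic function of `bigZ`. -/
theorem trace_uExp_bigZ_le (c : Fin q → ℝ) (S : SlotSystem τ Γ (Fin L × Cube m)) (ρ : Γ → ℝ)
    (hL : 0 < L) {a : C} (ha : ∀ i, ∀ x ∈ S.U i, Commute a x) {K err r : ℝ} (herr : 0 ≤ err)
    (hK : ∀ l, ‖blockT c (S.block l).B ρ‖ ≤ K) (hr : r ^ 2 ≤ 2 * L)
    (hrK : |r| * K ≤ Real.sqrt L)
    (h2 : ∀ l X, (∀ i, ∀ x ∈ (S.block l).U i, Commute X x) →
      ‖τ.f (X * (blockT c (S.block l).B ρ * blockT c (S.block l).B ρ)) - τ.f X‖ ≤ err * ‖X‖) :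
    ‖τ.f (a * uExp r (bigZ c S.B ρ))‖ ≤
      ‖a‖ * (Real.exp (-r ^ 2 / 2) + r ^ 2 * err + |r| ^ 3 * K ^ 3 / Real.sqrt L) := by
  refine norm_trace_exp_le τ hL (fun l => blockT c (S.block l).B ρ) (fun l => ⋃ i, S.U (l, i)) a
    (fun l => blockT_isSelfAdjoint c _ (S.block l).B_sa ρ) (fun l l' => ?_)
    (fun l l' h y hy => ?_) (fun l y hy => ?_) hK herr hr hrK
    (fun l X hX => trace_mul_blockT c _ ρ fun i x hx => hX x (Set.mem_iUnion.2 ⟨i, hx⟩))
    fun l X hX => h2 l X fun i x hx => hX x (Set.mem_iUnion.2 ⟨i, hx⟩)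
  · rcases eq_or_ne l l' with rfl | h
    · exact Commute.refl _
    · exact commute_blockT c _ ρ fun i x hx => commute_block c S ρ h i hx
  · obtain ⟨i, hi⟩ := Set.mem_iUnion.1 hy
    exact commute_block c S ρ h i hi
  · obtain ⟨i, hi⟩ := Set.mem_iUnion.1 hy
    exact ha (l, i) y hi

end Vale.Agent.P095.Gamma
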