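import Vale.Agent.P095.Gamma.Basic

/-! P095: commuting translated slots from one central sequence of McDuff type. -/

open Filter Topology BoundedContinuousFunction

namespace Vale.Agent.P095.Gamma

variable {A : Type*} [CStarAlgebra A]

/-- `x` tends to zero uniformly in 2-norm over a set of tracial states. -/
def SmallTo (𝒯 : Set (A →ₗ[ℂ] ℂ)) (x : ℕ → A) : Prop :=
  ∀ ε > 0, ∀ᶠ n in atTop, ∀ τ ∈ 𝒯, (τ (star (x n) * x n)).re < ε

/-- Every member of `𝒯` is a tracial state. -/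
def AreTraces (𝒯 : Set (A →ₗ[ℂ] ℂ)) : Prop :=
  ∀ τ ∈ 𝒯, (∀ x y, τ (x * y) = τ (y * x)) ∧ (∀ x, 0 ≤ (τ (star x * x)).re) ∧
    (∀ x, τ (star x) = (starRingEnd ℂ) (τ x)) ∧ τ 1 = 1 ∧ ∀ x, ‖τ x‖ ≤ ‖x‖

lemma SmallTo.neg {𝒯 : Set (A →ₗ[ℂ] ℂ)} {x : ℕ → A} (h : SmallTo 𝒯 x) :
    SmallTo 𝒯 fun n => -x n := fun ε hε => by
  simpa only [star_neg, neg_mul_neg] using h ε hε

lemma SmallTo.star {𝒯 : Set (A →ₗ[ℂ] ℂ)} (h𝒯 : AreTraces 𝒯) {x : ℕ → A} (h : SmallTo 𝒯 x) :
    SmallTo 𝒯 fun n => Star.star (x n) := fun ε hε => by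
  filter_upwards [h ε hε] with n hn τ hτ
  rw [star_star, (h𝒯 τ hτ).1]
  exact hn τ hτ

lemma SmallTo.map {𝒯 : Set (A →ₗ[ℂ] ℂ)} (φ : A ≃⋆ₐ[ℂ] A)
    (hinv : ∀ τ ∈ 𝒯, ∃ τ' ∈ 𝒯, ∀ a, τ' a = τ (φ a)) {x : ℕ → A} (h : SmallTo 𝒯 x) :
    SmallTo 𝒯 fun n => φ (x n) := fun ε hε => by
  filter_upwards [h ε hε] with n hn τ hτ
  obtain ⟨τ', hτ', e⟩ := hinv τ hτ
  rw [← map_star, ← map_mul, ← e]
  exact hn τ' hτ'

lemma SmallTo.comp {𝒯 : Set (A →ₗ[ℂ] ℂ)} {x : ℕ → A} (h : SmallTo 𝒯 x) {m : ℕ → ℕ}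
    (hm : ∀ n, n ≤ m n) : SmallTo 𝒯 fun n => x (m n) := fun ε hε =>
  (tendsto_atTop_mono hm tendsto_id).eventually (h ε hε)

lemma SmallTo.congr {𝒯 : Set (A →ₗ[ℂ] ℂ)} {x y : ℕ → A} (h : SmallTo 𝒯 x)
    (e : ∀ n, x n = y n) : SmallTo 𝒯 y := by
  rwa [← funext e]

/-- Indices along which later slots almost commute with the translates of the earlier ones. -/
lemma exists_indices {G : Type*} (α : G → A ≃⋆ₐ[ℂ] A) {𝒯 : Set (A →ₗ[ℂ] ℂ)} {x : ℕ → A}
    (hxc : ∀ a, SmallTo 𝒯 fun n => x n * a - a * x n) (Δ : Finset G) :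
    ∀ N : ℕ, ∃ m : Fin N → ℕ → ℕ, (∀ i n, n ≤ m i n) ∧
      ∀ i j, i < j → ∀ k ∈ Δ,
        SmallTo 𝒯 (fun n => x (m j n) * α k (x (m i n)) - α k (x (m i n)) * x (m j n)) ∧
        SmallTo 𝒯 (fun n => x (m j n) * α k (Star.star (x (m i n)))
          - α k (Star.star (x (m i n))) * x (m j n)) := by
  classical
  intro N
  induction N with
  | zero => exact ⟨fun i => i.elim0, fun i => i.elim0, fun i => i.elim0⟩
  | succ N ih =>
    obtain ⟨m, hm, hrel⟩ := ih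
    have hch : ∀ n, ∃ M, n ≤ M ∧ ∀ i : Fin N, ∀ k ∈ Δ, ∀ b ∈ ({x (m i n), Star.star (x (m i n))} :
        Finset A), ∀ τ ∈ 𝒯, (τ (Star.star (x M * α k b - α k b * x M) *
          (x M * α k b - α k b * x M))).re < 1 / ((n : ℝ) + 1) := fun n => by
      have h2 : ∀ᶠ M in atTop, ∀ i : Fin N, ∀ k ∈ Δ, ∀ b ∈ ({x (m i n), Star.star (x (m i n))} :
          Finset A), ∀ τ ∈ 𝒯, (τ (Star.star (x M * α k b - α k b * x M) *
            (x M * α k b - α k b * x M))).re < 1 / ((n : ℝ) + 1) :=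
        eventually_all.2 fun i => (eventually_all_finset Δ).2 fun k _ =>
          (eventually_all_finset _).2 fun b _ => hxc (α k b) _ (by positivity)
      obtain ⟨M, h, h'⟩ := ((eventually_ge_atTop n).and h2).exists
      exact ⟨M, h, h'⟩
    choose M hMn hM using hch
    refine ⟨Fin.snoc m M, fun i n => ?_, fun i j hij k hk => ?_⟩
    · induction i using Fin.lastCases with
      | last => simpa using hMn n
      | cast i => simpa using hm i n
    · induction j using Fin.lastCases with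
      | cast j =>
        induction i using Fin.lastCases with
        | last => exact absurd hij (not_lt_of_gt (Fin.castSucc_lt_last j))
        | cast i => simpa using hrel i j (Fin.castSucc_lt_castSucc_iff.1 hij) k hk
      | last =>
        induction i using Fin.lastCases with
        | last => exact absurd hij (lt_irrefl _)
        | cast i =>
          simp only [Fin.snoc_last, Fin.snoc_castSucc]
          constructor <;>
          · intro ε hε
            filter_upwards [(tendsto_one_div_add_atTop_nhds_zero_nat (𝕜 := ℝ)).eventually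
              (eventually_lt_nhds hε)] with n hn τ hτ
            exact lt_trans (hM n i k hk _ (by simp) τ hτ) hn

theorem exists_slots {G : Type*} [Group G] (α : G → A ≃⋆ₐ[ℂ] A)
    {𝒯 : Set (A →ₗ[ℂ] ℂ)} (h𝒯 : AreTraces 𝒯)
    (hinv : ∀ τ ∈ 𝒯, ∀ g, ∃ τ' ∈ 𝒯, ∀ a, τ' a = τ (α g a))
    (hmul : ∀ g h a, α (g * h) a = α g (α h a)) (h1 : ∀ a, α 1 a = a)
    {x : ℕ →ᵇ A} (hx0 : SmallTo 𝒯 fun n => x n * x n)
    (hx1 : SmallTo 𝒯 fun n => star (x n) * x n + x n * star (x n) - 1)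
    (hxc : ∀ a, SmallTo 𝒯 fun n => x n * a - a * x n)
    (Γ : Finset G) (ι : Type*) [Fintype ι] (S : Finset A) :
    ∃ u : ι → ℕ →ᵇ A,
      (∀ g ∈ Γ, ∀ i, SmallTo 𝒯 fun n => α g (u i n) * α g (u i n)) ∧
      (∀ g ∈ Γ, ∀ i, SmallTo 𝒯 fun n =>
        star (α g (u i n)) * α g (u i n) + α g (u i n) * star (α g (u i n)) - 1) ∧
      (∀ g ∈ Γ, ∀ h ∈ Γ, ∀ i j, i ≠ j → SmallTo 𝒯 fun n =>
        α g (u i n) * α h (u j n) - α h (u j n) * α g (u i n)) ∧
      (∀ g ∈ Γ, ∀ h ∈ Γ, ∀ i j, i ≠ j → SmallTo 𝒯 fun n =>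
        α g (u i n) * star (α h (u j n)) - star (α h (u j n)) * α g (u i n)) ∧
      (∀ g ∈ Γ, ∀ i, ∀ a ∈ S, SmallTo 𝒯 fun n => α g (u i n) * a - a * α g (u i n)) ∧
      (∀ g ∈ Γ, ∀ i, ∀ a ∈ S, SmallTo 𝒯 fun n =>
        star (α g (u i n)) * a - a * star (α g (u i n))) := by
  classical
  let e := Fintype.equivFin ι
  let Δ : Finset G := (Γ ×ˢ Γ).image fun p => p.1⁻¹ * p.2
  obtain ⟨m, hm, hrel⟩ := exists_indices α (x := fun n => x n) hxc Δ (Fintype.card ι)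
  let u : ι → ℕ →ᵇ A := fun i =>
    x.compContinuous ⟨fun n => m (e i) n, continuous_of_discreteTopology⟩
  have hu : ∀ i n, u i n = x (m (e i) n) := fun i n => rfl
  have hmap : ∀ g {y : ℕ → A}, SmallTo 𝒯 y → SmallTo 𝒯 fun n => α g (y n) :=
    fun g _ h => h.map (α g) fun τ hτ => hinv τ hτ g
  have hΔ : ∀ {g h}, g ∈ Γ → h ∈ Γ → g⁻¹ * h ∈ Δ := fun {g h} hg hh =>
    Finset.mem_image.2 ⟨(g, h), Finset.mem_product.2 ⟨hg, hh⟩, rfl⟩
  have hcancel : ∀ g h a, α g (α (g⁻¹ * h) a) = α h a := fun g h a => by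
    rw [← hmul, mul_inv_cancel_left]
  have hlater : ∀ g ∈ Γ, ∀ h ∈ Γ, ∀ i j, e j < e i →
      SmallTo 𝒯 (fun n => α g (u i n) * α h (u j n) - α h (u j n) * α g (u i n)) ∧
      SmallTo 𝒯 (fun n => α g (u i n) * Star.star (α h (u j n))
        - Star.star (α h (u j n)) * α g (u i n)) := fun g hg h hh i j hij => by
    obtain ⟨r1, r2⟩ := hrel _ _ hij _ (hΔ hg hh)
    constructor
    · exact (hmap g r1).congr fun n => by rw [map_sub, map_mul, map_mul, hcancel, hu, hu]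
    · exact (hmap g r2).congr fun n => by
        rw [map_sub, map_mul, map_mul, hcancel, map_star, hu, hu]
  have hconst : ∀ g i a, SmallTo 𝒯 fun n => α g (u i n) * a - a * α g (u i n) := fun g i a => by
    have := hmap g ((hxc (α g⁻¹ a)).comp (hm (e i)))
    refine this.congr fun n => ?_
    rw [map_sub, map_mul, map_mul, hu, show α g (α g⁻¹ a) = a by rw [← hmul, mul_inv_cancel, h1]]
  refine ⟨u, fun g _ i => ?_, fun g _ i => ?_, fun g hg h hh i j hij => ?_,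
    fun g hg h hh i j hij => ?_, fun g _ i a _ => hconst g i a, fun g _ i a _ => ?_⟩
  · exact (hmap g (hx0.comp (hm (e i)))).congr fun n => by rw [map_mul, hu]
  · exact (hmap g (hx1.comp (hm (e i)))).congr fun n => by
      rw [map_sub, map_add, map_mul, map_mul, map_star, map_one, hu]
  · rcases lt_or_gt_of_ne (fun hc => hij (e.injective hc)) with hlt | hlt
    · exact (hlater h hh g hg j i hlt).1.neg.congr fun n => neg_sub _ _
    · exact (hlater g hg h hh i j hlt).1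
  · rcases lt_or_gt_of_ne (fun hc => hij (e.injective hc)) with hlt | hlt
    · exact ((hlater h hh g hg j i hlt).2.star h𝒯).congr fun n => by
        simp only [star_sub, star_mul, star_star]
    · exact (hlater g hg h hh i j hlt).2
  · exact ((hconst g i (Star.star a)).star h𝒯).neg.congr fun n => by
      simp only [star_sub, star_mul, star_star, neg_sub]

end Vale.Agent.P095.Gamma
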