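import Vale.Agent.P095.Gamma.Basic

/-! P095: limit representation of a sequence of tracial states. -/

open Filter Topology BoundedContinuousFunction
open scoped ComplexOrder InnerProductSpace

namespace Vale.Agent.P095.Gamma

universe u

/-- A faithful tracial model of a sequence of traces along an ultrafilter. -/
structure LimitModel {A : Type u} [CStarAlgebra A] (τs : ℕ → TraceState A)
    (ω : Ultrafilter ℕ) where
  C : Type u
  [inst : CStarAlgebra C]
  τ : TraceState C
  π : (ℕ →ᵇ A) →⋆ₐ[ℂ] C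
  tendsto : ∀ x : ℕ →ᵇ A, Tendsto (fun n => (τs n).f (x n)) ω (𝓝 (τ.f (π x)))
  faithful : ∀ x : ℕ →ᵇ A, τ.hsq (π x) = 0 → π x = 0

attribute [instance] LimitModel.inst

section aux

variable {A : Type u} [CStarAlgebra A]

theorem TraceState.exists_limit (τs : ℕ → TraceState A) (ω : Ultrafilter ℕ) (x : ℕ →ᵇ A) :
    ∃ c : ℂ, Tendsto (fun n => (τs n).f (x n)) ω (𝓝 c) := by
  have hmem : ∀ n, (τs n).f (x n) ∈ Metric.closedBall (0 : ℂ) ‖x‖ := fun n => by
    rw [mem_closedBall_zero_iff]
    exact ((τs n).bound (x n)).trans (x.norm_coe_le_norm n)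
  have hle : ((ω.map fun n => (τs n).f (x n) : Ultrafilter ℂ) : Filter ℂ) ≤
      𝓟 (Metric.closedBall (0 : ℂ) ‖x‖) := by
    rw [le_principal_iff, Ultrafilter.mem_coe, Ultrafilter.mem_map]
    exact Filter.mem_of_superset Filter.univ_mem fun n _ => hmem n
  obtain ⟨c, -, hc⟩ :=
    (isCompact_closedBall (0 : ℂ) ‖x‖).ultrafilter_le_nhds (ω.map _) hle
  exact ⟨c, hc⟩

/-- The limit trace on bounded sequences. -/
noncomputable def limitTrace (τs : ℕ → TraceState A) (ω : Ultrafilter ℕ) : (ℕ →ᵇ A) →ₗ[ℂ] ℂ where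
  toFun x := (TraceState.exists_limit τs ω x).choose
  map_add' x y := tendsto_nhds_unique (TraceState.exists_limit τs ω (x + y)).choose_spec <| by
    simpa [map_add] using (TraceState.exists_limit τs ω x).choose_spec.add
      (TraceState.exists_limit τs ω y).choose_spec
  map_smul' c x := tendsto_nhds_unique (TraceState.exists_limit τs ω (c • x)).choose_spec <| by
    simpa [map_smul] using (TraceState.exists_limit τs ω x).choose_spec.const_mul c

theorem tendsto_limitTrace (τs : ℕ → TraceState A) (ω : Ultrafilter ℕ) (x : ℕ →ᵇ A) :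
    Tendsto (fun n => (τs n).f (x n)) ω (𝓝 (limitTrace τs ω x)) :=
  (TraceState.exists_limit τs ω x).choose_spec

theorem limitTrace_comm (τs : ℕ → TraceState A) (ω : Ultrafilter ℕ) (x y : ℕ →ᵇ A) :
    limitTrace τs ω (x * y) = limitTrace τs ω (y * x) :=
  tendsto_nhds_unique (tendsto_limitTrace τs ω (x * y))
    ((tendsto_limitTrace τs ω (y * x)).congr fun n => by simpa using (τs n).trace (y n) (x n))

theorem limitTrace_one (τs : ℕ → TraceState A) (ω : Ultrafilter ℕ) :
    limitTrace τs ω 1 = 1 :=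
  tendsto_nhds_unique (tendsto_limitTrace τs ω 1) (tendsto_const_nhds.congr fun n => by
    simp [(τs n).one])

theorem TraceState.f_star_mul_self_nonneg (τ : TraceState A) (x : A) :
    0 ≤ τ.f (star x * x) := by
  refine Complex.nonneg_iff.mpr ⟨τ.nonneg x, ?_⟩
  have h := τ.star_map (star x * x)
  rw [star_mul, star_star] at h
  have := Complex.conj_eq_iff_im.mp h.symm
  exact this.symm

theorem limitTrace_star_mul_self_nonneg (τs : ℕ → TraceState A) (ω : Ultrafilter ℕ)
    (x : ℕ →ᵇ A) : 0 ≤ limitTrace τs ω (star x * x) := by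
  have h := tendsto_limitTrace τs ω (star x * x)
  refine Complex.nonneg_iff.mpr ⟨?_, ?_⟩
  · exact ge_of_tendsto ((Complex.continuous_re.tendsto _).comp h)
      (Eventually.of_forall fun n => by simpa using (τs n).nonneg (x n))
  · refine tendsto_nhds_unique (tendsto_const_nhds (x := (0 : ℝ)) (f := (ω : Filter ℕ))) ?_
    refine ((Complex.continuous_im.tendsto _).comp h).congr fun n => ?_
    have := (Complex.nonneg_iff.mp ((τs n).f_star_mul_self_nonneg (x n))).2
    simpa using this.symm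

end aux

section gns

variable {B : Type u} [CStarAlgebra B] [PartialOrder B] [StarOrderedRing B]

/-- The cyclic vector of the GNS space. -/
noncomputable def gnsVec (f : B →ₚ[ℂ] ℂ) : f.GNS := ↑(f.toPreGNS 1)

theorem gns_apply_gnsVec (f : B →ₚ[ℂ] ℂ) (x : B) :
    f.gnsStarAlgHom x (gnsVec f) = ↑(f.toPreGNS x) := by
  simp [gnsVec, PositiveLinearMap.gnsStarAlgHom]

theorem inner_gnsVec (f : B →ₚ[ℂ] ℂ) (x : B) :
    ⟪gnsVec f, f.gnsStarAlgHom x (gnsVec f)⟫_ℂ = f x := by
  rw [gns_apply_gnsVec, gnsVec, UniformSpace.Completion.inner_coe]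
  simp [PositiveLinearMap.preGNS_inner_def]

theorem norm_gnsVec (f : B →ₚ[ℂ] ℂ) (h1 : f 1 = 1) : ‖gnsVec f‖ = 1 := by
  rw [gnsVec, UniformSpace.Completion.norm_coe, PositiveLinearMap.preGNS_norm_def]
  simp [h1]

theorem gns_eq_zero_of_trace (f : B →ₚ[ℂ] ℂ) (ht : ∀ x y, f (x * y) = f (y * x)) (x : B)
    (h : f.gnsStarAlgHom x (gnsVec f) = 0) : f.gnsStarAlgHom x = 0 := by
  have hx : ‖(↑(f.toPreGNS x) : f.GNS)‖ = 0 := by rw [← gns_apply_gnsVec, h, norm_zero]
  rw [UniformSpace.Completion.norm_coe] at hx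
  refine ContinuousLinearMap.ext fun c => ?_
  induction c using UniformSpace.Completion.induction_on with
  | hp =>
    exact isClosed_eq (f.gnsStarAlgHom x).continuous
      (0 : f.GNS →L[ℂ] f.GNS).continuous
  | ih b =>
    suffices hz : ‖f.toPreGNS (x * f.ofPreGNS b)‖ = 0 by
      rw [zero_apply, ← norm_eq_zero]
      simpa [PositiveLinearMap.gnsStarAlgHom, UniformSpace.Completion.norm_coe] using hz
    set y := f.ofPreGNS b
    have e : f (star (x * y) * (x * y)) =
        ⟪f.toPreGNS x, f.toPreGNS (x * (y * star y))⟫_ℂ := by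
      rw [PositiveLinearMap.preGNS_inner_def]
      simp only [PositiveLinearMap.ofPreGNS_toPreGNS, star_mul]
      rw [mul_assoc (star y), ht]
      simp [mul_assoc]
    have h0 : ‖f (star (x * y) * (x * y))‖ ≤ 0 := by
      rw [e]
      exact (norm_inner_le_norm _ _).trans (by rw [hx, zero_mul])
    rw [PositiveLinearMap.preGNS_norm_def, PositiveLinearMap.ofPreGNS_toPreGNS,
      norm_le_zero_iff.mp h0]
    simp

end gns

set_option linter.style.haveILetI false in
theorem exists_limitModel {A : Type u} [CStarAlgebra A] (τs : ℕ → TraceState A)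
    (ω : Ultrafilter ℕ) : Nonempty (LimitModel τs ω) := by
  letI : PartialOrder (ℕ →ᵇ A) := CStarAlgebra.spectralOrder _
  haveI : StarOrderedRing (ℕ →ᵇ A) := CStarAlgebra.spectralOrderedRing _
  let f : (ℕ →ᵇ A) →ₚ[ℂ] ℂ := PositiveLinearMap.mk₀ (limitTrace τs ω) fun x hx => by
    obtain ⟨y, rfl⟩ := CStarAlgebra.nonneg_iff_eq_star_mul_self.mp hx
    exact limitTrace_star_mul_self_nonneg τs ω y
  have hf : ∀ x, f x = limitTrace τs ω x := fun x => rfl
  have ht : ∀ x y, f (x * y) = f (y * x) := limitTrace_comm τs ω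
  let π₀ := f.gnsStarAlgHom
  let S : StarSubalgebra ℂ (f.GNS →L[ℂ] f.GNS) := π₀.range.topologicalClosure
  haveI hS : IsClosed (S : Set (f.GNS →L[ℂ] f.GNS)) :=
    StarSubalgebra.isClosed_topologicalClosure _
  letI : CStarAlgebra S := StarSubalgebra.cstarAlgebra S
  let π : (ℕ →ᵇ A) →⋆ₐ[ℂ] S :=
    π₀.codRestrict S fun x => StarSubalgebra.le_topologicalClosure _ ⟨x, rfl⟩
  let ξ := gnsVec f
  have hξ : ‖ξ‖ = 1 := norm_gnsVec f (limitTrace_one τs ω)
  let g : S →ₗ[ℂ] ℂ :=
    { toFun := fun c => ⟪ξ, (c : f.GNS →L[ℂ] f.GNS) ξ⟫_ℂ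
      map_add' := fun a b => by simp [inner_add_right]
      map_smul' := fun r a => by simp [inner_smul_right] }
  have hg : ∀ x, g (π x) = limitTrace τs ω x := fun x => inner_gnsVec f x
  have hcont : Continuous g := by
    change Continuous fun c : S => ⟪ξ, (c : f.GNS →L[ℂ] f.GNS) ξ⟫_ℂ
    fun_prop
  have hdense : DenseRange π := by
    intro c
    rw [closure_subtype]
    have hc : (c : f.GNS →L[ℂ] f.GNS) ∈ closure (π₀.range : Set (f.GNS →L[ℂ] f.GNS)) := c.2
    refine closure_mono ?_ hc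
    rintro _ ⟨x, rfl⟩
    exact ⟨π x, ⟨x, rfl⟩, rfl⟩
  let τ : TraceState S :=
    { f := g
      trace := fun a b => by
        refine hdense.induction_on₂ (isClosed_eq (by fun_prop) (by fun_prop)) (fun x y => ?_) a b
        rw [← map_mul, ← map_mul, hg, hg]
        exact limitTrace_comm τs ω x y
      nonneg := fun a => by
        change 0 ≤ (⟪ξ, ((star (a : f.GNS →L[ℂ] f.GNS)) * a) ξ⟫_ℂ).re
        rw [mul_apply_eq_comp, ContinuousLinearMap.star_eq_adjoint,
          ContinuousLinearMap.adjoint_inner_right]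
        exact inner_self_nonneg (𝕜 := ℂ)
      star_map := fun a => by
        change ⟪ξ, (star (a : f.GNS →L[ℂ] f.GNS)) ξ⟫_ℂ = _
        rw [ContinuousLinearMap.star_eq_adjoint, ContinuousLinearMap.adjoint_inner_right]
        exact (inner_conj_symm _ _).symm
      one := by
        change ⟪ξ, (1 : f.GNS →L[ℂ] f.GNS) ξ⟫_ℂ = 1
        simp [inner_self_eq_norm_sq_to_K, hξ]
      bound := fun a => by
        change ‖⟪ξ, (a : f.GNS →L[ℂ] f.GNS) ξ⟫_ℂ‖ ≤ _
        refine (norm_inner_le_norm _ _).trans ?_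
        rw [hξ, one_mul]
        exact ((a : f.GNS →L[ℂ] f.GNS).le_opNorm ξ).trans (by rw [hξ, mul_one]; rfl) }
  refine ⟨{ C := S, τ := τ, π := π, tendsto := fun x => ?_, faithful := fun x hx => ?_ }⟩
  · change Tendsto _ _ (𝓝 (g (π x)))
    rw [hg]
    exact tendsto_limitTrace τs ω x
  · apply Subtype.ext
    change π₀ x = 0
    refine gns_eq_zero_of_trace f ht x ?_
    have h : (⟪ξ, (star (π₀ x) * π₀ x) ξ⟫_ℂ).re = 0 := hx
    rw [mul_apply_eq_comp, ContinuousLinearMap.star_eq_adjoint,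
      ContinuousLinearMap.adjoint_inner_right] at h
    rw [← norm_eq_zero, ← sq_eq_zero_iff, norm_sq_eq_re_inner (𝕜 := ℂ)]
    exact h

end Vale.Agent.P095.Gamma
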