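import Vale.Agent.P095.Gamma.Engine
import Vale.Agent.P095.Gamma.Ultra
import Vale.Agent.P095.Gamma.Slots

/-! P095: equivariant uniform property Gamma for all countable amenable groups. -/

open Filter Topology BoundedContinuousFunction

namespace Vale.Agent.P095.Gamma

variable {A : Type*} [CStarAlgebra A] {G : Type*} [Group G] [DecidableEq G]

section Tools

variable {C : Type*} [CStarAlgebra C] (τ : TraceState C)

theorem TraceState.hsq_add_le (x y : C) : τ.hsq (x + y) ≤ 2 * τ.hsq x + 2 * τ.hsq y := by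
  have h := τ.nonneg (x - y)
  have e : star (x + y) * (x + y) + star (x - y) * (x - y) =
      star x * x + star x * x + (star y * y + star y * y) := by
    simp only [star_add, star_sub]
    noncomm_ring
  have := congrArg (fun z => (τ.f z).re) e
  simp only [map_add, Complex.add_re] at this
  simp only [TraceState.hsq]
  linarith

/-- Evaluation of a bounded sequence. -/
noncomputable def evalHom (n : ℕ) : (ℕ →ᵇ A) →⋆ₐ[ℂ] A where
  toFun x := x n
  map_one' := rfl
  map_mul' _ _ := rfl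
  map_zero' := rfl
  map_add' _ _ := rfl
  commutes' _ := rfl
  map_star' _ := rfl

@[simp] theorem evalHom_apply (n : ℕ) (x : ℕ →ᵇ A) : evalHom n x = x n := rfl

/-- A translated sequence. -/
noncomputable def translate (φ : A ≃⋆ₐ[ℂ] A) (x : ℕ →ᵇ A) : ℕ →ᵇ A :=
  BoundedContinuousFunction.ofNormedAddCommGroup (fun n => φ (x n)) continuous_of_discreteTopology
    ‖x‖ fun n =>
      (NonUnitalStarAlgHom.norm_apply_le (φ : A →⋆ₐ[ℂ] A) (x n)).trans (x.norm_coe_le_norm n)

@[simp] theorem translate_apply (φ : A ≃⋆ₐ[ℂ] A) (x : ℕ →ᵇ A) (n : ℕ) :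
    translate φ x n = φ (x n) := rfl

/-- A relation holding in 2-norm uniformly over the traces holds exactly in the limit model. -/
theorem map_eq_zero_of_smallTo {𝒯 : Set (A →ₗ[ℂ] ℂ)} {τs : ℕ → TraceState A}
    (hτs : ∀ n, (τs n).f ∈ 𝒯) {ω : Ultrafilter ℕ} (hω : (ω : Filter ℕ) ≤ atTop)
    (M : LimitModel τs ω) {y : ℕ →ᵇ A} (hy : SmallTo 𝒯 ⇑y) : M.π y = 0 := by
  refine M.faithful y (le_antisymm (le_of_forall_pos_le_add fun ε hε => ?_) (M.τ.hsq_nonneg _))
  have h := (Complex.continuous_re.tendsto _).comp (M.tendsto (star y * y))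
  rw [map_mul, map_star] at h
  refine (le_of_tendsto h ?_).trans_eq (zero_add ε).symm
  filter_upwards [hω (hy ε hε)] with n hn
  exact (hn _ (hτs n)).le

theorem eventually_re_lt {τs : ℕ → TraceState A} {ω : Ultrafilter ℕ} (M : LimitModel τs ω)
    (y : ℕ →ᵇ A) {ε : ℝ} (h : M.τ.hsq (M.π y) < ε) :
    ∀ᶠ n in (ω : Filter ℕ), ((τs n).f (star (y n) * y n)).re < ε := by
  have h' := (Complex.continuous_re.tendsto _).comp (M.tendsto (star y * y))
  rw [map_mul, map_star] at h'
  exact h'.eventually_lt_const h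

/-- Reindexing the weights along an injection leaves the statistic unchanged. -/
theorem bigZ_congr {Γ Γ' : Type*} [Fintype Γ] [Fintype Γ'] {q m L : ℕ} (c : Fin q → ℝ)
    (B : Γ → Fin L × Cube m → C) (ρ : Γ → ℝ) (B' : Γ' → Fin L × Cube m → C) (σ : Γ' → ℝ)
    (h : ∀ l, rEntry (fun g a => B g (l, a)) ρ = rEntry (fun g a => B' g (l, a)) σ) :
    bigZ c B ρ = bigZ c B' σ := by
  simp only [bigZ, blockT, h]

theorem map_rEntry_translate (φ : G → C) {Γ F : Finset G} {g : G}
    (hgF : ∀ h ∈ F, g * h ∈ Γ) (hF : F ⊆ Γ) (w : ℂ) :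
    ∑ x : Γ, (if (x : G) ∈ F then w else 0) • φ (g * x) =
      ∑ x : Γ, (if (x : G) ∈ F.image (g * ·) then w else 0) • φ x := by
  simp only [ite_smul, zero_smul]
  rw [Finset.sum_coe_sort Γ fun x => if x ∈ F then w • φ (g * x) else 0,
    Finset.sum_coe_sort Γ fun x => if x ∈ F.image (g * ·) then w • φ x else 0,
    Finset.sum_ite_mem, Finset.sum_ite_mem, Finset.inter_eq_right.2 hF,
    Finset.inter_eq_right.2 (fun x hx => by
      obtain ⟨h, hh, rfl⟩ := Finset.mem_image.1 hx
      exact hgF h hh),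
    Finset.sum_image fun x _ y _ h => mul_left_cancel h]

end Tools

theorem hsq_window_mul_le {C : Type*} [CStarAlgebra C] (τ : TraceState C) {f g : ℝ → ℝ}
    (hf : Continuous f) (hg : Continuous g) (hf0 : ∀ θ, 0 ≤ f θ) (hg0 : ∀ θ, 0 ≤ g θ)
    (hf1 : ∀ θ, f θ ≤ 1) (hg1 : ∀ θ, g θ ≤ 1) (t : ℝ) {Z : C} (hZ : IsSelfAdjoint Z) :
    τ.hsq (window f t Z * window g t Z) ≤ (τ.f (window f t Z * window g t Z)).re := by
  have hn : IsStarNormal Z := hZ.isStarNormal
  set P : ℂ → ℂ := fun z => ((f (t * z.re) * g (t * z.re) : ℝ) : ℂ) with hP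
  set D : ℂ → ℂ := fun z => ((Real.sqrt (f (t * z.re) * g (t * z.re)
    - (f (t * z.re) * g (t * z.re)) ^ 2) : ℝ) : ℂ) with hD
  have cf : Continuous fun z : ℂ => (f (t * z.re) : ℂ) := by fun_prop
  have cg : Continuous fun z : ℂ => (g (t * z.re) : ℂ) := by fun_prop
  have cP : Continuous P := by fun_prop
  have cD : Continuous D := by fun_prop
  have hmul : window f t Z * window g t Z = cfc P Z := by
    rw [window, window, ← cfc_mul _ _ Z cf.continuousOn cg.continuousOn]
    simp [hP]
  have hpoint : ∀ z, (starRingEnd ℂ) (P z) * P z + (starRingEnd ℂ) (D z) * D z = P z := by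
    intro z
    simp only [hP, hD, Complex.conj_ofReal, ← Complex.ofReal_mul, ← Complex.ofReal_add]
    rw [Real.mul_self_sqrt]
    · congr 1
      ring
    · nlinarith [mul_nonneg (hf0 (t * z.re)) (hg0 (t * z.re)),
        mul_le_one₀ (hf1 (t * z.re)) (hg0 (t * z.re)) (hg1 (t * z.re))]
  have hsum : star (cfc P Z) * cfc P Z + star (cfc D Z) * cfc D Z = cfc P Z := by
    rw [← cfc_star, ← cfc_star, ← cfc_mul _ _ Z (by fun_prop) cP.continuousOn,
      ← cfc_mul _ _ Z (by fun_prop) cD.continuousOn,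
      ← cfc_add (a := Z) _ _ (by fun_prop) (by fun_prop)]
    exact cfc_congr fun z _ => hpoint z
  rw [hmul]
  have h := congrArg (fun x => (τ.f x).re) hsum
  simp only [map_add, Complex.add_re] at h
  have := τ.nonneg (cfc D Z)
  simp only [TraceState.hsq]
  linarith

/-- One stage: finitely many group elements, finitely many elements of `A`, one tolerance. -/
theorem exists_stage [PartialOrder A] [StarOrderedRing A] (α : G → A ≃⋆ₐ[ℂ] A)
    (h1 : ∀ a, α 1 a = a) (hmul : ∀ g h a, α (g * h) a = α g (α h a))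
    (hG : ∀ (K : Finset G) (ε : ℝ), 0 < ε → ∃ F : Finset G, F.Nonempty ∧ ∀ g ∈ K,
      (((F.image (g * ·)) \ F).card : ℝ) ≤ ε * F.card)
    {𝒯 : Set (A →ₗ[ℂ] ℂ)} (h𝒯 : AreTraces 𝒯)
    (hinv : ∀ τ ∈ 𝒯, ∀ g, ∃ τ' ∈ 𝒯, ∀ a, τ' a = τ (α g a))
    {x : ℕ →ᵇ A} (hx0 : SmallTo 𝒯 fun n => x n * x n)
    (hx1 : SmallTo 𝒯 fun n => star (x n) * x n + x n * star (x n) - 1)
    (hxc : ∀ a, SmallTo 𝒯 fun n => x n * a - a * x n)
    (k : ℕ) (hk : 0 < k) (K : Finset G) (S : Finset A) {ε : ℝ} (hε : 0 < ε) :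
    ∃ p : Fin k → A, (∀ j, 0 ≤ p j) ∧ ∑ j, p j = 1 ∧ ∀ τ ∈ 𝒯,
      (∀ i j, i ≠ j → (τ (star (p i * p j) * (p i * p j))).re < ε) ∧
      (∀ j, ∀ a ∈ S, (τ (star (p j * a - a * p j) * (p j * a - a * p j))).re < ε) ∧
      (∀ j, ∀ g ∈ K, (τ (star (α g (p j) - p j) * (α g (p j) - p j))).re < ε) ∧
      (∀ j, ∀ a ∈ S, ‖τ (a * p j) - τ a / k‖ < ε) := by
  classical
  set M₀ : ℝ := ∑ a ∈ S, ‖a‖ with hM₀
  have hM0 : 0 ≤ M₀ := Finset.sum_nonneg fun _ _ => norm_nonneg _
  set ε' : ℝ := min ε (ε / (M₀ + 1)) / 2 with hε'def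
  have hε' : 0 < ε' := by positivity
  have hε'le : ε' < ε := by
    have := min_le_left ε (ε / (M₀ + 1))
    rw [hε'def]
    linarith
  obtain ⟨f, t, δ, hδ, hfc, hf0, hfs, hE⟩ := engine (k := k) hk hε'
  obtain ⟨F, hFne, hFK⟩ := hG K (δ / 2) (by positivity)
  set Γ : Finset G := F ∪ K.biUnion fun g => F.image (g * ·) with hΓ
  obtain ⟨q, m, L, c, hC⟩ := hE (Fintype.card Γ)
  obtain ⟨u, hu1, hu2, hu3, hu4, hu5, hu6⟩ :=
    exists_slots α h𝒯 hinv hmul h1 hx0 hx1 hxc Γ (Fin L × Cube m) S
  set v : Γ → Fin L × Cube m → ℕ →ᵇ A := fun g i => translate (α g) (u i) with hv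
  set B : Γ → Fin L × Cube m → ℕ →ᵇ A := fun g i => v g i * star (v g i) - star (v g i) * v g i
    with hB
  have hBsa : ∀ g i, star (B g i) = B g i := fun g i => by
    simp only [hB, star_sub, star_mul, star_star]
  -- the weights
  have hcard : (0 : ℝ) < F.card := by exact_mod_cast hFne.card_pos
  set unif : Finset G → Γ → ℝ := fun E x => if (x : G) ∈ E then 1 / F.card else 0 with hunif
  have hFΓ : F ⊆ Γ := Finset.subset_union_left
  have hgF : ∀ g ∈ K, ∀ h ∈ F, g * h ∈ Γ := fun g hg h hh =>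
    Finset.mem_union_right _ (Finset.mem_biUnion.2 ⟨g, hg, Finset.mem_image.2 ⟨h, hh, rfl⟩⟩)
  have himg : ∀ g ∈ K, F.image (g * ·) ⊆ Γ := fun g hg x hx => by
    obtain ⟨h, hh, rfl⟩ := Finset.mem_image.1 hx
    exact hgF g hg h hh
  have hweight : ∀ E : Finset G, E ⊆ Γ → E.card = F.card → IsWeight (unif E) := by
    intro E hE hc
    refine ⟨fun x => by simp only [hunif]; split_ifs <;> positivity, ?_⟩
    simp only [hunif]
    rw [Finset.sum_coe_sort Γ fun x => if x ∈ E then (1 / F.card : ℝ) else 0, Finset.sum_ite_mem,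
      Finset.inter_eq_right.2 hE, Finset.sum_const, hc, nsmul_eq_mul, mul_one_div_cancel hcard.ne']
  set ρ : Γ → ℝ := unif F with hρ
  have hρw : IsWeight ρ := hweight F hFΓ rfl
  set P : Fin k → ℕ →ᵇ A := fun j => window (f j) t (bigZ c B ρ) with hP
  have hZsa : IsSelfAdjoint (bigZ c B ρ) := isSelfAdjoint_bigZ c B hBsa ρ
  -- a bad trace for every stage leads to a contradiction in the limit
  suffices h : ∃ n, ∀ τ ∈ 𝒯,
      (∀ i j, i ≠ j → (τ (star (P i n * P j n) * (P i n * P j n))).re < ε) ∧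
      (∀ j, ∀ a ∈ S, (τ (star (P j n * a - a * P j n) * (P j n * a - a * P j n))).re < ε) ∧
      (∀ j, ∀ g ∈ K, (τ (star (α g (P j n) - P j n) * (α g (P j n) - P j n))).re < ε) ∧
      (∀ j, ∀ a ∈ S, ‖τ (a * P j n) - τ a / k‖ < ε) by
    obtain ⟨n, hn⟩ := h
    refine ⟨fun j => P j n, fun j => ?_, ?_, hn⟩
    · have := map_window (evalHom n) (hfc j) t hZsa
      simp only [evalHom_apply] at this
      simp only [hP, this]
      exact window_nonneg (hf0 j) t _
    · have h := congrArg (evalHom n) (sum_window hfc hfs t hZsa)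
      rw [map_sum, map_one] at h
      simpa only [hP, evalHom_apply] using h
  by_contra hcon
  push Not at hcon
  choose τb hτb hbad using hcon
  set τs : ℕ → TraceState A := fun n =>
    { f := τb n
      trace := (h𝒯 _ (hτb n)).1
      nonneg := (h𝒯 _ (hτb n)).2.1
      star_map := (h𝒯 _ (hτb n)).2.2.1
      one := (h𝒯 _ (hτb n)).2.2.2.1
      bound := (h𝒯 _ (hτb n)).2.2.2.2 } with hτs
  set ω : Ultrafilter ℕ := hyperfilter ℕ
  have hω : (ω : Filter ℕ) ≤ atTop := Nat.hyperfilter_le_atTop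
  obtain ⟨M⟩ := exists_limitModel τs ω
  have hzero : ∀ {y : ℕ →ᵇ A}, SmallTo 𝒯 ⇑y → M.π y = 0 :=
    map_eq_zero_of_smallTo (fun n => hτb n) hω M
  -- the slots of the limit model
  set w : Γ → Fin L × Cube m → M.C := fun g i => M.π (v g i) with hw
  have hw0 : ∀ g i, w g i * w g i = 0 := fun g i => by
    rw [hw, ← map_mul]
    exact hzero (hu1 g g.2 i)
  have hw1 : ∀ g i, star (w g i) * w g i + w g i * star (w g i) = 1 := fun g i => by
    have h := hzero (y := star (v g i) * v g i + v g i * star (v g i) - 1) (hu2 g g.2 i)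
    rw [map_sub, map_add, map_mul, map_mul, map_star, map_one] at h
    exact sub_eq_zero.1 h
  have hw2 : ∀ g h i j, i ≠ j → Commute (w g i) (w h j) ∧ Commute (w g i) (star (w h j)) := by
    intro g h i j hij
    constructor
    · have := hzero (y := v g i * v h j - v h j * v g i) (hu3 g g.2 h h.2 i j hij)
      rw [map_sub, map_mul, map_mul] at this
      exact sub_eq_zero.1 this
    · have := hzero (y := v g i * star (v h j) - star (v h j) * v g i) (hu4 g g.2 h h.2 i j hij)
      rw [map_sub, map_mul, map_mul, map_star] at this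
      exact sub_eq_zero.1 this
  have hπB : ∀ g i, M.π (B g i) = w g i * star (w g i) - star (w g i) * w g i := fun g i => by
    simp only [hB, hw, map_sub, map_mul, map_star]
  set U : Fin L × Cube m → Set M.C := fun i =>
    {y | ∃ g, y = w g i ∨ y = star (w g i) ∨ y = M.π (B g i)} with hU
  have hBπsa : ∀ g i, star (M.π (B g i)) = M.π (B g i) := fun g i => by
    rw [← map_star, hBsa]
  have hgen : ∀ i j, i ≠ j → ∀ g, ∀ y ∈ U j,
      Commute (w g i) y ∧ Commute (star (w g i)) y := by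
    intro i j hij g y hy
    obtain ⟨h, hy⟩ := hy
    have a := (hw2 g h i j hij).1
    have b := (hw2 g h i j hij).2
    have a' : Commute (star (w g i)) (star (w h j)) := a.star_star
    have b' : Commute (star (w g i)) (w h j) := by simpa using b.star_star
    rcases hy with rfl | rfl | rfl
    · exact ⟨a, b'⟩
    · exact ⟨b, a'⟩
    · rw [hπB]
      exact ⟨(a.mul_right b).sub_right (b.mul_right a),
        (b'.mul_right a').sub_right (a'.mul_right b')⟩
  let Sys : SlotSystem M.τ Γ (Fin L × Cube m) :=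
    { B := fun g i => M.π (B g i)
      U := U
      star_mem := by
        rintro i _ ⟨g, rfl | rfl | rfl⟩
        · exact ⟨g, .inr (.inl rfl)⟩
        · exact ⟨g, .inl (star_star _)⟩
        · exact ⟨g, .inr (.inr (hBπsa g i))⟩
      B_mem := fun g i => ⟨g, .inr (.inr rfl)⟩
      B_sa := hBπsa
      B_sq := fun g i => by
        rw [hπB]
        have h0' : star (w g i) * star (w g i) = 0 := by rw [← star_mul, hw0, star_zero]
        have e1 : w g i * star (w g i) * (star (w g i) * w g i) = 0 := by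
          rw [mul_assoc, ← mul_assoc (star (w g i)), h0', zero_mul, mul_zero]
        have e2 : star (w g i) * w g i * (w g i * star (w g i)) = 0 := by
          rw [mul_assoc, ← mul_assoc (w g i), hw0, zero_mul, mul_zero]
        calc _ = (star (w g i) * w g i + w g i * star (w g i)) *
              (star (w g i) * w g i + w g i * star (w g i))
              - (w g i * star (w g i) * (star (w g i) * w g i)
                + star (w g i) * w g i * (w g i * star (w g i)))
              - (w g i * star (w g i) * (star (w g i) * w g i)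
                + star (w g i) * w g i * (w g i * star (w g i))) := by noncomm_ring
          _ = 1 := by rw [hw1, e1, e2]; simp
      comm := by
        rintro i j hij x ⟨g, rfl | rfl | rfl⟩ y hy
        · exact (hgen i j hij g y hy).1
        · exact (hgen i j hij g y hy).2
        · obtain ⟨a, b⟩ := hgen i j hij g y hy
          rw [hπB]
          exact (a.mul_left b).sub_left (b.mul_left a)
      par := fun g i z hz => by
        rw [hπB, mul_sub, map_sub, sub_eq_zero]
        have hc : Commute z (star (w g i)) := hz _ ⟨g, .inr (.inl rfl)⟩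
        rw [← mul_assoc, M.τ.trace, ← mul_assoc, ← hc.eq, mul_assoc] }
  set W : Fin k → M.C := fun j => M.π (P j) with hW
  set Z : (Γ → ℝ) → M.C := fun σ => bigZ c Sys.B σ
  have hWZ : ∀ j, W j = window (f j) t (Z ρ) := fun j => by
    simp only [hW, hP]
    rw [map_window M.π (hfc j) t hZsa, map_bigZ]
  obtain ⟨hdis, hdiv, hlip, hcomm⟩ := hC M.C M.τ Γ le_rfl Sys ρ hρw
  have hSU : ∀ a ∈ S, ∀ i, ∀ y ∈ Sys.U i,
      Commute (M.π (BoundedContinuousFunction.const ℕ a)) y := by
    rintro a ha i y ⟨g, hy⟩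
    have h5 : Commute (w g i) (M.π (BoundedContinuousFunction.const ℕ a)) := by
      have := hzero (y := v g i * BoundedContinuousFunction.const ℕ a
        - BoundedContinuousFunction.const ℕ a * v g i) (hu5 g g.2 i a ha)
      rw [map_sub, map_mul, map_mul] at this
      exact sub_eq_zero.1 this
    have h6 : Commute (star (w g i)) (M.π (BoundedContinuousFunction.const ℕ a)) := by
      have := hzero (y := star (v g i) * BoundedContinuousFunction.const ℕ a
        - BoundedContinuousFunction.const ℕ a * star (v g i)) (hu6 g g.2 i a ha)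
      rw [map_sub, map_mul, map_mul, map_star] at this
      exact sub_eq_zero.1 this
    rcases hy with rfl | rfl | rfl
    · exact h5.symm
    · exact h6.symm
    · rw [hπB]
      exact ((h5.mul_left h6).sub_left (h6.mul_left h5)).symm
  -- the four properties hold eventually along the ultrafilter
  have e1 : ∀ᶠ n in (ω : Filter ℕ), ∀ i j, i ≠ j →
      ((τs n).f (star (P i n * P j n) * (P i n * P j n))).re < ε := by
    refine eventually_all.2 fun i => eventually_all.2 fun j => ?_
    by_cases hij : i = j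
    · exact Eventually.of_forall fun _ h => absurd hij h
    refine (eventually_re_lt M (P i * P j) ?_).mono fun n hn _ => hn
    rw [map_mul]
    change M.τ.hsq (W i * W j) < ε
    rw [hWZ, hWZ]
    refine lt_of_le_of_lt (le_trans ?_ (hdis i j hij)) hε'le
    refine le_trans ?_ (Complex.re_le_norm _)
    exact hsq_window_mul_le M.τ (hfc i) (hfc j) (hf0 i) (hf0 j)
      (fun θ => hfs θ ▸ Finset.single_le_sum (fun l _ => hf0 l θ) (Finset.mem_univ i))
      (fun θ => hfs θ ▸ Finset.single_le_sum (fun l _ => hf0 l θ) (Finset.mem_univ j)) t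
      (isSelfAdjoint_bigZ c Sys.B Sys.B_sa ρ)
  have e2 : ∀ᶠ n in (ω : Filter ℕ), ∀ j, ∀ a ∈ S,
      ((τs n).f (star (P j n * a - a * P j n) * (P j n * a - a * P j n))).re < ε := by
    refine eventually_all.2 fun j => S.eventually_all.2 fun a ha => ?_
    refine eventually_re_lt M (P j * BoundedContinuousFunction.const ℕ a
      - BoundedContinuousFunction.const ℕ a * P j) ?_
    rw [map_sub, map_mul, map_mul]
    change M.τ.hsq (W j * _ - _ * W j) < ε
    rw [hWZ, (hcomm _ (hSU a ha) j).eq, sub_self]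
    simp [TraceState.hsq, hε]
  have e3 : ∀ᶠ n in (ω : Filter ℕ), ∀ j, ∀ g ∈ K,
      ((τs n).f (star (α g (P j n) - P j n) * (α g (P j n) - P j n))).re < ε := by
    refine eventually_all.2 fun j => K.eventually_all.2 fun g hg => ?_
    set σ : Γ → ℝ := unif (F.image (g * ·)) with hσ
    have hcardσ : (F.image (g * ·)).card = F.card :=
      Finset.card_image_of_injective _ (mul_right_injective g)
    have htrans : ∀ n, α g (P j n) = window (f j) t (bigZ c B σ) n := fun n => by
      have a1 := map_window (evalHom n) (hfc j) t hZsa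
      have a2 := map_window (evalHom n) (hfc j) t (isSelfAdjoint_bigZ c B hBsa σ)
      simp only [evalHom_apply] at a1 a2
      simp only [hP]
      rw [a1, a2]
      have a3 := map_window (α g : A →⋆ₐ[ℂ] A) (hfc j) t
        ((isSelfAdjoint_bigZ c B hBsa ρ).map (evalHom n))
      simp only [evalHom_apply, StarAlgHom.coe_coe] at a3
      rw [a3]
      congr 1
      rw [← evalHom_apply n (bigZ c B ρ), ← evalHom_apply n (bigZ c B σ), map_bigZ (evalHom n),
        map_bigZ (evalHom n), ← StarAlgHom.coe_coe (α g), map_bigZ (α g : A →⋆ₐ[ℂ] A)]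
      refine bigZ_congr c _ _ _ _ fun l => ?_
      funext a b
      set φ : G → A := fun x =>
        (α x (u (l, a) n) * star (α x (u (l, a) n)) - star (α x (u (l, a) n)) * α x (u (l, a) n)) *
        (α x (u (l, b) n) * star (α x (u (l, b) n)) - star (α x (u (l, b) n)) * α x (u (l, b) n))
      have := map_rEntry_translate φ (hgF g hg) hFΓ ((1 / F.card / 2 ^ m : ℝ) : ℂ)
      simp only [rEntry, hρ, hσ, hunif, hB, hv, StarAlgHom.coe_coe, evalHom_apply,
        translate_apply, map_sub, map_mul, map_star, ← hmul] at this ⊢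
      refine Eq.trans (Finset.sum_congr rfl fun x _ => ?_) (this.trans
        (Finset.sum_congr rfl fun x _ => ?_))
      · by_cases hx : (x : G) ∈ F
        · simp only [if_pos hx, φ]
        · simp only [if_neg hx, φ, zero_div, Complex.ofReal_zero, zero_smul]
      · by_cases hx : (x : G) ∈ F.image (g * ·)
        · simp only [if_pos hx, φ]
        · simp only [if_neg hx, φ, zero_div, Complex.ofReal_zero, zero_smul]
    refine (eventually_re_lt M (window (f j) t (bigZ c B σ) - P j) (ε := ε) ?_).mono fun n hn => ?_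
    · rw [map_sub, map_window M.π (hfc j) t (isSelfAdjoint_bigZ c B hBsa σ), map_bigZ]
      change M.τ.hsq (window (f j) t (Z σ) - W j) < ε
      rw [hWZ, show M.τ.hsq (window (f j) t (Z σ) - window (f j) t (Z ρ)) =
        M.τ.hsq (window (f j) t (Z ρ) - window (f j) t (Z σ)) by
          rw [TraceState.hsq, TraceState.hsq, ← neg_sub, star_neg, neg_mul_neg]]
      refine lt_of_le_of_lt (hlip σ (hweight _ (himg g hg) hcardσ) ?_ j) hε'le
      have hsum : ∑ x : Γ, |ρ x - σ x| =
          ((F \ F.image (g * ·)).card + (F.image (g * ·) \ F).card) * (1 / F.card : ℝ) := by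
        simp only [hρ, hσ, hunif]
        rw [Finset.sum_coe_sort Γ fun x => |(if x ∈ F then (1 / F.card : ℝ) else 0)
          - if x ∈ F.image (g * ·) then (1 / F.card : ℝ) else 0|]
        have hsplit : ∀ x : G, |(if x ∈ F then (1 / F.card : ℝ) else 0)
            - if x ∈ F.image (g * ·) then (1 / F.card : ℝ) else 0| =
            (if x ∈ F \ F.image (g * ·) then (1 / F.card : ℝ) else 0) +
              if x ∈ F.image (g * ·) \ F then (1 / F.card : ℝ) else 0 := fun x => by
          by_cases hx : x ∈ F <;> by_cases hy : x ∈ F.image (g * ·) <;>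
            simp only [Finset.mem_sdiff, hx, hy, not_true, not_false_iff, true_and, and_false,
              false_and, if_true, if_false] <;> simp
        simp only [hsplit, Finset.sum_add_distrib, Finset.sum_ite_mem,
          Finset.inter_eq_right.2 (Finset.sdiff_subset.trans hFΓ),
          Finset.inter_eq_right.2 (Finset.sdiff_subset.trans (himg g hg)), Finset.sum_const,
          nsmul_eq_mul]
        ring
      have hsd : (F \ F.image (g * ·)).card = (F.image (g * ·) \ F).card :=
        Finset.card_sdiff_comm hcardσ.symm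
      rw [hsum, hsd, mul_one_div, div_le_iff₀ hcard]
      have := hFK g hg
      linarith
    · simpa only [BoundedContinuousFunction.sub_apply, ← htrans n] using hn
  have e4 : ∀ᶠ n in (ω : Filter ℕ), ∀ j, ∀ a ∈ S,
      ‖(τs n).f (a * P j n) - (τs n).f a / k‖ < ε := by
    refine eventually_all.2 fun j => S.eventually_all.2 fun a ha => ?_
    set aa : ℕ →ᵇ A := BoundedContinuousFunction.const ℕ a
    have h := ((M.tendsto (aa * P j)).sub ((M.tendsto aa).div_const (k : ℂ))).norm
    refine h.eventually_lt_const ?_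
    rw [map_mul]
    change ‖M.τ.f (M.π aa * W j) - _‖ < ε
    rw [hWZ]
    refine lt_of_le_of_lt (hdiv _ (hSU a ha) j) ?_
    have hna : ‖M.π aa‖ ≤ M₀ := (NonUnitalStarAlgHom.norm_apply_le M.π aa).trans
      ((BoundedContinuousFunction.norm_const_le a).trans
        (Finset.single_le_sum (fun b _ => norm_nonneg b) ha))
    calc ε' * ‖M.π aa‖ ≤ ε' * (M₀ + 1) := mul_le_mul_of_nonneg_left (by linarith) hε'.le
      _ < ε := by
        have := min_le_right ε (ε / (M₀ + 1))
        have h2 : ε / (M₀ + 1) * (M₀ + 1) = ε := div_mul_cancel₀ _ (by positivity)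
        rw [hε'def]
        nlinarith
  obtain ⟨n, hn1, hn2, hn3, hn4⟩ := (e1.and (e2.and (e3.and e4))).exists
  obtain ⟨j, a, ha, h⟩ := hbad n hn1 hn2 hn3
  exact (hn4 j a ha).not_ge h

/-- **Equivariant uniform property Gamma.** -/
theorem exists_invariant_division [PartialOrder A] [StarOrderedRing A]
    [TopologicalSpace.SeparableSpace A] [Countable G] (α : G → A ≃⋆ₐ[ℂ] A)
    (h1 : ∀ a, α 1 a = a) (hmul : ∀ g h a, α (g * h) a = α g (α h a))
    (hG : ∀ (K : Finset G) (ε : ℝ), 0 < ε → ∃ F : Finset G, F.Nonempty ∧ ∀ g ∈ K,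
      (((F.image (g * ·)) \ F).card : ℝ) ≤ ε * F.card)
    {𝒯 : Set (A →ₗ[ℂ] ℂ)} (h𝒯 : AreTraces 𝒯)
    (hinv : ∀ τ ∈ 𝒯, ∀ g, ∃ τ' ∈ 𝒯, ∀ a, τ' a = τ (α g a))
    {x : ℕ →ᵇ A} (hx0 : SmallTo 𝒯 fun n => x n * x n)
    (hx1 : SmallTo 𝒯 fun n => star (x n) * x n + x n * star (x n) - 1)
    (hxc : ∀ a, SmallTo 𝒯 fun n => x n * a - a * x n)
    (k : ℕ) (hk : 0 < k) :
    ∃ p : Fin k → ℕ → A, (∀ j n, 0 ≤ p j n) ∧ (∀ n, ∑ j, p j n = 1) ∧
      (∀ i j, i ≠ j → SmallTo 𝒯 fun n => p i n * p j n) ∧
      (∀ j a, SmallTo 𝒯 fun n => p j n * a - a * p j n) ∧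
      (∀ j g, SmallTo 𝒯 fun n => α g (p j n) - p j n) ∧
      ∀ j a, ∀ ε > 0, ∀ᶠ n in atTop, ∀ τ ∈ 𝒯, ‖τ (a * p j n) - τ a / k‖ < ε := by
  classical
  obtain ⟨a, ha⟩ := TopologicalSpace.exists_dense_seq A
  obtain ⟨e, he⟩ := exists_surjective_nat G
  have hstage := fun n : ℕ => exists_stage α h1 hmul hG h𝒯 hinv hx0 hx1 hxc k hk
    ((Finset.range (n + 1)).image e) ((Finset.range (n + 1)).image a)
    (ε := 1 / (n + 1)) (by positivity)
  choose p hp0 hp1 hp using hstage
  have hnorm : ∀ j n, ‖p n j‖ ≤ 1 := fun j n =>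
    (CStarAlgebra.norm_le_one_iff_of_nonneg _ (hp0 n j)).2
      (hp1 n ▸ Finset.single_le_sum (fun l _ => hp0 n l) (Finset.mem_univ j))
  have hsmall : ∀ ε > 0, ∀ᶠ n : ℕ in atTop, (1 / (n + 1) : ℝ) < ε := fun ε hε =>
    tendsto_one_div_add_atTop_nhds_zero_nat.eventually_lt_const hε
  have hev : ∀ i, ∀ᶠ n : ℕ in atTop, i ∈ Finset.range (n + 1) := fun i =>
    (eventually_ge_atTop i).mono fun n hn => Finset.mem_range.2 (Nat.lt_succ_of_le hn)
  have hdense : ∀ (b : A) (η : ℝ), 0 < η → ∃ i, ‖b - a i‖ < η := fun b η hη => by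
    obtain ⟨_, ⟨i, rfl⟩, hi⟩ := Metric.mem_closure_iff.1 (ha b) η hη
    exact ⟨i, by rwa [← dist_eq_norm]⟩
  refine ⟨fun j n => p n j, fun j n => hp0 n j, hp1, fun i j hij ε hε => ?_,
    fun j b ε hε => ?_, fun j g ε hε => ?_, fun j b ε hε => ?_⟩
  · filter_upwards [hsmall ε hε] with n hn τ hτ
    exact ((hp n τ hτ).1 i j hij).trans hn
  · obtain ⟨i, hi⟩ := hdense b (Real.sqrt (ε / 32)) (by positivity)
    filter_upwards [hsmall (ε / 4) (by positivity), hev i] with n hn hin τ hτ
    set T : TraceState A := ⟨τ, (h𝒯 τ hτ).1, (h𝒯 τ hτ).2.1, (h𝒯 τ hτ).2.2.1,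
      (h𝒯 τ hτ).2.2.2.1, (h𝒯 τ hτ).2.2.2.2⟩
    have h2 := (hp n τ hτ).2.1 j (a i) (Finset.mem_image_of_mem a hin)
    change T.hsq (p n j * b - b * p n j) < ε
    change T.hsq (p n j * a i - a i * p n j) < 1 / (n + 1) at h2
    set X := p n j * (b - a i) - (b - a i) * p n j
    have hX : ‖X‖ ≤ 2 * Real.sqrt (ε / 32) :=
      calc ‖X‖ ≤ ‖p n j‖ * ‖b - a i‖ + ‖b - a i‖ * ‖p n j‖ :=
            (norm_sub_le _ _).trans (add_le_add (norm_mul_le _ _) (norm_mul_le _ _))
        _ ≤ _ := by nlinarith [hnorm j n, norm_nonneg (b - a i), norm_nonneg (p n j)]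
    have hX2 : T.hsq X ≤ ε / 8 := by
      refine (T.hsq_le_norm_sq X).trans ((pow_le_pow_left₀ (norm_nonneg X) hX 2).trans ?_)
      rw [mul_pow, Real.sq_sqrt (by positivity)]
      linarith
    have he : p n j * b - b * p n j = X + (p n j * a i - a i * p n j) := by
      simp only [X]
      noncomm_ring
    rw [he]
    linarith [T.hsq_add_le X (p n j * a i - a i * p n j)]
  · obtain ⟨i, rfl⟩ := he g
    filter_upwards [hsmall ε hε, hev i] with n hn hin τ hτ
    exact ((hp n τ hτ).2.2.1 j (e i) (Finset.mem_image_of_mem e hin)).trans hn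
  · obtain ⟨i, hi⟩ := hdense b (ε / 4) (by positivity)
    filter_upwards [hsmall (ε / 4) (by positivity), hev i] with n hn hin τ hτ
    obtain ⟨-, -, -, -, hbd⟩ := h𝒯 τ hτ
    have h4 := ((hp n τ hτ).2.2.2 j (a i) (Finset.mem_image_of_mem a hin)).trans hn
    have e1 : τ (b * p n j) - τ b / k =
        τ ((b - a i) * p n j) - τ (b - a i) / k + (τ (a i * p n j) - τ (a i) / k) := by
      rw [sub_mul, map_sub, map_sub]
      ring
    have h5 : ‖τ ((b - a i) * p n j)‖ ≤ ε / 4 :=
      calc _ ≤ ‖b - a i‖ * ‖p n j‖ := (hbd _).trans (norm_mul_le _ _)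
        _ ≤ ε / 4 * 1 := mul_le_mul hi.le (hnorm j n) (norm_nonneg _) (by positivity)
        _ = _ := mul_one _
    have h6 : ‖τ (b - a i) / k‖ ≤ ε / 4 := by
      rw [norm_div, Complex.norm_natCast]
      refine (div_le_self (norm_nonneg _) (by exact_mod_cast hk)).trans ((hbd _).trans hi.le)
    rw [e1]
    refine lt_of_le_of_lt (norm_add_le _ _) ?_
    linarith [norm_sub_le (τ ((b - a i) * p n j)) (τ (b - a i) / (k : ℂ))]

end Vale.Agent.P095.Gamma
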