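import Vale.Agent.P095.Gamma.Slots
import Vale.Agent.P101.Assemble
import Vale.Agent.P101.Fomega.Instances

/-!
P095: if `F_ω(A)` has no characters (in particular if it receives a dimension drop algebra) then
`A` has a central sequence of McDuff type in the uniform 2-norm of its traces.

Iterating the join over `N` commuting copies of a dimension drop pair leaves a defect of trace at
most `(2/3) ^ N`.
-/

open Filter Topology BoundedContinuousFunction

namespace Vale.Agent.P095.Gamma

open Vale.Agent.P101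

section algebra

variable {B : Type*} [CStarAlgebra B] [PartialOrder B] [StarOrderedRing B]

theorem re_mono (φ : TraceState B) {x y : B} (h : x ≤ y) : (φ.f x).re ≤ (φ.f y).re := by
  have h0 := φ.nonneg (CFC.sqrt (y - x))
  rw [star_sqrt, CFC.sqrt_mul_sqrt_self _ (sub_nonneg.2 h), map_sub, Complex.sub_re] at h0
  linarith

theorem sqZero_of_pair {c s : B} (h : DimDropPair c s) : SqZero c := by
  refine ⟨h.1, ?_⟩
  have h1 : star c * c ≤ 1 := by
    have h2 : 0 ≤ star s * s := star_mul_self_nonneg s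
    rw [h.2.1, sub_sub, sub_nonneg] at h2
    exact le_trans (le_add_of_nonneg_right (mul_star_self_nonneg c)) h2
  rw [← CStarAlgebra.norm_le_one_iff_of_nonneg _ (star_mul_self_nonneg c),
    CStarRing.norm_star_mul_self] at h1
  nlinarith [norm_nonneg c]

/-- One commuting dimension drop pair cuts the trace of the remaining defect by a factor three. -/
theorem trace_mul_defect_le (φ : TraceState B) {c s X : B} (h : DimDropPair c s) (hX : 0 ≤ X)
    (hc : Commute X c) (hc' : Commute X (star c)) (hs : Commute X s) (hs' : Commute X (star s)) :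
    3 * (φ.f (X * (1 - sPart c))).re ≤ (φ.f X).re := by
  set r := CFC.sqrt X with hr
  have rr : r * r = X := CFC.sqrt_mul_sqrt_self X hX
  have rs : star r = r := star_sqrt X
  have rc : Commute r c := commute_sqrt hc
  have rc' : Commute r (star c) := commute_sqrt hc'
  have r1 : Commute r s := commute_sqrt hs
  have r1' : Commute r (star s) := commute_sqrt hs'
  have hd : 1 - sPart c = star s * s := by rw [h.2.1, sPart]; abel
  have hcc : SqZero c := sqZero_of_pair h
  have hsc : s * star s ≤ star c * c := by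
    have hs1 : star s * s ≤ 1 := by
      rw [← hd]; exact sub_le_self _ sPart_nonneg
    have hs2 : s * star s ≤ 1 := by
      rw [← CStarAlgebra.norm_le_one_iff_of_nonneg _ (mul_star_self_nonneg s),
        CStarRing.norm_self_mul_star, ← CStarRing.norm_star_mul_self,
        CStarAlgebra.norm_le_one_iff_of_nonneg _ (star_mul_self_nonneg s)]
      exact hs1
    have e : star s * (star c * c) = star s := by
      have := congrArg star h.2.2
      rwa [star_mul, star_mul, star_star] at this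
    have h3 : s * star s = star c * c * (s * star s) * (star c * c) := by
      conv_rhs => rw [← mul_assoc (star c * c) s (star s), h.2.2, mul_assoc, e]
    have h4 : star c * c * (s * star s) * (star c * c) ≤ star c * c * (star c * c) := by
      have := star_left_conjugate_le_conjugate hs2 (star c * c)
      rwa [star_mul, star_star, mul_one] at this
    have h5 : star c * c * (star c * c) ≤ star c * c := by
      have := star_left_conjugate_le_conjugate hcc.absL_le_one c
      rwa [mul_one, show star c * (c * star c) * c = star c * c * (star c * c) by noncomm_ring] at this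
    rw [h3]
    exact h4.trans h5
  have e1 : φ.f (X * (star s * s)) = φ.f (r * (s * star s) * r) := by
    calc φ.f (X * (star s * s)) = φ.f ((r * star s) * (r * s)) := by
          rw [mm r1'.symm, rr]
      _ = φ.f ((r * s) * (r * star s)) := φ.trace _ _
      _ = φ.f (r * (s * star s) * r) := by
          rw [r1'.eq]; congr 1; noncomm_ring
  have e2 : φ.f (r * (star c * c) * r) = φ.f (X * (star c * c)) := by
    rw [φ.trace, ← mul_assoc, rr]
  have e3 : φ.f (X * (c * star c)) = φ.f (X * (star c * c)) := by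
    calc φ.f (X * (c * star c)) = φ.f ((X * c) * star c) := by rw [mul_assoc]
      _ = φ.f (star c * (X * c)) := φ.trace _ _
      _ = φ.f (X * (star c * c)) := by rw [← mul_assoc, ← hc'.eq, mul_assoc]
  have h6 : (φ.f (r * (s * star s) * r)).re ≤ (φ.f (r * (star c * c) * r)).re := by
    refine re_mono φ ?_
    have := star_left_conjugate_le_conjugate hsc r
    rwa [rs] at this
  rw [← e1, e2] at h6
  have e4 : φ.f (X * (star s * s)) + φ.f (X * (star c * c)) + φ.f (X * (star c * c)) = φ.f X := by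
    nth_rw 2 [← e3]
    rw [← map_add, ← map_add, h.2.1]
    congr 1
    noncomm_ring
  have e5 := congrArg Complex.re e4
  simp only [Complex.add_re] at e5
  rw [hd]
  linarith

end algebra

/-- Iterated joins of commuting copies: square zero elements with defect of trace `(2/3) ^ N`. -/
theorem exists_small_defect {B : Type*} [CStarAlgebra B] [PartialOrder B] [StarOrderedRing B]
    (hB : HasCopies B) (h : ∃ c s : B, DimDropPair c s) (N : ℕ) :
    ∀ S : Finset B, ∃ x : B, SqZero x ∧ (∀ b ∈ S, Commute x b ∧ Commute (star x) b) ∧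
      ∀ φ : TraceState B, (φ.f (1 - sPart x)).re ≤ (2 / 3 : ℝ) ^ N := by
  classical
  induction N with
  | zero =>
    exact fun S => ⟨0, sqZero_zero, fun b _ => by simp, fun φ => by simp [sPart, φ.one]⟩
  | succ N ih =>
    intro S
    obtain ⟨c, s, hcs⟩ := h
    obtain ⟨ψ, hψ⟩ := hB {c, s} S
    let c₀ : cstarGen (({c, s} : Finset B) : Set B) := ⟨c, mem_cstarGen_of_mem (by simp)⟩
    let s₀ : cstarGen (({c, s} : Finset B) : Set B) := ⟨s, mem_cstarGen_of_mem (by simp)⟩
    set c' := ψ c₀ with hc'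
    set s' := ψ s₀ with hs'
    have h' : DimDropPair c' s' := by
      refine ⟨?_, ?_, ?_⟩
      · rw [hc', ← map_mul, show c₀ * c₀ = 0 from Subtype.ext hcs.1, map_zero]
      · rw [hc', hs', ← map_star, ← map_star, ← map_mul, ← map_mul, ← map_mul,
          show star s₀ * s₀ = 1 - star c₀ * c₀ - c₀ * star c₀ from Subtype.ext hcs.2.1,
          map_sub, map_sub, map_one]
      · rw [hc', hs', ← map_star, ← map_mul, ← map_mul,
          show star c₀ * c₀ * s₀ = s₀ from Subtype.ext hcs.2.2]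
    obtain ⟨x, hx, hxS, hxφ⟩ := ih (S ∪ {c', star c', s', star s'})
    have hxc := hxS c' (by simp)
    have hxc' := hxS (star c') (by simp)
    have hxs := hxS s' (by simp)
    have hxs' := hxS (star s') (by simp)
    have hu := sqZero_of_pair h'
    refine ⟨join x c', join_sqZero hx hu hxc.1 hxc'.1, fun b hb => ?_, fun φ => ?_⟩
    · have h1 := hxS b (Finset.mem_union_left _ hb)
      have h2 : Commute c' b := hψ c₀ b hb
      have h3 : Commute (star c') b := by rw [hc', ← map_star]; exact hψ _ b hb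
      obtain ⟨j1, j2, -⟩ := commute_join hx hu h1.1 h1.2 h2 h3
      exact ⟨j1, j2⟩
    · have hX : 0 ≤ 1 - sPart x := sub_nonneg.2 (sPart_le_one hx)
      have cm : ∀ y, Commute x y → Commute (star x) y → Commute (1 - sPart x) y := fun y a b =>
        (Commute.one_left y).sub_left (commute_sPart_of a b)
      have h3 := trace_mul_defect_le φ h' hX (cm _ hxc.1 hxc.2) (cm _ hxc'.1 hxc'.2)
        (cm _ hxs.1 hxs.2) (cm _ hxs'.1 hxs'.2)
      have h4 := re_mono φ (one_sub_sPart_join_le hx hu hxc.1 hxc'.1)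
      rw [two_mul, map_add, Complex.add_re] at h4
      have h5 := hxφ φ
      rw [pow_succ]
      linarith

/-! ### Limit traces on `F_ω(A)` -/

variable {A : Type*} [CStarAlgebra A] {ω : Ultrafilter ℕ}

theorem exists_tendsto_of_norm_le {f : ℕ → ℂ} {R : ℝ} (h : ∀ n, ‖f n‖ ≤ R) :
    ∃ L, Tendsto f ω (𝓝 L) := by
  obtain ⟨L, -, hL⟩ := (isCompact_closedBall (0 : ℂ) R).ultrafilter_le_nhds (ω.map f)
    (le_principal_iff.2 (Filter.mem_map.2 (Eventually.of_forall fun n =>
      mem_closedBall_zero_iff.2 (h n))))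
  exact ⟨L, hL⟩

/-- A sequence of tracial states induces a tracial state on `F_ω(A)`. -/
theorem exists_limit_traceState (τs : ℕ → TraceState A) :
    ∃ φ : TraceState (Fomega A ω), ∀ x : centralSeq A ω,
      Tendsto (fun n => (τs n).f ((x : ℕ →ᵇ A) n)) ω (𝓝 (φ.f (fomegaMk x))) := by
  have hex : ∀ y : Fomega A ω, ∃ L, ∀ x : centralSeq A ω, fomegaMk x = y →
      Tendsto (fun n => (τs n).f ((x : ℕ →ᵇ A) n)) ω (𝓝 L) := by
    intro y
    obtain ⟨x₀, hx₀⟩ := Ideal.Quotient.mk_surjective y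
    obtain ⟨L, hL⟩ := exists_tendsto_of_norm_le (ω := ω) (f := fun n => (τs n).f ((x₀ : ℕ →ᵇ A) n))
      fun n => ((τs n).bound _).trans ((x₀ : ℕ →ᵇ A).norm_coe_le_norm n)
    refine ⟨L, fun x hx => ?_⟩
    have hnull : Tendsto (fun n => ‖((x - x₀ : centralSeq A ω) : ℕ →ᵇ A) n‖) ω (𝓝 0) :=
      Ideal.Quotient.eq.1 (hx.trans hx₀.symm)
    have h0 : Tendsto (fun n => (τs n).f ((x : ℕ →ᵇ A) n) - (τs n).f ((x₀ : ℕ →ᵇ A) n)) ω (𝓝 0) :=
      squeeze_zero_norm (fun n => by rw [← map_sub]; exact (τs n).bound _) hnull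
    simpa using h0.add hL
  choose Φ hΦ using hex
  have key : ∀ x : centralSeq A ω,
      Tendsto (fun n => (τs n).f ((x : ℕ →ᵇ A) n)) ω (𝓝 (Φ (fomegaMk x))) :=
    fun x => hΦ _ x rfl
  have hadd : ∀ x y, Φ (x + y) = Φ x + Φ y := by
    intro x y
    obtain ⟨a, rfl⟩ := Ideal.Quotient.mk_surjective x
    obtain ⟨b, rfl⟩ := Ideal.Quotient.mk_surjective y
    refine tendsto_nhds_unique (key (a + b)) (((key a).add (key b)).congr fun n => ?_)
    simp
  have hsmul : ∀ (t : ℂ) x, Φ (t • x) = t • Φ x := by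
    intro t x
    obtain ⟨a, rfl⟩ := Ideal.Quotient.mk_surjective x
    have h1 := key (t • a)
    rw [map_smul] at h1
    refine tendsto_nhds_unique h1 (((key a).const_smul t).congr fun n => ?_)
    simp
  refine ⟨{
    f := { toFun := Φ, map_add' := hadd, map_smul' := hsmul }
    trace := fun x y => ?_
    nonneg := fun x => ?_
    star_map := fun x => ?_
    one := ?_
    bound := fun x => ?_ }, key⟩
  · obtain ⟨a, rfl⟩ := Ideal.Quotient.mk_surjective x
    obtain ⟨b, rfl⟩ := Ideal.Quotient.mk_surjective y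
    refine tendsto_nhds_unique (key (a * b)) ((key (b * a)).congr fun n => ?_)
    simpa using (τs n).trace _ _
  · obtain ⟨a, rfl⟩ := Ideal.Quotient.mk_surjective x
    exact ge_of_tendsto ((Complex.continuous_re.tendsto _).comp (key (star a * a)))
      (Eventually.of_forall fun n => by simpa using (τs n).nonneg _)
  · obtain ⟨a, rfl⟩ := Ideal.Quotient.mk_surjective x
    refine tendsto_nhds_unique (key (star a)) (((Complex.continuous_conj.tendsto _).comp (key a)).congr fun n => ?_)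
    simpa using ((τs n).star_map _).symm
  · exact tendsto_nhds_unique (key 1) (tendsto_const_nhds.congr fun n => by simp [(τs n).one])
  · obtain ⟨a, rfl⟩ := Ideal.Quotient.mk_surjective x
    refine le_of_forall_pos_le_add fun η hη => ?_
    refine le_of_tendsto (key a).norm ?_
    filter_upwards [eventually_norm_lt_of_norm_mk_lt a (lt_add_of_pos_right _ hη)] with n hn
    exact ((τs n).bound _).trans hn.le

/-! ### Extraction -/

theorem exists_bad_trace {𝒯 : Set (A →ₗ[ℂ] ℂ)} (h𝒯 : AreTraces 𝒯) (y : A) (ε : ℝ)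
    (h : ∃ τ ∈ 𝒯, ε ≤ (τ y).re) : ∃ T : TraceState A, ε ≤ (T.f y).re := by
  obtain ⟨τ, hτ, hb⟩ := h
  exact ⟨⟨τ, (h𝒯 τ hτ).1, (h𝒯 τ hτ).2.1, (h𝒯 τ hτ).2.2.1, (h𝒯 τ hτ).2.2.2.1,
    (h𝒯 τ hτ).2.2.2.2⟩, hb⟩

/-- A quantity small in every limit trace is eventually uniformly small. -/
theorem eventually_trace_lt {𝒯 : Set (A →ₗ[ℂ] ℂ)} (h𝒯 : AreTraces 𝒯) (z : centralSeq A ω)
    {ε : ℝ} (h : ∀ φ : TraceState (Fomega A ω), (φ.f (fomegaMk z)).re < ε) :
    ∀ᶠ n in (ω : Filter ℕ), ∀ τ ∈ 𝒯, (τ ((z : ℕ →ᵇ A) n)).re < ε := by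
  classical
  by_contra hne
  rw [← Ultrafilter.eventually_not] at hne
  have hne' : ∀ᶠ n in (ω : Filter ℕ), ∃ τ ∈ 𝒯, ε ≤ (τ ((z : ℕ →ᵇ A) n)).re :=
    hne.mono fun n hn => by simpa [not_lt] using hn
  obtain ⟨n₀, hn₀⟩ := hne'.exists
  obtain ⟨T₀, -⟩ := exists_bad_trace h𝒯 _ ε hn₀
  let τs : ℕ → TraceState A := fun n =>
    if hn : ∃ τ ∈ 𝒯, ε ≤ (τ ((z : ℕ →ᵇ A) n)).re then (exists_bad_trace h𝒯 _ ε hn).choose else T₀
  obtain ⟨φ, hφ⟩ := exists_limit_traceState (ω := ω) τs
  refine (h φ).not_ge (ge_of_tendsto ((Complex.continuous_re.tendsto _).comp (hφ z)) ?_)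
  filter_upwards [hne'] with n hn
  simp only [Function.comp, τs, dif_pos hn]
  exact (exists_bad_trace h𝒯 _ ε hn).choose_spec

theorem trace_defect_sq_le [PartialOrder (Fomega A ω)] [StarOrderedRing (Fomega A ω)]
    {X : Fomega A ω} (hX : SqZero X) (φ : TraceState (Fomega A ω)) :
    (φ.f ((1 - sPart X) * (1 - sPart X))).re ≤ (φ.f (1 - sPart X)).re := by
  refine re_mono φ ?_
  set Y := 1 - sPart X
  have hY0 : 0 ≤ Y := sub_nonneg.2 (sPart_le_one hX)
  have hY1 : Y ≤ 1 := sub_le_self _ sPart_nonneg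
  have h1 : Commute Y (1 - Y) := (Commute.one_right _).sub_right (Commute.refl _)
  have := Commute.mul_nonneg hY0 (sub_nonneg.2 hY1) h1
  rwa [mul_sub, mul_one, sub_nonneg] at this

theorem exists_mcDuff_stage [TopologicalSpace.SeparableSpace A] (hω : (ω : Filter ℕ) ≤ atTop)
    (h : IsEmpty (Fomega A ω →⋆ₐ[ℂ] ℂ)) {𝒯 : Set (A →ₗ[ℂ] ℂ)} (h𝒯 : AreTraces 𝒯) (e : ℕ → A)
    (k : ℕ) {ε : ℝ} (hε : 0 < ε) :
    ∃ a : A, ‖a‖ ≤ 2 ∧ ‖a * a‖ < ε ∧ (∀ i ≤ k, ‖a * e i - e i * a‖ < ε) ∧
      ∀ τ ∈ 𝒯, (τ (star (star a * a + a * star a - 1) * (star a * a + a * star a - 1))).re < ε := by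
  let := CStarAlgebra.spectralOrder (Fomega A ω)
  have := CStarAlgebra.spectralOrderedRing (Fomega A ω)
  obtain ⟨N, hN⟩ := exists_pow_lt_of_lt_one hε (show (2 / 3 : ℝ) < 1 by norm_num)
  obtain ⟨X, hX, -, hXφ⟩ := exists_small_defect (hasCopies_fomega hω)
    (exists_dimDropPair (hasCopies_fomega hω) h) N ∅
  obtain ⟨x, rfl⟩ : ∃ x, fomegaMk x = X := Ideal.Quotient.mk_surjective X
  set d : centralSeq A ω := star x * x + x * star x - 1 with hd
  have hdY : fomegaMk d = -(1 - sPart (fomegaMk x)) := by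
    rw [hd, map_sub, map_add, map_mul, map_mul, map_star, map_one, sPart]
    abel
  have hdd : fomegaMk (star d * d) = (1 - sPart (fomegaMk x)) * (1 - sPart (fomegaMk x)) := by
    rw [map_mul, map_star, hdY, star_neg, neg_mul_neg, star_sub, star_one, isSelfAdjoint_sPart]
  have ev1 : ∀ᶠ n in (ω : Filter ℕ), ‖(x : ℕ →ᵇ A) n‖ < 2 :=
    eventually_norm_lt_of_norm_mk_lt x (lt_of_le_of_lt hX.2 one_lt_two)
  have h0 : ‖Ideal.Quotient.mk (nullIdeal A ω) (x * x)‖ < ε := by
    rw [show Ideal.Quotient.mk (nullIdeal A ω) (x * x) = fomegaMk (x * x) from rfl, map_mul, hX.1,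
      norm_zero]
    exact hε
  have ev2 := eventually_norm_lt_of_norm_mk_lt (x * x) h0
  have ev3 : ∀ᶠ n in (ω : Filter ℕ), ∀ i ≤ k, ‖(x : ℕ →ᵇ A) n * e i - e i * (x : ℕ →ᵇ A) n‖ < ε :=
    (Set.finite_Iic k).eventually_all.2 fun i _ =>
      (x.2 (e i)).norm.eventually_lt_const (by simpa using hε)
  have ev4 := eventually_trace_lt h𝒯 (star d * d) (ε := ε) fun φ => by
    rw [hdd]
    exact lt_of_le_of_lt ((trace_defect_sq_le hX φ).trans (hXφ φ)) hN
  obtain ⟨n, h1, h2, h3, h4⟩ := (ev1.and (ev2.and (ev3.and ev4))).exists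
  exact ⟨(x : ℕ →ᵇ A) n, h1.le, h2, h3, h4⟩

/-- If `F_ω(A)` has no characters then `A` is uniformly McDuff: it has a central sequence `x` with
`x² → 0` and `x* x + x x* → 1` in the 2-norm, uniformly over its tracial states. -/
theorem exists_mcDuff_seq [TopologicalSpace.SeparableSpace A] (hω : (ω : Filter ℕ) ≤ atTop)
    (h : IsEmpty (Fomega A ω →⋆ₐ[ℂ] ℂ)) {𝒯 : Set (A →ₗ[ℂ] ℂ)} (h𝒯 : AreTraces 𝒯) :
    ∃ x : ℕ →ᵇ A, SmallTo 𝒯 (fun n => x n * x n) ∧
      SmallTo 𝒯 (fun n => star (x n) * x n + x n * star (x n) - 1) ∧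
      ∀ a, SmallTo 𝒯 fun n => x n * a - a * x n := by
  obtain ⟨e, he⟩ := TopologicalSpace.exists_dense_seq A
  choose a ha1 ha2 ha3 ha4 using fun n : ℕ =>
    exists_mcDuff_stage hω h h𝒯 e n (ε := 1 / ((n : ℝ) + 1)) (by positivity)
  let x : ℕ →ᵇ A := BoundedContinuousFunction.ofNormedAddCommGroupDiscrete a 2 ha1
  have hlim : Tendsto (fun n : ℕ => 1 / ((n : ℝ) + 1)) atTop (𝓝 0) :=
    tendsto_one_div_add_atTop_nhds_zero_nat
  have small : ∀ y : ℕ → A, Tendsto (fun n => ‖y n‖) atTop (𝓝 0) → SmallTo 𝒯 y := by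
    intro y hy ε hε
    have h2 : Tendsto (fun n => ‖y n‖ * ‖y n‖) atTop (𝓝 0) := by simpa using hy.mul hy
    filter_upwards [h2.eventually_lt_const hε] with n hn τ hτ
    refine lt_of_le_of_lt ((Complex.re_le_norm _).trans ((h𝒯 τ hτ).2.2.2.2 _)) ?_
    rwa [CStarRing.norm_star_mul_self]
  refine ⟨x, small _ (squeeze_zero (fun _ => norm_nonneg _) (fun n => (ha2 n).le) hlim),
    fun ε hε => ?_, fun b => small _ ?_⟩
  · filter_upwards [hlim.eventually_lt_const hε] with n hn τ hτ
    exact (ha4 n τ hτ).trans hn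
  · rw [Metric.tendsto_atTop]
    intro ε hε
    obtain ⟨i, hi⟩ := he.exists_dist_lt b (show (0:ℝ) < ε / 8 by positivity)
    rw [dist_eq_norm] at hi
    obtain ⟨M, hM⟩ := Metric.tendsto_atTop.1 hlim (ε / 2) (by positivity)
    refine ⟨max M i, fun n hn => ?_⟩
    have h1 := ha3 n i (le_of_max_le_right hn)
    have h2 : 1 / ((n : ℝ) + 1) < ε / 2 := (le_abs_self _).trans_lt
      (by simpa [Real.dist_eq] using hM n (le_of_max_le_left hn))
    rw [Real.dist_0_eq_abs, abs_norm]
    change ‖a n * b - b * a n‖ < ε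
    have e1 : a n * b - b * a n =
        a n * (b - e i) - (b - e i) * a n + (a n * e i - e i * a n) := by noncomm_ring
    rw [e1]
    have h3 : ‖a n‖ * ‖b - e i‖ ≤ 2 * (ε / 8) := mul_le_mul (ha1 n) hi.le (norm_nonneg _) two_pos.le
    calc _ ≤ ‖a n‖ * ‖b - e i‖ + ‖b - e i‖ * ‖a n‖ + ‖a n * e i - e i * a n‖ :=
          (norm_add_le _ _).trans (add_le_add ((norm_sub_le _ _).trans
            (add_le_add (norm_mul_le _ _) (norm_mul_le _ _))) le_rfl)
      _ < ε := by linarith [mul_comm ‖a n‖ ‖b - e i‖]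

end Vale.Agent.P095.Gamma
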