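import Vale.Agent.P101.Fomega.Main
import Vale.Agent.P095.Gamma.Main
import Vale.Agent.P095.Gamma.McDuff

/-! P095: equivariant uniform property Gamma over all tracial states. -/

open Filter Topology BoundedContinuousFunction
open scoped ComplexOrder InnerProductSpace

namespace Vale.Agent.P095.Gamma

variable {A : Type*} [CStarAlgebra A]

/-- The tracial states of `A`. -/
def allTraces (A : Type*) [CStarAlgebra A] : Set (A →ₗ[ℂ] ℂ) :=
  {τ | (∀ x y, τ (x * y) = τ (y * x)) ∧ (∀ x, 0 ≤ τ (star x * x)) ∧ τ 1 = 1}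

theorem areTraces_allTraces [PartialOrder A] [StarOrderedRing A] : AreTraces (allTraces A) := by
  rintro τ ⟨htr, hpos, hone⟩
  let f : A →ₚ[ℂ] ℂ := PositiveLinearMap.mk₀ τ fun x hx => by
    obtain ⟨y, rfl⟩ := CStarAlgebra.nonneg_iff_eq_star_mul_self.1 hx
    exact hpos y
  refine ⟨htr, fun x => (Complex.nonneg_iff.1 (hpos x)).1, fun x => map_star f x, hone, fun x => ?_⟩
  have hn : ∀ y : A, ‖f.toPreGNS y‖ ≤ ‖y‖ := fun y => by
    rw [f.preGNS_norm_def, Real.sqrt_le_left (norm_nonneg y)]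
    have h1 : τ (star y * y) ≤ τ (algebraMap ℝ A ‖star y * y‖) :=
      f.apply_le_of_isSelfAdjoint _ (IsSelfAdjoint.star_mul_self y)
    rw [Algebra.algebraMap_eq_smul_one, ← Complex.coe_smul, map_smul, hone,
      CStarRing.norm_star_mul_self] at h1
    have h2 := (Complex.le_def.1 h1).1
    simp only [smul_eq_mul, mul_one, Complex.ofReal_re] at h2
    exact h2.trans_eq (sq _).symm
  have h := norm_inner_le_norm (𝕜 := ℂ) (f.toPreGNS (1 : A)) (f.toPreGNS x)
  rw [f.preGNS_inner_def] at h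
  simp only [PositiveLinearMap.ofPreGNS_toPreGNS, star_one, one_mul] at h
  refine le_trans h ?_
  have h1 : ‖f.toPreGNS (1 : A)‖ = 1 := by
    rw [f.preGNS_norm_def]
    change Real.sqrt (τ (star (1 : A) * 1)).re = 1
    simp [hone]
  rw [h1, one_mul]
  exact hn x

/-- Equivariant uniform property Gamma, for all tracial states. -/
theorem exists_invariant_division_all [PartialOrder A] [StarOrderedRing A]
    [TopologicalSpace.SeparableSpace A] {ω : Ultrafilter ℕ} (hω : (ω : Filter ℕ) ≤ atTop)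
    (hA : IsEmpty (Vale.Agent.P101.FomegaCharacter A ω))
    {G : Type*} [Group G] [Countable G] [DecidableEq G] (α : G → A ≃⋆ₐ[ℂ] A)
    (h1 : ∀ a, α 1 a = a) (hmul : ∀ g h a, α (g * h) a = α g (α h a))
    (hG : ∀ (K : Finset G) (ε : ℝ), 0 < ε → ∃ F : Finset G, F.Nonempty ∧ ∀ g ∈ K,
      (((F.image (g * ·)) \ F).card : ℝ) ≤ ε * F.card)
    (k : ℕ) (hk : 0 < k) :
    ∃ p : Fin k → ℕ → A, (∀ j n, 0 ≤ p j n) ∧ (∀ n, ∑ j, p j n = 1) ∧
      ∀ ε > 0, (∀ i j, i ≠ j → ∀ᶠ n in atTop, ∀ τ ∈ allTraces A,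
            (τ (star (p i n * p j n) * (p i n * p j n))).re < ε) ∧
        (∀ j a, ∀ᶠ n in atTop, ∀ τ ∈ allTraces A,
            (τ (star (p j n * a - a * p j n) * (p j n * a - a * p j n))).re < ε ∧
              ‖τ (a * p j n) - τ a / k‖ < ε) ∧
        ∀ j g, ∀ᶠ n in atTop, ∀ τ ∈ allTraces A,
            (τ (star (α g (p j n) - p j n) * (α g (p j n) - p j n))).re < ε := by
  obtain ⟨x, hx0, hx1, hxc⟩ := exists_mcDuff_seq hω
    (Vale.Agent.P101.isEmpty_fomegaCharacter_iff.1 hA) (areTraces_allTraces (A := A))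
  have hinv : ∀ τ ∈ allTraces A, ∀ g, ∃ τ' ∈ allTraces A, ∀ a, τ' a = τ (α g a) := by
    rintro τ ⟨htr, hpos, hone⟩ g
    refine ⟨τ.comp ((α g : A →⋆ₐ[ℂ] A).toAlgHom.toLinearMap), ⟨fun y z => ?_, fun y => ?_, ?_⟩,
      fun a => rfl⟩
    · show τ (α g (y * z)) = τ (α g (z * y))
      rw [map_mul (α g), map_mul (α g), htr]
    · show 0 ≤ τ (α g (star y * y))
      rw [map_mul (α g), map_star (α g)]
      exact hpos _
    · show τ (α g 1) = 1
      rw [map_one (α g), hone]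
  obtain ⟨p, hp0, hp1, hpp, hpc, hpinv, hpt⟩ :=
    exists_invariant_division α h1 hmul hG areTraces_allTraces hinv hx0 hx1 hxc k hk
  exact ⟨p, hp0, hp1, fun ε hε => ⟨fun i j hij => hpp i j hij ε hε, fun j a =>
    ((hpc j a ε hε).and (hpt j a ε hε)).mono fun n hn τ hτ => ⟨hn.1 τ hτ, hn.2 τ hτ⟩,
    fun j g => hpinv j g ε hε⟩⟩

end Vale.Agent.P095.Gamma
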