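import Vale.Agent.P095.Gamma.Basic

/-! P095: the 2-norm of a tracial state is a seminorm dominated by the operator norm. -/

namespace Vale.Agent.P095.Gamma

namespace TraceState

variable {C : Type*} [CStarAlgebra C] (τ : TraceState C)

theorem hsq_nonneg (x : C) : 0 ≤ τ.hsq x := τ.nonneg x

theorem hsq_smul (r : ℂ) (x : C) : τ.hsq (r • x) = ‖r‖ ^ 2 * τ.hsq x := by
  simp only [hsq, star_smul, smul_mul_smul_comm, map_smul, smul_eq_mul]
  rw [show star r * r = ((‖r‖ ^ 2 : ℝ) : ℂ) by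
    rw [← Complex.normSq_eq_norm_sq, Complex.normSq_eq_conj_mul_self]; rfl, Complex.re_ofReal_mul]

theorem hsq_neg (x : C) : τ.hsq (-x) = τ.hsq x := by simp [hsq]

theorem hsq_le_norm_sq (x : C) : τ.hsq x ≤ ‖x‖ ^ 2 :=
  (Complex.re_le_norm _).trans ((τ.bound _).trans (by rw [CStarRing.norm_star_mul_self, sq]))

/-- The 2-norm. -/
noncomputable def n2 (x : C) : ℝ := Real.sqrt (τ.hsq x)

theorem n2_le_norm (x : C) : τ.n2 x ≤ ‖x‖ :=
  (Real.sqrt_le_sqrt (τ.hsq_le_norm_sq x)).trans (by rw [Real.sqrt_sq (norm_nonneg x)])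

theorem n2_sq (x : C) : τ.n2 x ^ 2 = τ.hsq x := Real.sq_sqrt (τ.hsq_nonneg x)

theorem n2_neg (x : C) : τ.n2 (-x) = τ.n2 x := by rw [n2, n2, hsq_neg]

theorem n2_smul (r : ℂ) (x : C) : τ.n2 (r • x) = ‖r‖ * τ.n2 x := by
  rw [n2, hsq_smul, Real.sqrt_mul (sq_nonneg _), Real.sqrt_sq (norm_nonneg r), n2]

theorem re_star_mul_comm (x y : C) : (τ.f (star y * x)).re = (τ.f (star x * y)).re := by
  rw [show star y * x = star (star x * y) by rw [star_mul, star_star], τ.star_map,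
    Complex.conj_re]

theorem hsq_add (x y : C) :
    τ.hsq (x + y) = τ.hsq x + 2 * (τ.f (star x * y)).re + τ.hsq y := by
  simp only [hsq, star_add, add_mul, mul_add, map_add, Complex.add_re, re_star_mul_comm τ x y]
  ring

theorem re_inner_le (x y : C) : (τ.f (star x * y)).re ≤ τ.n2 x * τ.n2 y := by
  have h : ∀ r : ℝ, 0 ≤ τ.hsq y * (r * r) + 2 * (τ.f (star x * y)).re * r + τ.hsq x := by
    intro r
    have h' := τ.hsq_nonneg (x + (r : ℂ) • y)
    rw [hsq_add, hsq_smul, mul_smul_comm, map_smul, smul_eq_mul, Complex.re_ofReal_mul,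
      Complex.norm_real, Real.norm_eq_abs, sq_abs] at h'
    linarith
  have hd := discrim_le_zero h
  simp only [discrim] at hd
  refine le_of_abs_le ?_
  rw [n2, n2, ← Real.sqrt_mul (τ.hsq_nonneg x), ← Real.sqrt_sq_eq_abs]
  exact Real.sqrt_le_sqrt (by nlinarith)

theorem n2_add_le (x y : C) : τ.n2 (x + y) ≤ τ.n2 x + τ.n2 y := by
  refine Real.sqrt_le_iff.2 ⟨add_nonneg (Real.sqrt_nonneg _) (Real.sqrt_nonneg _), ?_⟩
  rw [hsq_add]
  nlinarith [re_inner_le τ x y, n2_sq τ x, n2_sq τ y]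

theorem n2_sub_le (x y : C) : τ.n2 (x - y) ≤ τ.n2 x + τ.n2 y := by
  simpa [sub_eq_add_neg, n2_neg] using τ.n2_add_le x (-y)

theorem n2_zero : τ.n2 0 = 0 := by simp [n2, hsq]

theorem n2_sum_le {ι : Type*} (s : Finset ι) (x : ι → C) :
    τ.n2 (∑ i ∈ s, x i) ≤ ∑ i ∈ s, τ.n2 (x i) :=
  Finset.le_sum_of_subadditive _ τ.n2_zero.le τ.n2_add_le s x

/-- A 2-norm orthogonal sum. -/
theorem hsq_sum_of_orthogonal {ι : Type*} [DecidableEq ι] (s : Finset ι) (x : ι → C)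
    (h : ∀ i ∈ s, ∀ j ∈ s, i ≠ j → τ.f (star (x i) * x j) = 0) :
    τ.hsq (∑ i ∈ s, x i) = ∑ i ∈ s, τ.hsq (x i) := by
  simp only [hsq, star_sum, Finset.sum_mul_sum, map_sum, Complex.re_sum]
  refine Finset.sum_congr rfl fun i hi => ?_
  rw [← Finset.add_sum_erase s _ hi, Finset.sum_eq_zero, add_zero]
  intro j hj
  rw [h i hi j (Finset.mem_of_mem_erase hj) (Finset.ne_of_mem_erase hj).symm, Complex.zero_re]

end TraceState

end Vale.Agent.P095.Gamma
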